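import Vale.Agent.P287T.Op.Pen

/-!
# The t-structure `(phases > s, phases ≤ s)` and the chain conditions in discrete directions
-/

set_option linter.unusedSectionVars false

open CategoryTheory CategoryTheory.Pretriangulated CategoryTheory.Limits

namespace Vale.Agent.P287T.Op

open Vale.Agent.P294

universe v u

variable {C : Type u} [Category.{v} C] [Preadditive C] [HasZeroObject C] [HasShift C ℤ]
  [∀ n : ℤ, (shiftFunctor C n).Additive] [Pretriangulated C] [IsTriangulated C]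

/-- all phases `> s` -/
def Uo (σ : Slic C) (s : ℝ) (X : C) : Prop := ∃ t, s < t ∧ σ.U t X

theorem Uo.U {σ : Slic C} {s : ℝ} {X : C} (h : Uo σ s X) : σ.U s X := by
  obtain ⟨t, ht, h⟩ := h
  exact σ.anti ht.le _ h

theorem Uo.ext {σ : Slic C} {s : ℝ} {X Y Z : C} (t : A2bTr X Y Z) (h1 : Uo σ s X)
    (h3 : Uo σ s Z) : Uo σ s Y := by
  obtain ⟨a, ha, h1⟩ := h1
  obtain ⟨b, hb, h3⟩ := h3
  exact ⟨min a b, lt_min ha hb, (σ.ts _).a2bTrU t (σ.anti (min_le_left _ _) _ h1)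
    (σ.anti (min_le_right _ _) _ h3)⟩

theorem Vc_ext {σ : Slic C} {s : ℝ} {X Y Z : C} (t : A2bTr X Y Z) (h1 : σ.Vc s X)
    (h3 : σ.Vc s Z) : σ.Vc s Y := fun a ha => (σ.ts a).a2bTrV t (h1 a ha) (h3 a ha)

theorem trunc (σ : Slic C) (s : ℝ) (X : C) : ∃ A B, A2bTr A X B ∧ σ.U s A ∧ σ.V s B := by
  obtain ⟨A, B, f, g, d, hT, hA, hB⟩ := (σ.ts s).tri X
  exact ⟨A, B, ⟨f, g, d, hT⟩, hA, hB⟩

theorem quotU (σ : Slic C) {A X B : C} (t : A2bTr A X B) {φ s : ℝ} (h2 : σ.U φ X)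
    (h1 : σ.U s A) (h : φ ≤ s + 1) : σ.U φ B := by
  obtain ⟨_, _, _, hT⟩ := t
  exact σ.thin_quot hT h2 h1 h

theorem subV (σ : Slic C) {A X B : C} (t : A2bTr A X B) {φ s : ℝ} (h2 : σ.V φ X)
    (h3 : σ.V s B) (h : s - 1 ≤ φ) : σ.V φ A := by
  obtain ⟨_, _, _, hT⟩ := t
  exact σ.thin_sub hT h2 h3 h

theorem subVc (σ : Slic C) {A X B : C} (t : A2bTr A X B) {φ s : ℝ} (h2 : σ.Vc φ X)
    (h3 : σ.V s B) (h : s - 1 ≤ φ) : σ.Vc φ A :=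
  fun a ha => subV σ t (h2 a ha) h3 (by linarith)

theorem addC {Z : C → ℂ} (h : AddTri Z) {X Y W : C} (t : A2bTr X Y W) : Z Y = Z X + Z W := by
  obtain ⟨_, _, _, hT⟩ := t
  exact h _ hT

theorem tr_iso1 {X Y W : C} (t : A2bTr X Y W) (h : IsZero W) : Nonempty (X ≅ Y) := by
  obtain ⟨f, g, d, hT⟩ := t
  have : IsIso f := (Cn.isIso ⟨g, d, hT⟩).2 h
  exact ⟨asIso f⟩

theorem tr_iso2 {X Y W : C} (t : A2bTr X Y W) (h : IsZero X) : Nonempty (Y ≅ W) := by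
  obtain ⟨f, g, d, hT⟩ := t
  have : IsIso g := (Cc.isIso ⟨f, d, hT⟩).2 h
  exact ⟨asIso g⟩

variable {σ : Slic C} {Z : C → ℂ} {r : C → ℕ} {c : ℝ}

theorem r_pos (h : Stab σ Z r c) {X : C} (h0 : ¬ IsZero X) : (1 : ℝ) ≤ r X := by
  have : r X ≠ 0 := fun h2 => h0 ((h.rk.zero X).1 h2)
  exact_mod_cast Nat.pos_of_ne_zero this

theorem thin_tri (h : Stab σ Z r c) (s : ℝ) (n : ℕ) : ∀ X : C, σ.U s X → σ.V (s + 1 / 4) X →
    mu s (Z X) < n * (c * Real.cos (Real.pi * (1 / 4))) →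
    ∃ A B, A2bTr A X B ∧ Uo σ s A ∧ σ.Vc s B := by
  have hcos : 0 < Real.cos (Real.pi * (1 / 4)) := by
    apply Real.cos_pos_of_mem_Ioo
    constructor <;> nlinarith [Real.pi_pos]
  have hc := mul_pos h.cpos hcos
  have hb : ∀ X, σ.U s X → σ.V (s + 1 / 4) X →
      c * Real.cos (Real.pi * (1 / 4)) * r X ≤ mu s (Z X) := fun X h1 h2 =>
    h.mu_ge_half (θ := s) (η := 1 / 4) (by norm_num) (by norm_num) (by linarith) le_rfl h1 h2
  induction n with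
  | zero =>
    intro X h1 h2 h3
    have := hb X h1 h2
    have h4 : (0 : ℝ) ≤ r X := Nat.cast_nonneg _
    simp only [Nat.cast_zero, zero_mul] at h3
    nlinarith
  | succ n ih =>
    intro X h1 h2 h3
    by_cases hX : σ.Vc s X
    · obtain ⟨O, hO, t⟩ := A2bTr.zero_id X
      exact ⟨O, X, t, ⟨s + 1, by linarith, (σ.ts _).zeroU hO⟩, hX⟩
    obtain ⟨a, ha, hXa⟩ : ∃ a, s < a ∧ ¬ σ.V a X := by
      by_contra hcon
      exact hX fun a ha => by_contra fun h' => hcon ⟨a, ha, h'⟩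
    have ha' : a < s + 1 / 4 := by
      by_contra h'
      exact hXa (σ.monoV (not_lt.1 h') _ h2)
    obtain ⟨A, B, t, hA, hB⟩ := trunc σ a X
    have hA0 : ¬ IsZero A := fun h0 => by
      obtain ⟨e⟩ := tr_iso2 t h0
      exact hXa ((σ.ts a).isoV e.symm hB)
    have h5 := hb A (σ.anti ha.le _ hA) (subV σ t h2 hB (by linarith))
    have h6 := r_pos h hA0
    have h7 := (h.add.mu s).a2bTr t
    obtain ⟨A', B', t', hA', hB'⟩ := ih B (quotU σ t h1 hA (by linarith))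
      (σ.monoV ha'.le _ hB) (by push_cast at h3; nlinarith)
    obtain ⟨G, t1, t2⟩ := t.oct2 t'
    exact ⟨G, B', t1, Uo.ext t2 ⟨a, ha, hA⟩ hA', hB'⟩

theorem trunc_o (h : Stab σ Z r c) (s : ℝ) (X : C) :
    ∃ A B, A2bTr A X B ∧ Uo σ s A ∧ σ.Vc s B := by
  obtain ⟨A0, X1, t0, hA0, hX1⟩ := trunc σ (s + 1 / 4) X
  obtain ⟨X2, B0, t1, hX2, hB0⟩ := trunc σ s X1
  have hcos : 0 < Real.cos (Real.pi * (1 / 4)) := by
    apply Real.cos_pos_of_mem_Ioo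
    constructor <;> nlinarith [Real.pi_pos]
  have hc := mul_pos h.cpos hcos
  obtain ⟨n, hn⟩ := exists_nat_gt (mu s (Z X2) / (c * Real.cos (Real.pi * (1 / 4))))
  obtain ⟨A1, B1, t2, hA1, hB1⟩ := thin_tri h s n X2 hX2 (subV σ t1 hX1 hB0 (by linarith))
    ((div_lt_iff₀ hc).1 hn)
  obtain ⟨R, t3, t4⟩ := t1.oct1 t2
  obtain ⟨G, t5, t6⟩ := t0.oct2 t3
  exact ⟨G, R, t5, Uo.ext t6 ⟨s + 1 / 4, by linarith, hA0⟩ hA1,
    Vc_ext t4 hB1 (σ.V_le_Vc le_rfl hB0)⟩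

/-- `(phases > s, phases ≤ s)` is a t-structure. -/
theorem ts_o (h : Stab σ Z r c) (s : ℝ) : IsTS (Uo σ s) (σ.Vc s) where
  isoU e := fun ⟨t, ht, hX⟩ => ⟨t, ht, (σ.ts t).isoU e hX⟩
  isoV e hX := σ.isoVc e hX
  hom := fun ⟨t, ht, hX⟩ hY f => (σ.ts t).hom hX (hY t ht) f
  shU := fun ⟨t, ht, hX⟩ => ⟨t, ht, (σ.ts t).shU hX⟩
  shV hX := fun t ht => (σ.ts t).shV (hX t ht)
  tri E := by
    obtain ⟨A, B, ⟨f, g, d, hT⟩, hA, hB⟩ := trunc_o h s E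
    exact ⟨A, B, f, g, d, hT, hA, hB⟩

/-- a bounded below sequence with jumps `0` or `≥ δ` is eventually constant -/
theorem seq_stab {a k : ℕ → ℝ} {b δ : ℝ} (hδ : 0 < δ) (hk : ∀ n, k n = 0 ∨ δ ≤ k n)
    (ha : ∀ n, a n = k n + a (n + 1)) (hb : ∀ n, b ≤ a n) : ∃ n0, ∀ n, n0 ≤ n → k n = 0 := by
  have hanti : Antitone a := antitone_nat_of_succ_le fun n => by
    have := ha n
    rcases hk n with h | h <;> linarith
  obtain ⟨n0, hn0⟩ : ∃ n0, ∀ n, ⌊(a n0 - b) / δ⌋₊ ≤ ⌊(a n - b) / δ⌋₊ :=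
    ⟨Function.argmin (fun n => ⌊(a n - b) / δ⌋₊), fun n =>
      Function.argmin_le (fun n => ⌊(a n - b) / δ⌋₊) n⟩
  refine ⟨n0, fun n hn => (hk n).resolve_right fun h => ?_⟩
  have h1 := hanti hn
  have h2 := ha n
  have h3 : (a (n + 1) - b) / δ + 1 ≤ (a n0 - b) / δ := by
    rw [div_add_one hδ.ne', div_le_div_iff_of_pos_right hδ]
    linarith
  have h4 := Nat.floor_le_floor h3
  rw [Nat.floor_add_one (div_nonneg (by linarith [hb (n + 1)]) hδ.le)] at h4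
  have := hn0 (n + 1)
  omega

theorem chainU {U V : C → Prop} (h : IsTS U V) {Y : ℕ → C} {f : ∀ n, Y n ⟶ Y (n + 1)}
    {K : ℕ → C} (hK : ∀ n, Cc (f n) (K n)) (n0 : ℕ) (hU : ∀ n, n0 ≤ n → U (K n)) :
    ∃ B, V B ∧ ∀ n, n0 ≤ n → ∃ A, A2bTr A (Y n) B ∧ U A := by
  obtain ⟨A, B, a, b, d, hT, hA, hB⟩ := h.tri (Y n0)
  refine ⟨B, hB, fun n hn => ?_⟩
  induction n, hn using Nat.le_induction with
  | base => exact ⟨A, ⟨_, _, _, hT⟩, hA⟩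
  | succ n hn ih =>
    obtain ⟨A, ⟨a, b, d, hT⟩, hA⟩ := ih
    obtain ⟨i, e, hi⟩ := hK n
    obtain ⟨j, hj⟩ := a2b_coyon2 hT i (h.hom (hU n hn) hB _)
    obtain ⟨A', p, q, hA'⟩ := distinguished_cocone_triangle j
    have o := Triangulated.someOctahedron hj.symm hA' hT hi
    exact ⟨A', ⟨_, _, _, o.mem⟩, h.ext3U hA' hA (h.shU (hU n hn))⟩

theorem chainV {U V : C → Prop} (h : IsTS U V) {Y : ℕ → C} {f : ∀ n, Y (n + 1) ⟶ Y n}
    {Q : ℕ → C} (hQ : ∀ n, Cn (f n) (Q n)) (n0 : ℕ) (hV : ∀ n, n0 ≤ n → V (Q n)) :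
    ∃ A, U A ∧ ∀ n, n0 ≤ n → ∃ B, A2bTr A (Y n) B ∧ V B := by
  obtain ⟨A, B, a, b, d, hT, hA, hB⟩ := h.tri (Y n0)
  refine ⟨A, hA, fun n hn => ?_⟩
  induction n, hn using Nat.le_induction with
  | base => exact ⟨B, ⟨_, _, _, hT⟩, hB⟩
  | succ n hn ih =>
    obtain ⟨B, ⟨a, b, d, hT⟩, hB⟩ := ih
    obtain ⟨i, e, hi⟩ := hQ n
    obtain ⟨j, hj⟩ := a2b_yon2 hT i (h.hom hA (hV n hn) _)
    obtain ⟨B', p, q, hB'⟩ := distinguished_cocone_triangle₁ j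
    have o := Triangulated.someOctahedron' hj.symm hT hB' hi
    exact ⟨B', ⟨_, _, _, o.mem⟩, h.ext1V hB' hB (h.shV (hV n hn))⟩

/-- the direction `s` is discrete for `Z` -/
def Dis (Z : C → ℂ) (s : ℝ) : Prop :=
  ∃ δ : ℝ, 0 < δ ∧ ∀ X, lam s (Z X) = 0 ∨ δ ≤ |lam s (Z X)|

theorem lam_P (h : Stab σ Z r c) {s : ℝ} {X : C} (hX : σ.P s X) : lam s (Z X) = 0 := by
  obtain ⟨m, -, hm⟩ := h.ph s X hX
  rw [hm, lam_mul_ray]; simp

theorem mu_P (h : Stab σ Z r c) {s : ℝ} {X : C} (hX : σ.P s X) : c * r X ≤ mu s (Z X) := by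
  obtain ⟨m, h1, hm⟩ := h.ph s X hX
  rw [hm, mu_mul_ray]; simpa using h1

theorem lam_add_one (s : ℝ) (z : ℂ) : lam (s + 1) z = - lam s z := by
  have h := lam_ray_mul (s + 1) 1 z
  rw [ray_one, neg_one_mul, P294.lam_neg, add_sub_cancel_right] at h
  linarith

/-- on `(s-1, s]` -/
theorem lam_lo (h : Stab σ Z r c) {s : ℝ} {K : C} (h1 : Uo σ (s - 1) K) (h2 : σ.Vc s K) :
    lam s (Z K) ≤ 0 ∧ (lam s (Z K) = 0 → σ.U s K) := by
  obtain ⟨a, ha, h1⟩ := h1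
  obtain ⟨A, B, t, hA, hB⟩ := trunc σ s K
  have e := (h.add.lam s).a2bTr t
  rw [lam_P h ⟨hA, subVc σ t h2 hB (by linarith)⟩] at e
  by_cases h0 : IsZero B
  · obtain ⟨i⟩ := tr_iso1 t h0
    rw [(h.add.lam s).zero h0] at e
    exact ⟨by linarith, fun _ => (σ.ts s).isoU i hA⟩
  · have := h.lam_neg' (s := s) (a := min a s) (b := s) (lt_min ha (by linarith)) le_rfl
      (quotU σ t (σ.anti (min_le_left _ _) _ h1) hA (by linarith [min_le_right a s])) hB h0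
    exact ⟨by linarith, fun h => by linarith⟩

/-- on `[s, s+1)` -/
theorem lam_hi (h : Stab σ Z r c) {s : ℝ} {K : C} (h1 : σ.U s K) (h2 : σ.V (s + 1) K) :
    0 ≤ lam s (Z K) ∧ (lam s (Z K) = 0 → σ.Vc s K) := by
  obtain ⟨A, B, t, ⟨a, ha, hA⟩, hB⟩ := trunc_o h s K
  have e := (h.add.lam s).a2bTr t
  rw [lam_P h ⟨quotU σ t h1 hA (by linarith), hB⟩] at e
  by_cases h0 : IsZero A
  · obtain ⟨i⟩ := tr_iso2 t h0
    rw [(h.add.lam s).zero h0] at e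
    exact ⟨by linarith, fun _ => σ.isoVc i.symm hB⟩
  · have := h.lam_neg' (s := s + 1) (a := a) (b := s + 1) (by linarith) le_rfl hA
      (subV σ t h2 (hB (s + 1) (by linarith)) (by linarith)) h0
    rw [lam_add_one] at this
    exact ⟨by linarith, fun h => by linarith⟩

theorem acc (h : Stab σ Z r c) {s : ℝ} (hs : Dis Z s) : ACC (Uo σ s) (σ.Vc s) := by
  intro Y f hY hE
  obtain ⟨δ, hδ, hd⟩ := hs
  choose E hE hEU using hE
  have hK : ∀ n, Cc (f n) ((E n)⟦(-1 : ℤ)⟧) := fun n => (hE n).cc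
  have tK : ∀ n, A2bTr ((E n)⟦(-1 : ℤ)⟧) (Y n) (Y (n + 1)) := fun n => by
    obtain ⟨_, _, hT⟩ := hK n
    exact ⟨_, _, _, hT⟩
  have hKU : ∀ n, Uo σ (s - 1) ((E n)⟦(-1 : ℤ)⟧) := fun n => by
    obtain ⟨t, ht, h1⟩ := hEU n
    exact ⟨t + ((-1 : ℤ) : ℝ), by push_cast; linarith, (σ.shiftU_int t (-1) _).2 h1⟩
  have hKV : ∀ n, σ.Vc s ((E n)⟦(-1 : ℤ)⟧) := fun n =>
    (ts_o h s).a2bTr1V (tK n) (hY n) ((ts_o h s).shV (hY (n + 1)))
  obtain ⟨B, hB, hA⟩ := chainU (ts_o h (s - 1)) hK 0 (fun n _ => hKU n)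
  obtain ⟨n0, hn0⟩ := seq_stab (a := fun n => - lam s (Z (Y n)))
    (k := fun n => - lam s (Z ((E n)⟦(-1 : ℤ)⟧))) (b := - lam s (Z B)) hδ
    (fun n => by
      have := (lam_lo h (hKU n) (hKV n)).1
      rcases hd ((E n)⟦(-1 : ℤ)⟧) with h1 | h1
      · left; linarith
      · right; rwa [abs_of_nonpos this] at h1)
    (fun n => by have := (h.add.lam s).a2bTr (tK n); linarith)
    (fun n => by
      obtain ⟨A, t, hAU⟩ := hA n (Nat.zero_le n)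
      have := (h.add.lam s).a2bTr t
      have := (lam_lo h hAU (subVc σ t (hY n) (hB s (by linarith)) (by linarith))).1
      linarith)
  have hKs : ∀ n, n0 ≤ n → σ.U s ((E n)⟦(-1 : ℤ)⟧) := fun n hn =>
    (lam_lo h (hKU n) (hKV n)).2 (by linarith [hn0 n hn])
  obtain ⟨B', hB', hA'⟩ := chainU (σ.ts s) hK n0 hKs
  by_contra hcon
  have hne : ∀ n, ¬ IsZero ((E n)⟦(-1 : ℤ)⟧) := fun n h0 => hcon ⟨n, (hK n).isIso.2 h0⟩
  have hk : ∀ n, c ≤ mu s (Z ((E (n0 + n))⟦(-1 : ℤ)⟧)) := fun n => by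
    have := mu_P h ⟨hKs (n0 + n) (Nat.le_add_right _ _), hKV _⟩
    nlinarith [r_pos h (hne (n0 + n)), h.cpos]
  obtain ⟨n1, hn1⟩ := seq_stab (a := fun n => mu s (Z (Y (n0 + n))))
    (k := fun n => mu s (Z ((E (n0 + n))⟦(-1 : ℤ)⟧))) (b := mu s (Z B')) h.cpos
    (fun n => Or.inr (hk n)) (fun n => (h.add.mu s).a2bTr (tK (n0 + n)))
    (fun n => by
      obtain ⟨A, t, hAU⟩ := hA' (n0 + n) (Nat.le_add_right _ _)
      have := (h.add.mu s).a2bTr t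
      have h2 := mu_P h ⟨hAU, subVc σ t (hY _) hB' (by linarith)⟩
      have h3 : (0 : ℝ) ≤ r A := Nat.cast_nonneg _
      nlinarith [h.cpos])
  have := hn1 n1 le_rfl
  linarith [hk n1, h.cpos]

theorem dcc (h : Stab σ Z r c) {s : ℝ} (hs : Dis Z s) : DCC (σ.U s) (σ.V s) := by
  intro Y f hY hE
  obtain ⟨δ, hδ, hd⟩ := hs
  choose E hE hEV using hE
  have hK : ∀ n, Cn (f n) ((E n)⟦(1 : ℤ)⟧) := fun n => (hE n).cn
  have tK : ∀ n, A2bTr (Y (n + 1)) (Y n) ((E n)⟦(1 : ℤ)⟧) := fun n => by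
    obtain ⟨_, _, hT⟩ := hK n
    exact ⟨_, _, _, hT⟩
  have hKV : ∀ n, σ.V (s + 1) ((E n)⟦(1 : ℤ)⟧) := fun n => (σ.shiftV s _).2 (hEV n)
  have hKU : ∀ n, σ.U s ((E n)⟦(1 : ℤ)⟧) := fun n =>
    (σ.ts s).a2bTr3U (tK n) (hY n) ((σ.ts s).shU (hY (n + 1)))
  obtain ⟨A, hA, hB⟩ := chainV (σ.ts (s + 1)) hK 0 (fun n _ => hKV n)
  obtain ⟨n0, hn0⟩ := seq_stab (a := fun n => lam s (Z (Y n)))
    (k := fun n => lam s (Z ((E n)⟦(1 : ℤ)⟧))) (b := lam s (Z A)) hδ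
    (fun n => by
      have := (lam_hi h (hKU n) (hKV n)).1
      rcases hd ((E n)⟦(1 : ℤ)⟧) with h1 | h1
      · left; linarith
      · right; rwa [abs_of_nonneg this] at h1)
    (fun n => by have := (h.add.lam s).a2bTr (tK n); linarith)
    (fun n => by
      obtain ⟨B, t, hBV⟩ := hB n (Nat.zero_le n)
      have := (h.add.lam s).a2bTr t
      have := (lam_hi h (quotU σ t (hY n) hA (by linarith)) hBV).1
      linarith)
  have hKs : ∀ n, n0 ≤ n → σ.Vc s ((E n)⟦(1 : ℤ)⟧) := fun n hn =>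
    (lam_hi h (hKU n) (hKV n)).2 (hn0 n hn)
  obtain ⟨A', ⟨a, ha, hA'⟩, hB'⟩ := chainV (ts_o h s) hK n0 hKs
  by_contra hcon
  have hne : ∀ n, ¬ IsZero ((E n)⟦(1 : ℤ)⟧) := fun n h0 => hcon ⟨n, (hK n).isIso.2 h0⟩
  have hk : ∀ n, c ≤ mu s (Z ((E (n0 + n))⟦(1 : ℤ)⟧)) := fun n => by
    have := mu_P h ⟨hKU _, hKs (n0 + n) (Nat.le_add_right _ _)⟩
    nlinarith [r_pos h (hne (n0 + n)), h.cpos]
  obtain ⟨n1, hn1⟩ := seq_stab (a := fun n => mu s (Z (Y (n0 + n))))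
    (k := fun n => mu s (Z ((E (n0 + n))⟦(1 : ℤ)⟧))) (b := mu s (Z A')) h.cpos
    (fun n => Or.inr (hk n))
    (fun n => by have := (h.add.mu s).a2bTr (tK (n0 + n)); exact this.trans (add_comm _ _))
    (fun n => by
      obtain ⟨B, t, hBV⟩ := hB' (n0 + n) (Nat.le_add_right _ _)
      have := (h.add.mu s).a2bTr t
      have h2 := mu_P h ⟨quotU σ t (hY _) hA' (by linarith), hBV⟩
      have h3 : (0 : ℝ) ≤ r B := Nat.cast_nonneg _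
      nlinarith [h.cpos])
  have := hn1 n1 le_rfl
  linarith [hk n1, h.cpos]

end Vale.Agent.P287T.Op
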