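import Vale.Agent.P287T.G3.C
import Vale.Agent.P287T.Op.Mx0
import Vale.Agent.P287T.Op.Uo
import Vale.Agent.P287T.Op.AbsDef

/-!
# Limits of matrix factorizations: definitions
-/

open Vale.Agent.P294 Vale.Agent.P287T.Op Filter Topology CategoryTheory

namespace Vale.Agent.P287T.G3.Mx

/-- the ring of an augmented context is a complex algebra (use as a local instance) -/
@[reducible] noncomputable def algS (A : GCtx) [GCtx.Aug A] : Algebra ℂ A.S :=
  (GCtx.Aug.cst (A := A)).toAlgebra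

attribute [local instance] algS

variable {A : GCtx} [GCtx.Aug A]

theorem smul_eq (z : ℂ) (s : A.S) : z • s = GCtx.Aug.cst z * s := rfl

theorem msmul_eq {ι κ : Type} (z : ℂ) (f : Matrix ι κ A.S) :
    z • f = (GCtx.Aug.cst z : A.S) • f := rfl

/-- the allowed entries as a complex subspace -/
def Hs (A : GCtx) [GCtx.Aug A] (a b : A.L) : Submodule ℂ A.S where
  carrier := A.H a b
  zero_mem' := zero_mem _
  add_mem' := add_mem
  smul_mem' z _ hs := A.mul_mem (GCtx.Aug.cst_mem b z) hs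

/-- matrices of degree `γ` as a complex subspace -/
def DS {ι κ : Type} (p : ι → A.L) (q : κ → A.L) (γ : A.Γ) : Submodule ℂ (Matrix κ ι A.S) where
  carrier := {f | DegM p q γ f}
  zero_mem' := DegM.zero _ _ _
  add_mem' ha hb i j := add_mem (ha i j) (hb i j)
  smul_mem' z _ hs i j := (Hs A _ _).smul_mem z (hs i j)

theorem mem_DS {ι κ : Type} {p : ι → A.L} {q : κ → A.L} {γ : A.Γ} {f : Matrix κ ι A.S} :
    f ∈ DS p q γ ↔ DegM p q γ f := Iff.rfl

/-- all graded pieces are finite dimensional -/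
def FinH (A : GCtx) [GCtx.Aug A] : Prop := ∀ a b, Module.Finite ℂ (Hs A a b)

theorem FinH.ds (h : FinH A) {ι κ : Type} [Fintype ι] [Fintype κ] (p : ι → A.L) (q : κ → A.L)
    (γ : A.Γ) : Module.Finite ℂ (DS p q γ) := by
  have := h
  let f : DS p q γ →ₗ[ℂ] (∀ i j, Hs A (γ +ᵥ p j) (q i)) :=
    { toFun := fun x i j => ⟨x.1 i j, x.2 i j⟩
      map_add' := fun _ _ => rfl
      map_smul' := fun _ _ => rfl }
  have : ∀ i j, Module.Finite ℂ (Hs A (γ +ᵥ p j) (q i)) := fun i j => h _ _
  refine Module.Finite.of_injective f fun x y hxy => ?_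
  ext i j
  exact congrArg Subtype.val (congrFun (congrFun hxy i) j)

/-- `X` has a model with the labels of `E` and differential `d` -/
def Md {W0 : A.S} (E : MF A W0) (d : Matrix E.ι E.ι A.S) {W : A.S} (X : MF A W) : Prop :=
  ∃ (h1 : DegM E.p E.p (A.en 3) d) (h2 : d * d = W • (1 : Matrix E.ι E.ι A.S)),
    Nonempty (X ≅ (⟨E.ι, E.p, d, h1, h2⟩ : MF A W))

/-- the family `X n` has models converging to `E` -/
def MLim {I : Type} (l : Filter I) {W : I → A.S} {W0 : A.S} (X : ∀ n, MF A (W n))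
    (E : MF A W0) : Prop :=
  ∃ d : I → Matrix E.ι E.ι A.S, Cv l d E.d ∧ ∀ᶠ n in l, Md E (d n) (X n)

/-- a convergent family of potentials -/
structure PotL {I : Type} (l : Filter I) (W : I → A.S) (W0 : A.S) : Prop where
  fin : FinH A
  pot : ∀ n, A.IsPot (W n)
  pot0 : A.IsPot W0
  cv : Cv l W W0

end Vale.Agent.P287T.G3.Mx
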