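import Vale.Agent.P287T.Op.Uo

/-!
# Openness of aisles and of semistability along pencils, for a central charge with lattice values
-/

set_option linter.unusedSectionVars false

open CategoryTheory CategoryTheory.Pretriangulated CategoryTheory.Limits

namespace Vale.Agent.P287T.Op

open Vale.Agent.P294

universe v u

variable {C : Type u} [Category.{v} C] [Preadditive C] [HasZeroObject C] [HasShift C ℤ]
  [∀ n : ℤ, (shiftFunctor C n).Additive] [Pretriangulated C] [IsTriangulated C]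

/-- the central charge takes values in a lattice of `ℂ` -/
def Lat (Z : C → ℂ) : Prop :=
  ∃ z1 z2 : ℂ, z1.re * z2.im - z1.im * z2.re ≠ 0 ∧ ∀ X, ∃ a b : ℤ, Z X = a * z1 + b * z2

theorem lam_eq (s : ℝ) (z : ℂ) :
    lam s z = Real.cos (Real.pi * s) * z.im - Real.sin (Real.pi * s) * z.re := by
  simp only [lam, ray_eq, Complex.mul_im, mul_neg, Real.cos_neg, Real.sin_neg]
  ring

theorem mu_eq (s : ℝ) (z : ℂ) :
    mu s z = Real.cos (Real.pi * s) * z.re + Real.sin (Real.pi * s) * z.im := by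
  simp only [mu, ray_eq, Complex.mul_re, mul_neg, Real.cos_neg, Real.sin_neg]
  ring

theorem trig (s t θ : ℝ) (z : ℂ) : Real.sin (Real.pi * (s - t)) * mu θ z =
    Real.cos (Real.pi * (s - θ)) * lam t z - Real.cos (Real.pi * (t - θ)) * lam s z := by
  simp only [lam_eq, mu_eq, mul_sub, Real.sin_sub, Real.cos_sub]
  ring

theorem lam_int (s : ℝ) (a b : ℤ) (z1 z2 : ℂ) :
    lam s (a * z1 + b * z2) = a * lam s z1 + b * lam s z2 := by
  rw [lam_add, ← lam_real_mul, ← lam_real_mul]; simp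

theorem dis_of {Z : C → ℂ} {z1 z2 : ℂ} (hZ : ∀ X, ∃ a b : ℤ, Z X = a * z1 + b * z2) {s : ℝ}
    {p q : ℤ} (hpq : p ≠ 0 ∨ q ≠ 0) (h0 : lam s (p * z1 + q * z2) = 0) : Dis Z s := by
  rw [lam_int] at h0
  obtain ⟨γ, hγ⟩ : ∃ γ : ℝ, ∀ a b : ℤ, ∃ k : ℤ, a * lam s z1 + b * lam s z2 = k * γ := by
    rcases hpq with hp | hq
    · refine ⟨lam s z2 / p, fun a b => ⟨b * p - a * q, ?_⟩⟩
      have hp' : (p : ℝ) ≠ 0 := by exact_mod_cast hp
      push_cast
      field_simp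
      linear_combination a * h0
    · refine ⟨lam s z1 / q, fun a b => ⟨a * q - b * p, ?_⟩⟩
      have hq' : (q : ℝ) ≠ 0 := by exact_mod_cast hq
      push_cast
      field_simp
      linear_combination b * h0
  by_cases hg : γ = 0
  · refine ⟨1, one_pos, fun X => Or.inl ?_⟩
    obtain ⟨a, b, hX⟩ := hZ X
    obtain ⟨k, hk⟩ := hγ a b
    rw [hX, lam_int, hk, hg, mul_zero]
  · refine ⟨|γ|, abs_pos.2 hg, fun X => ?_⟩
    obtain ⟨a, b, hX⟩ := hZ X
    obtain ⟨k, hk⟩ := hγ a b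
    rw [hX, lam_int, hk]
    by_cases hk0 : k = 0
    · left; simp [hk0]
    · right
      rw [abs_mul]
      have : (1 : ℝ) ≤ |(k : ℝ)| := by exact_mod_cast Int.one_le_abs hk0
      nlinarith [abs_nonneg γ]

theorem Lat.dis {Z : C → ℂ} (h : Lat Z) {s : ℝ} {X : C} (h0 : Z X ≠ 0) (h1 : lam s (Z X) = 0) :
    Dis Z s := by
  obtain ⟨z1, z2, -, hZ⟩ := h
  obtain ⟨a, b, hX⟩ := hZ X
  refine dis_of hZ (p := a) (q := b) ?_ (hX ▸ h1)
  by_contra hcon
  simp only [not_or, not_not] at hcon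
  exact h0 (by rw [hX, hcon.1, hcon.2]; simp)

theorem Lat.dense {Z : C → ℂ} (h : Lat Z) {a b : ℝ} (hab : a < b) :
    ∃ s, a < s ∧ s < b ∧ Dis Z s := by
  wlog hb : b < a + 1 generalizing b
  · obtain ⟨s, h1, h2, h3⟩ := this (b := a + 1 / 2) (by linarith) (by linarith)
    exact ⟨s, h1, by linarith, h3⟩
  obtain ⟨z1, z2, hD, hZ⟩ := h
  set D := z1.re * z2.im - z1.im * z2.re with hDdef
  set w := ray ((a + b) / 2) with hw
  let F : ℝ × ℝ → ℂ := fun x => x.1 * z1 + x.2 * z2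
  have hF : Continuous F := by fun_prop
  have hl : ∀ s, Continuous (lam s) := fun s => by
    unfold lam; fun_prop
  let O : Set (ℝ × ℝ) := {x | 0 < lam a (F x)} ∩ {x | lam b (F x) < 0}
  have hO : IsOpen O := (isOpen_lt continuous_const ((hl a).comp hF)).inter
    (isOpen_lt ((hl b).comp hF) continuous_const)
  have hne : O.Nonempty := by
    refine ⟨((w.re * z2.im - w.im * z2.re) / D, (z1.re * w.im - z1.im * w.re) / D), ?_⟩
    have e : F ((w.re * z2.im - w.im * z2.re) / D, (z1.re * w.im - z1.im * w.re) / D) =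
        ((1 : ℝ) : ℂ) * w := by
      apply Complex.ext
      · simp only [F, Complex.add_re, Complex.re_ofReal_mul]
        field_simp
        rw [hDdef]; ring
      · simp only [F, Complex.add_im, Complex.im_ofReal_mul]
        field_simp
        rw [hDdef]; ring
    constructor
    · show 0 < lam a (F _)
      rw [e, hw, lam_mul_ray, one_mul]
      apply Real.sin_pos_of_pos_of_lt_pi <;> nlinarith [Real.pi_pos]
    · show lam b (F _) < 0
      rw [e, hw, lam_mul_ray, one_mul]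
      apply Real.sin_neg_of_neg_of_neg_pi_lt <;> nlinarith [Real.pi_pos]
  have hd : DenseRange (Prod.map ((↑) : ℚ → ℝ) ((↑) : ℚ → ℝ)) :=
    Rat.denseRange_cast.prodMap Rat.denseRange_cast
  obtain ⟨⟨x, y⟩, h1, h2⟩ := hd.exists_mem_open hO hne
  have hc : ContinuousOn (fun s => lam s (F (x, y))) (Set.Icc a b) := by
    simp only [lam_eq]; fun_prop
  obtain ⟨s, hs, hs0⟩ := intermediate_value_Ioo' hab.le hc (show (0 : ℝ) ∈ _ from ⟨h2, h1⟩)
  refine ⟨s, hs.1, hs.2, dis_of hZ (p := x.num * y.den) (q := y.num * x.den) ?_ ?_⟩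
  · by_contra hcon
    simp only [not_or, not_not, mul_eq_zero, Rat.num_eq_zero, Int.natCast_eq_zero,
      Rat.den_ne_zero, or_false] at hcon
    have h3 : (0 : ℝ) < lam a (F (x, y)) := h1
    simp [F, hcon.1, hcon.2, lam] at h3
  · have e : ((x.num * y.den : ℤ) : ℂ) * z1 + ((y.num * x.den : ℤ) : ℂ) * z2 =
        ((x.den * y.den : ℝ) : ℂ) * F (x, y) := by
      have hx : (x.den : ℂ) ≠ 0 := by exact_mod_cast x.den_ne_zero
      have hy : (y.den : ℂ) ≠ 0 := by exact_mod_cast y.den_ne_zero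
      simp only [F]
      push_cast
      rw [Rat.cast_def x, Rat.cast_def y]
      field_simp
    rw [e, lam_real_mul]
    simp only at hs0
    rw [hs0, mul_zero]

theorem Dis.sub_one {Z : C → ℂ} {s : ℝ} (h : Dis Z s) : Dis Z (s - 1) := by
  obtain ⟨δ, hδ, h⟩ := h
  refine ⟨δ, hδ, fun X => ?_⟩
  have := lam_add_one (s - 1) (Z X)
  rw [sub_add_cancel] at this
  rw [show lam (s - 1) (Z X) = - lam s (Z X) by linarith, abs_neg, neg_eq_zero]
  exact h X

variable {σ : Slic C} {Z : C → ℂ} {r : C → ℕ} {c : ℝ}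

/-- phases `< s` means phases `≤ t` for some `t < s` -/
theorem V_Vc (h : Stab σ Z r c) {s : ℝ} {X : C} (hX : σ.V s X) : ∃ t, t < s ∧ σ.Vc t X := by
  obtain ⟨a, -, ha, -⟩ := σ.bdd X
  have key : ∀ Y, ExtCl (fun Y => ∃ φ, a ≤ φ ∧ φ < s ∧ σ.P φ Y) Y → ∃ t, t < s ∧ σ.Vc t Y := by
    intro Y hY
    induction hY with
    | zero Y h0 => exact ⟨s - 1, by linarith, fun t _ => (σ.ts t).zeroV h0⟩
    | of Y h1 =>
      obtain ⟨φ, -, h2, h3⟩ := h1
      exact ⟨φ, h2, h3.2⟩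
    | ext T hT _ _ h1 h3 =>
      obtain ⟨t1, h1, h1'⟩ := h1
      obtain ⟨t3, h3, h3'⟩ := h3
      exact ⟨max t1 t3, max_lt h1 h3, σ.extVc hT
        (fun t ht => h1' t (lt_of_le_of_lt (le_max_left _ _) ht))
        (fun t ht => h3' t (lt_of_le_of_lt (le_max_right _ _) ht))⟩
  exact key X (h.hn a s X ha hX)

theorem small_eps (m δ x : ℝ) (hδ : 0 < δ) (hx : |x| < 1 / 2) (σ' : ℝ) :
    ∃ ε, 0 < ε ∧ ε < 1 / 2 ∧ 0 < Real.cos (Real.pi * (x + σ' * ε)) ∧
      Real.sin (Real.pi * ε) * m < Real.cos (Real.pi * (x + σ' * ε)) * δ := by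
  have hc : Continuous fun ε : ℝ =>
      Real.cos (Real.pi * (x + σ' * ε)) * δ - Real.sin (Real.pi * ε) * m := by fun_prop
  have hcos : 0 < Real.cos (Real.pi * x) := by
    apply Real.cos_pos_of_mem_Ioo
    rw [abs_lt] at hx
    constructor <;> nlinarith [Real.pi_pos]
  have h0 : 0 < Real.cos (Real.pi * (x + σ' * 0)) * δ - Real.sin (Real.pi * 0) * m := by
    simpa using mul_pos hcos hδ
  have h1 := (hc.tendsto 0).eventually (lt_mem_nhds h0)
  have h2 : ∀ᶠ ε in nhds (0 : ℝ), ε < 1 / 2 := gt_mem_nhds (by norm_num)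
  have hc' : Continuous fun ε : ℝ => Real.cos (Real.pi * (x + σ' * ε)) := by fun_prop
  have h6 := (hc'.tendsto 0).eventually (lt_mem_nhds (by simpa using hcos))
  obtain ⟨ε, ⟨⟨h3, h4⟩, h7⟩, h5⟩ := ((((h1.and h2).and h6).filter_mono
    (nhdsWithin_le_nhds (s := Set.Ioi 0))).and self_mem_nhdsWithin).exists
  exact ⟨ε, h5, h4, h7, by linarith⟩

theorem mu_nonneg (h : Stab σ Z r c) {a b : ℝ} (hab : b - a < 1) {X : C} (h1 : σ.U a X)
    (h2 : σ.Vc b X) : 0 ≤ mu ((a + b) / 2) (Z X) := by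
  obtain ⟨c', hc', hb⟩ := h.exists_bound hab
  exact le_trans (mul_nonneg hc'.le (Nat.cast_nonneg _)) (hb X h1 h2)

/-- objects of a given charge in a window of width `< 1` have no phases just below `s` -/
theorem snapU (h : Stab σ Z r c) {s b : ℝ} (hs : Dis Z s) (h1 : s ≤ b) (hb : b < s + 1) (z : ℂ) :
    ∃ ε, 0 < ε ∧ ∀ X, Z X = z → σ.U (s - ε) X → σ.Vc b X → σ.U s X := by
  obtain ⟨δ, hδ, hd⟩ := hs
  have hx : |s - (s + b) / 2| < 1 / 2 := by rw [abs_lt]; constructor <;> linarith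
  obtain ⟨ε, he0, he1, c1, he⟩ := small_eps (mu ((s + b) / 2) z) δ _ hδ hx (-1)
  refine ⟨ε, he0, fun X hz hU hV => ?_⟩
  obtain ⟨A, B, t, hA, hB⟩ := trunc σ s X
  by_cases h0 : IsZero B
  · obtain ⟨i⟩ := tr_iso1 t h0
    exact (σ.ts s).isoU i hA
  exfalso
  have hBU : σ.U (s - ε) B := quotU σ t hU hA (by linarith)
  have e1 := h.lam_neg' (s := s) (by linarith) le_rfl hBU hB h0
  have e2 := h.pre.lam_nonneg (s := s - ε) le_rfl (by linarith) hBU hB
  have e3 := mu_nonneg h (by linarith) hA (subVc σ t hV hB (by linarith))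
  have e4 := (h.add.mu ((s + b) / 2)).a2bTr t
  have e5 := trig s (s - ε) ((s + b) / 2) (Z B)
  have e6 : δ ≤ - lam s (Z B) := by
    rcases hd B with h2 | h2
    · linarith
    · rwa [abs_of_neg e1] at h2
  rw [hz] at e4
  rw [sub_sub_cancel] at e5
  have s0 : 0 < Real.sin (Real.pi * ε) := by
    apply Real.sin_pos_of_pos_of_lt_pi <;> nlinarith [Real.pi_pos]
  have c0 : 0 ≤ Real.cos (Real.pi * (s - (s + b) / 2)) := by
    apply Real.cos_nonneg_of_neg_pi_div_two_le_of_le <;> nlinarith [Real.pi_pos]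
  rw [show s - (s + b) / 2 + -1 * ε = s - ε - (s + b) / 2 by ring] at he c1
  have e7 : 0 ≤ mu ((s + b) / 2) z - mu ((s + b) / 2) (Z B) := by linarith
  nlinarith [mul_nonneg c0 e2, mul_nonneg c1.le (sub_nonneg.2 e6), mul_nonneg s0.le e7]

/-- objects of a given charge in a window of width `< 1` have no phases just above `s` -/
theorem snapV (h : Stab σ Z r c) {s a : ℝ} (hs : Dis Z s) (h1 : a ≤ s) (ha : s - 1 < a) (z : ℂ) :
    ∃ ε, 0 < ε ∧ ∀ X, Z X = z → σ.U a X → σ.V (s + ε) X → σ.Vc s X := by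
  obtain ⟨δ, hδ, hd⟩ := hs
  have hx : |s - (a + s) / 2| < 1 / 2 := by rw [abs_lt]; constructor <;> linarith
  obtain ⟨ε, he0, he1, c1, he⟩ := small_eps (mu ((a + s) / 2) z) δ _ hδ hx 1
  refine ⟨ε, he0, fun X hz hU hV => ?_⟩
  obtain ⟨A, B, t, ⟨q, hq, hA⟩, hB⟩ := trunc_o h s X
  by_cases h0 : IsZero A
  · obtain ⟨i⟩ := tr_iso2 t h0
    exact σ.isoVc i.symm hB
  exfalso
  have hAV : σ.V (s + ε) A := subV σ t hV (hB (s + ε) (by linarith)) (by linarith)
  have e1 := h.lam_pos (s := s) (b := s + ε) hq (by linarith) hA (σ.V_le_Vc le_rfl hAV) h0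
  have e2 := h.pre.lam_nonneg (s := s + ε - 1) (a := s) (b := s + ε) (by linarith) (by linarith)
    (σ.anti hq.le _ hA) hAV
  have e8 := lam_add_one (s + ε - 1) (Z A)
  rw [sub_add_cancel] at e8
  have e3 := mu_nonneg h (by linarith) (quotU σ t hU hA (by linarith)) hB
  have e4 := (h.add.mu ((a + s) / 2)).a2bTr t
  have e5 := trig (s + ε) s ((a + s) / 2) (Z A)
  have e6 : δ ≤ lam s (Z A) := by
    rcases hd A with h2 | h2
    · linarith
    · rwa [abs_of_pos e1] at h2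
  rw [hz] at e4
  rw [add_sub_cancel_left] at e5
  have s0 : 0 < Real.sin (Real.pi * ε) := by
    apply Real.sin_pos_of_pos_of_lt_pi <;> nlinarith [Real.pi_pos]
  have c0 : 0 ≤ Real.cos (Real.pi * (s - (a + s) / 2)) := by
    apply Real.cos_nonneg_of_neg_pi_div_two_le_of_le <;> nlinarith [Real.pi_pos]
  rw [show s - (a + s) / 2 + 1 * ε = s + ε - (a + s) / 2 by ring] at he c1
  have e7 : 0 ≤ mu ((a + s) / 2) z - mu ((a + s) / 2) (Z A) := by linarith
  rw [e8] at e5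
  nlinarith [mul_nonneg c0 e2, mul_nonneg c1.le (sub_nonneg.2 e6), mul_nonneg s0.le e7]

/-- objects of the charge of a semistable object in a small window are semistable -/
theorem snapP (h : Stab σ Z r c) {s : ℝ} (hs : Dis Z s) (z : ℂ) :
    ∃ ε, 0 < ε ∧ ∀ X, Z X = z → σ.U (s - ε) X → σ.V (s + ε) X → σ.P s X := by
  obtain ⟨e1, h1, H1⟩ := snapU h (b := s + 1 / 2) hs (by linarith) (by linarith) z
  obtain ⟨e2, h2, H2⟩ := snapV h (a := s) hs le_rfl (by linarith) z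
  refine ⟨min (min e1 e2) (1 / 2), lt_min (lt_min h1 h2) (by norm_num), fun X hz hU hV => ?_⟩
  have a1 := min_le_left (min e1 e2) (1 / 2)
  have a2 := min_le_right (min e1 e2) (1 / 2)
  have a3 := min_le_left e1 e2
  have a4 := min_le_right e1 e2
  have hX := H1 X hz (σ.anti (by linarith) _ hU) (σ.V_le_Vc (by linarith) hV)
  exact ⟨hX, H2 X hz hX (σ.monoV (by linarith) _ hV)⟩

variable [Linear ℂ C]

/-- phases `> s` is a cofinite-open condition along a pencil -/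
theorem open_Uo (h : Stab σ Z r c) (hL : Lat Z) (hfin : ∀ X : C, Module.Finite ℂ (X ⟶ X))
    {M N : C} (u w : M ⟶ N) {E0 : C} (h0 : Cn u E0) {s : ℝ} (hU : Uo σ s E0) :
    {a : ℂ | ∃ E, Cn (u + a • w) E ∧ ¬ Uo σ s E}.Finite := by
  obtain ⟨t, ht, hU⟩ := hU
  obtain ⟨q, h1, h2, hq⟩ := hL.dense ht
  refine (pencilU (ts_o h q) (acc h hq) hfin u w h0 ⟨t, h2, hU⟩).subset ?_
  rintro a ⟨E, hE, hn⟩
  exact ⟨E, hE, fun ⟨x, hx, hx'⟩ => hn ⟨x, h1.trans hx, hx'⟩⟩

/-- phases `< s` is a cofinite-open condition along a pencil -/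
theorem open_V (h : Stab σ Z r c) (hL : Lat Z) (hfin : ∀ X : C, Module.Finite ℂ (X ⟶ X))
    {M N : C} (u w : M ⟶ N) {E0 : C} (h0 : Cn u E0) {s : ℝ} (hV : σ.V s E0) :
    {a : ℂ | ∃ E, Cn (u + a • w) E ∧ ¬ σ.V s E}.Finite := by
  obtain ⟨t, ht, hV⟩ := V_Vc h hV
  obtain ⟨q, h1, h2, hq⟩ := hL.dense ht
  have e : q + ((-1 : ℤ) : ℝ) = q - 1 := by push_cast; ring
  refine (pencilV (σ.ts (q - 1)) (dcc h hq.sub_one) hfin u w h0.cc
    (e ▸ (σ.shiftV_int q (-1) _).2 (hV q h1))).subset ?_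
  rintro a ⟨E, hE, hn⟩
  exact ⟨_, hE.cc, fun hx => hn (σ.monoV h2.le _ ((σ.shiftV_int q (-1) _).1 (e ▸ hx)))⟩

theorem Z_cone (hZ : AddTri Z) {M N E E' : C} {f g : M ⟶ N} (h : Cn f E) (h' : Cn g E') :
    Z E = Z E' := by
  obtain ⟨_, _, h⟩ := h
  obtain ⟨_, _, h'⟩ := h'
  have e1 : Z N = Z M + Z E := hZ _ h
  have e2 : Z N = Z M + Z E' := hZ _ h'
  exact add_left_cancel (e1.symm.trans e2)

theorem dis_of_P (h : Stab σ Z r c) (hL : Lat Z) {s : ℝ} {E : C} (hP : σ.P s E)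
    (h0 : ¬ IsZero E) : Dis Z s := by
  refine hL.dis (X := E) (fun hz => ?_) (lam_P h hP)
  have := mu_P h hP
  rw [hz] at this
  have e : mu s 0 = 0 := by simp [mu]
  nlinarith [r_pos h h0, h.cpos]

/-- **semistability is cofinite-open along a pencil** -/
theorem open_P (h : Stab σ Z r c) (hL : Lat Z) (hfin : ∀ X : C, Module.Finite ℂ (X ⟶ X))
    {M N : C} (u w : M ⟶ N) {E0 : C} (h0 : Cn u E0) {s : ℝ} (hP : σ.P s E0) :
    {a : ℂ | ∃ E, Cn (u + a • w) E ∧ ¬ σ.P s E}.Finite := by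
  by_cases hz : IsZero E0
  · refine ((open_Uo h hL hfin u w h0 (s := s) ⟨s + 1, by linarith, (σ.ts _).zeroU hz⟩).union
      (open_V h hL hfin u w h0 (s := s) ((σ.ts _).zeroV hz))).subset ?_
    rintro a ⟨E, hE, hn⟩
    by_contra hcon
    simp only [Set.mem_union, Set.mem_ofPred_eq, not_or, not_exists, not_and, not_not] at hcon
    exact hn ⟨(hcon.1 E hE).U, σ.V_le_Vc le_rfl (hcon.2 E hE)⟩
  obtain ⟨ε, hε, H⟩ := snapP h (dis_of_P h hL hP hz) (Z E0)
  refine ((open_Uo h hL hfin u w h0 (s := s - ε) ⟨s, by linarith, hP.1⟩).union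
    (open_V h hL hfin u w h0 (s := s + ε) (hP.2 _ (by linarith)))).subset ?_
  rintro a ⟨E, hE, hn⟩
  by_contra hcon
  simp only [Set.mem_union, Set.mem_ofPred_eq, not_or, not_exists, not_and, not_not] at hcon
  exact hn (H E (Z_cone h.add hE h0) (hcon.1 E hE).U (hcon.2 E hE))

end Vale.Agent.P287T.Op
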