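import Vale.Agent.P287T.G3.E

/-!
# Smoothness and the nilpotency exponent are stable under small deformations
-/

open Vale.Agent.P287T.Op Filter Topology MvPolynomial

namespace Vale.Agent.P287T.Op

variable {I : Type} {l : Filter I}

/-- surjectivity onto a finite dimensional space is an open condition -/
theorem ev_surj {M N : Type} [AddCommGroup M] [Module ℂ M] [AddCommGroup N] [Module ℂ N]
    (U : Submodule ℂ N) (V : Submodule ℂ M) [Module.Finite ℂ V] (Φ : I → N →ₗ[ℂ] M)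
    (Φ0 : N →ₗ[ℂ] M) (h0 : ∀ v ∈ V, ∃ u ∈ U, Φ0 u = v) (hV : ∀ᶠ n in l, ∀ u ∈ U, Φ n u ∈ V)
    (hc : ∀ u ∈ U, Cv l (fun n => Φ n u) (Φ0 u)) :
    ∀ᶠ n in l, ∀ v ∈ V, ∃ u ∈ U, Φ n u = v := by
  classical
  obtain ⟨k, ρ, j, h1, h2, h3⟩ := exists_coord V
  choose u hu hu' using fun i : Fin k => h0 (j (Pi.single i 1)) (h2 _)
  let A : I → Matrix (Fin k) (Fin k) ℂ := fun n => Matrix.of fun a i => ρ (Φ n (u i)) a
  have hA : Tendsto A l (𝓝 1) := by
    refine tendsto_pi_nhds.2 fun a => tendsto_pi_nhds.2 fun i => ?_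
    have h4 := (((hc _ (hu i)).map ρ).app a).tendsto
    rw [hu', h3] at h4
    have h5 : (Pi.single i (1 : ℂ) : Fin k → ℂ) a = (1 : Matrix (Fin k) (Fin k) ℂ) a i := by
      rw [Matrix.one_apply, Pi.single_apply]
    rw [h5] at h4
    exact h4
  have hd : Tendsto (fun n => (A n).det) l (𝓝 1) := by
    have h4 := ((continuous_id (X := Matrix (Fin k) (Fin k) ℂ)).matrix_det.tendsto 1).comp hA
    simp only [id, Matrix.det_one] at h4
    exact h4
  filter_upwards [hd.eventually_ne one_ne_zero, hV] with n hn hVn v hv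
  let y : Fin k → ℂ := (A n)⁻¹.mulVec (ρ v)
  have hy : (A n).mulVec y = ρ v := by
    rw [Matrix.mulVec_mulVec, Matrix.mul_nonsing_inv _ (Ne.isUnit hn), Matrix.one_mulVec]
  have hm : ∑ i, y i • u i ∈ U := U.sum_mem fun i _ => U.smul_mem _ (hu i)
  refine ⟨∑ i, y i • u i, hm, ?_⟩
  rw [← h1 _ (hVn _ hm), ← h1 v hv, ← hy]
  congr 1
  funext a
  simp only [map_sum, map_smul, Finset.sum_apply, Pi.smul_apply, smul_eq_mul, Matrix.mulVec,
    dotProduct, A, Matrix.of_apply]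
  exact Finset.sum_congr rfl fun i _ => mul_comm _ _

variable {k : ℕ}

theorem hom_eq_sum {d : ℕ} {f : MvPolynomial (Fin k) ℂ} (hf : f.IsHomogeneous d) :
    f = ∑ m ∈ (Finset.univ : Finset (Fin k)).finsuppAntidiag d,
      f.coeff m • (monomial m 1 : MvPolynomial (Fin k) ℂ) := by
  classical
  have h1 : f.support ⊆ (Finset.univ : Finset (Fin k)).finsuppAntidiag d := by
    intro m hm
    rw [Finset.mem_finsuppAntidiag]
    refine ⟨?_, Finset.subset_univ _⟩
    have h2 := hf (mem_support_iff.1 hm)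
    have h3 : m.degree = d := by
      rw [← h2, Finsupp.degree_eq_weight_one]
      rfl
    rw [← h3, Finsupp.degree_eq_sum]
  rw [← Finset.sum_subset h1 fun m _ hm => by rw [notMem_support_iff.1 hm, zero_smul]]
  conv_lhs => rw [f.as_sum]
  exact Finset.sum_congr rfl fun m _ => by rw [smul_monomial, smul_eq_mul, mul_one]

/-- coefficientwise convergence of forms of a fixed degree -/
theorem cv_of_coeff {d : ℕ} {W : I → MvPolynomial (Fin k) ℂ} {W0 : MvPolynomial (Fin k) ℂ}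
    (hW : ∀ᶠ n in l, (W n).IsHomogeneous d) (hW0 : W0.IsHomogeneous d)
    (h : ∀ m, Tendsto (fun n => (W n).coeff m) l (𝓝 (W0.coeff m))) : Cv l W W0 := by
  have h1 := Cv.sum ((Finset.univ : Finset (Fin k)).finsuppAntidiag d) fun m _ =>
    Cv.smul (h m) (Cv.const l (monomial m 1 : MvPolynomial (Fin k) ℂ))
  rw [← hom_eq_sum hW0] at h1
  exact h1.congr (hW.mono fun n hn => (hom_eq_sum hn).symm)

theorem coeff_of_cv {W : I → MvPolynomial (Fin k) ℂ} {W0 : MvPolynomial (Fin k) ℂ}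
    (h : Cv l W W0) (m : Fin k →₀ ℕ) : Tendsto (fun n => (W n).coeff m) l (𝓝 (W0.coeff m)) :=
  (h.map (lcoeff ℂ m)).tendsto

/-- the map onto the Jacobian ideal -/
noncomputable def jacL (W : MvPolynomial (Fin k) ℂ) :
    (Fin k → MvPolynomial (Fin k) ℂ) →ₗ[ℂ] MvPolynomial (Fin k) ℂ where
  toFun a := ∑ j, a j * pderiv j W
  map_add' a b := by simp [add_mul, Finset.sum_add_distrib]
  map_smul' z a := by simp [Finset.smul_sum]

theorem jacL_apply (W : MvPolynomial (Fin k) ℂ) (a : Fin k → MvPolynomial (Fin k) ℂ) :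
    jacL W a = ∑ j, a j * pderiv j W := rfl

/-- tuples of forms of degree `d` -/
noncomputable def tupH (k d : ℕ) : Submodule ℂ (Fin k → MvPolynomial (Fin k) ℂ) :=
  Submodule.pi Set.univ fun _ => homogeneousSubmodule (Fin k) ℂ d

theorem mem_tupH {d : ℕ} {a : Fin k → MvPolynomial (Fin k) ℂ} :
    a ∈ tupH k d ↔ ∀ j, (a j).IsHomogeneous d := by
  simp [tupH, Submodule.mem_pi]

theorem jacL_mem {d : ℕ} {W : MvPolynomial (Fin k) ℂ} (hW : W.IsHomogeneous 3)
    {a : Fin k → MvPolynomial (Fin k) ℂ} (ha : a ∈ tupH k d) :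
    jacL W a ∈ homogeneousSubmodule (Fin k) ℂ (d + 2) := by
  rw [jacL_apply]
  exact Submodule.sum_mem _ fun j _ =>
    IsHomogeneous.mul (mem_tupH.1 ha j) (show (pderiv j W).IsHomogeneous 2 from hW.pderiv)

/-- all forms of high degree are in the Jacobian ideal of a smooth cubic -/
theorem jac_onto {W : MvPolynomial (Fin k) ℂ} (hW : W.IsHomogeneous 3) (hs : G3.SmoothForm W) :
    ∃ d : ℕ, ∀ v ∈ homogeneousSubmodule (Fin k) ℂ (d + 2), ∃ a ∈ tupH k d, jacL W a = v := by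
  classical
  obtain ⟨N, h2, hN⟩ := G3.Pol.exists_cofactors hW hs
  obtain ⟨N, rfl⟩ := Nat.exists_eq_add_of_le' h2
  refine ⟨k * (N + 2) + N, fun v hv => ?_⟩
  have key : ∀ m ∈ (Finset.univ : Finset (Fin k)).finsuppAntidiag (k * (N + 2) + N + 2),
      (monomial m 1 : MvPolynomial (Fin k) ℂ) ∈ (tupH k (k * (N + 2) + N)).map (jacL W) := by
    intro m hm
    have hm' : ∑ i, m i = k * (N + 2) + N + 2 := (Finset.mem_finsuppAntidiag.1 hm).1
    obtain ⟨i, hi⟩ : ∃ i, N + 2 ≤ m i := by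
      by_contra hc
      have h3 : ∑ i, m i ≤ ∑ _i : Fin k, (N + 2) :=
        Finset.sum_le_sum fun i _ => (not_le.1 fun h => hc ⟨i, h⟩).le
      simp only [Finset.sum_const, Finset.card_univ, Fintype.card_fin, smul_eq_mul] at h3
      omega
    obtain ⟨a, ha, hx⟩ := hN i
    have hle : Finsupp.single i (N + 2) ≤ m := Finsupp.single_le_iff.2 hi
    have hdeg : (m - Finsupp.single i (N + 2)).degree = k * (N + 2) := by
      have h4 := congrArg Finsupp.degree (tsub_add_cancel_of_le hle)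
      rw [map_add, Finsupp.degree_single, Finsupp.degree_eq_sum m, hm'] at h4
      omega
    refine ⟨fun j => monomial (m - Finsupp.single i (N + 2)) 1 * a j, mem_tupH.2 fun j => ?_, ?_⟩
    · exact (isHomogeneous_monomial _ hdeg).mul (ha j)
    · rw [jacL_apply]
      simp only [mul_assoc]
      rw [← Finset.mul_sum, ← hx, X_pow_eq_monomial, monomial_mul, tsub_add_cancel_of_le hle,
        mul_one]
  have h5 : v ∈ (tupH k (k * (N + 2) + N)).map (jacL W) := by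
    rw [hom_eq_sum (show v.IsHomogeneous _ from hv)]
    exact Submodule.sum_mem _ fun m hm => Submodule.smul_mem _ _ (key m hm)
  exact h5

/-- the same degree works near a smooth cubic -/
theorem jac_onto_ev {W : I → MvPolynomial (Fin k) ℂ} {W0 : MvPolynomial (Fin k) ℂ}
    (hW : ∀ᶠ n in l, (W n).IsHomogeneous 3) (hW0 : W0.IsHomogeneous 3) (hs : G3.SmoothForm W0)
    (h : Cv l W W0) : ∃ d : ℕ, ∀ᶠ n in l, ∀ v ∈ homogeneousSubmodule (Fin k) ℂ (d + 2),
      ∃ a ∈ tupH k d, jacL (W n) a = v := by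
  obtain ⟨d, hd⟩ := jac_onto hW0 hs
  have : Module.Finite ℂ (homogeneousSubmodule (Fin k) ℂ (d + 2)) :=
    Module.Finite.iff_fg.2 (homogeneousSubmodule_fg _ _ _)
  refine ⟨d, ev_surj _ _ (fun n => jacL (W n)) (jacL W0) hd
    (hW.mono fun n hn a ha => jacL_mem hn ha) fun a _ => ?_⟩
  simp only [jacL_apply]
  exact Cv.sum _ fun j _ => (Cv.const l (a j)).mul (h.map (pderiv j).toLinearMap)

end Vale.Agent.P287T.Op

namespace Vale.Agent.P287T.G3.Mx

variable {I : Type} {l : Filter I} {k : ℕ}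

theorem smooth_of_cof {W : MvPolynomial (Fin k) ℂ} {N : ℕ}
    (h : ∀ i, ∃ a : Fin k → MvPolynomial (Fin k) ℂ, X i ^ N = ∑ j, a j * pderiv j W) :
    SmoothForm W := by
  intro x hx
  funext i
  obtain ⟨a, ha⟩ := h i
  have h1 := congrArg (eval x) ha
  simp only [map_pow, eval_X, map_sum, map_mul, hx, mul_zero, Finset.sum_const_zero] at h1
  exact pow_eq_zero_iff' .. |>.1 h1 |>.1

theorem nilp_of_cof {W : MvPolynomial (Fin k) ℂ} {d : ℕ}
    (hN : ∀ i, ∃ a : Fin k → MvPolynomial (Fin k) ℂ, (∀ j, (a j).IsHomogeneous d) ∧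
      X i ^ (d + 2) = ∑ j, a j * pderiv j W) :
    Nilp (mvCtx k) (mvS W) (Set.range fun i => (X i : MvPolynomial (Fin k) ℂ)) (d + 2) := by
  refine ⟨?_⟩
  rintro E s ⟨i, rfl⟩
  obtain ⟨a, ha, hs⟩ := hN i
  have key : ∀ j : Fin k, NH E (show (mvCtx k).S from a j * pderiv j W)
      ((mvCtx k).en (2 * ((d + 2 : ℕ) : ℤ))) := by
    intro j
    have h1 := N1_NH_mul (A := mvCtx k) (a := a j) (δ := (mvCtx k).en (2 * (d : ℤ)))
      (NH_pderiv E j) (fun b => by
        refine mem_of_isHomogeneous (ha j) (show ℤ from b) _ ?_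
        change (2 * (d : ℤ)) • (1 : ℤ) + (show ℤ from b) = (show ℤ from b) + 2 * (d : ℤ)
        rw [smul_eq_mul, mul_one, add_comm])
    have h2 : (mvCtx k).en 4 + (mvCtx k).en (2 * (d : ℤ)) =
        (mvCtx k).en (2 * ((d + 2 : ℕ) : ℤ)) := by
      rw [← GCtx.en_add]
      congr 1
      push_cast
      ring
    rwa [h2] at h1
  have h3 := N1_NH_sum (A := mvCtx k) Finset.univ _ key
  have h4 : (show (mvCtx k).S from (X i : MvPolynomial (Fin k) ℂ) ^ (d + 2)) =
      ∑ j, (show (mvCtx k).S from a j * pderiv j W) := hs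
  rw [← h4] at h3
  exact h3

/-- **uniform nilpotency and openness of smoothness**, coefficientwise convergence -/
theorem nilu {W : I → MvPolynomial (Fin k) ℂ} {W0 : MvPolynomial (Fin k) ℂ}
    (hW : ∀ᶠ n in l, (W n).IsHomogeneous 3) (hW0 : W0.IsHomogeneous 3) (hs : SmoothForm W0)
    (h : ∀ m, Tendsto (fun n => (W n).coeff m) l (𝓝 (W0.coeff m))) :
    ∃ N : ℕ, 1 ≤ N ∧ ∀ᶠ n in l, SmoothForm (W n) ∧
      Nilp (mvCtx k) (mvS (W n)) (Set.range fun i => (X i : MvPolynomial (Fin k) ℂ)) N := by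
  obtain ⟨d, hd⟩ := jac_onto_ev hW hW0 hs (cv_of_coeff hW hW0 h)
  refine ⟨d + 2, by omega, hd.mono fun n hn => ?_⟩
  have h1 : ∀ i, ∃ a : Fin k → MvPolynomial (Fin k) ℂ, (∀ j, (a j).IsHomogeneous d) ∧
      X i ^ (d + 2) = ∑ j, a j * pderiv j (W n) := fun i => by
    obtain ⟨a, ha, e⟩ := hn _ (isHomogeneous_X_pow i (d + 2))
    exact ⟨a, mem_tupH.1 ha, e.symm⟩
  exact ⟨smooth_of_cof fun i => (h1 i).imp fun _ h => h.2, nilp_of_cof h1⟩

theorem smooth_ev {W : I → MvPolynomial (Fin k) ℂ} {W0 : MvPolynomial (Fin k) ℂ}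
    (hW : ∀ᶠ n in l, (W n).IsHomogeneous 3) (hW0 : W0.IsHomogeneous 3) (hs : SmoothForm W0)
    (h : ∀ m, Tendsto (fun n => (W n).coeff m) l (𝓝 (W0.coeff m))) :
    ∀ᶠ n in l, SmoothForm (W n) := by
  obtain ⟨N, -, hN⟩ := nilu hW hW0 hs h
  exact hN.mono fun _ h => h.1

/-- the same in the tower context -/
theorem nilu_co {W : I → MvPolynomial (Fin k) ℂ} {W0 : MvPolynomial (Fin k) ℂ}
    (hW : ∀ᶠ n in l, (W n).IsHomogeneous 3) (hW0 : W0.IsHomogeneous 3) (hs : SmoothForm W0)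
    (h : ∀ m, Tendsto (fun n => (W n).coeff m) l (𝓝 (W0.coeff m))) :
    ∃ N : ℕ, 1 ≤ N ∧ ∀ᶠ n in l, Nilp (co k) ((mvIso k).φ (mvS (W n))) (vars k) N := by
  obtain ⟨N, h1, hN⟩ := nilu hW hW0 hs h
  refine ⟨N, h1, hN.mono fun n hn => ?_⟩
  have := (mvIso k).nilp_chom (W := mvS (W n)) hn.2
  rw [mvIso_vars] at this
  exact this

attribute [local instance] algS

/-- coefficientwise convergence gives convergence in the ring of the context -/
theorem cv_mvS {d : ℕ} {W : I → MvPolynomial (Fin k) ℂ} {W0 : MvPolynomial (Fin k) ℂ}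
    (hW : ∀ᶠ n in l, (W n).IsHomogeneous d) (hW0 : W0.IsHomogeneous d)
    (h : ∀ m, Tendsto (fun n => (W n).coeff m) l (𝓝 (W0.coeff m))) :
    Cv l (fun n => mvS (W n)) (mvS W0) := by
  let f : MvPolynomial (Fin k) ℂ →ₗ[ℂ] (mvCtx k).S :=
    { toFun := mvS
      map_add' := fun _ _ => rfl
      map_smul' := fun z s => smul_eq_C_mul s z }
  exact (cv_of_coeff hW hW0 h).map f

theorem nilu_cv {W : I → MvPolynomial (Fin k) ℂ} {W0 : MvPolynomial (Fin k) ℂ}
    (hW : ∀ᶠ n in l, (W n).IsHomogeneous 3) (hW0 : W0.IsHomogeneous 3) (hs : SmoothForm W0)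
    (h : Cv l (fun n => mvS (W n)) (mvS W0)) :
    ∃ N : ℕ, 1 ≤ N ∧ ∀ᶠ n in l, SmoothForm (W n) ∧
      Nilp (mvCtx k) (mvS (W n)) (Set.range fun i => (X i : MvPolynomial (Fin k) ℂ)) N :=
  nilu hW hW0 hs (tendsto_of_cv h)

theorem nilu_co_cv {W : I → MvPolynomial (Fin k) ℂ} {W0 : MvPolynomial (Fin k) ℂ}
    (hW : ∀ᶠ n in l, (W n).IsHomogeneous 3) (hW0 : W0.IsHomogeneous 3) (hs : SmoothForm W0)
    (h : Cv l (fun n => mvS (W n)) (mvS W0)) :
    ∃ N : ℕ, 1 ≤ N ∧ ∀ᶠ n in l, Nilp (co k) ((mvIso k).φ (mvS (W n))) (vars k) N :=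
  nilu_co hW hW0 hs (tendsto_of_cv h)

end Vale.Agent.P287T.G3.Mx
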