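import Vale.Agent.P287T.Op.Fn3

/-!
# Preimages along isomorphisms of contexts preserve limits
-/

open Vale.Agent.P294 Vale.Agent.P287T.Op Filter Topology CategoryTheory

namespace Vale.Agent.P287T.G3.Mx

attribute [local instance] algS

variable {A B : GCtx} [GCtx.Aug A] [GCtx.Aug B] {I : Type} {l : Filter I}

omit [GCtx.Aug A] [GCtx.Aug B] in
theorem fn_pre_iso (J : CIso A B) {W : A.S} {X Y : MF B (J.φ W)} (e : Nonempty (X ≅ Y)) :
    Nonempty (J.n2aPre X ≅ J.n2aPre Y) := by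
  have := J.chom_equiv W
  obtain ⟨e⟩ := e
  exact ⟨(J.chom W).functor.preimageIso (J.n2aPreIso X ≪≫ e ≪≫ (J.n2aPreIso Y).symm)⟩

omit [GCtx.Aug A] [GCtx.Aug B] in
theorem fn_pre_obj (J : CIso A B) {W : A.S} (X : MF A W) :
    Nonempty (X ≅ J.n2aPre ((J.chom W).obj X)) := by
  have := J.chom_equiv W
  exact ⟨(J.chom W).functor.preimageIso (J.n2aPreIso _).symm⟩

variable {W : I → A.S} {W0 : A.S}

theorem MLim.fn_pre (J : CIso A B) (hc : ∀ z, J.φ (GCtx.Aug.cst z) = GCtx.Aug.cst z)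
    {Y : ∀ n, MF B (J.φ (W n))} {E : MF B (J.φ W0)} (h : MLim l Y E) :
    MLim l (fun n => J.n2aPre (Y n)) (J.n2aPre E) := by
  have hc' : CL (J.φ.symm : B.S →+* A.S).toAddMonoidHom :=
    CL.of_ring _ fun z => J.φ.symm_apply_eq.2 (hc z).symm
  refine h.fn (fun _ => J.n2aPre) _ (fun n X Y e => fn_pre_iso J e)
    (fun _ d => d.map J.φ.symm) (fun d hd => ?_) (Eventually.of_forall fun n d h1 h2 => ?_)
  · exact Cv.matrix fun i j => hc'.cv (hd.entry i j)
  · exact fn_md_perm (E := J.n2aPre E)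
      (J.n2aPre (⟨E.ι, E.p, d, h1, h2⟩ : MF B (J.φ (W n)))) (Equiv.refl _) fun _ => rfl

/-- a limit of the images comes from a limit -/
theorem MLim.fn_of_ciso (J : CIso A B) (hc : ∀ z, J.φ (GCtx.Aug.cst z) = GCtx.Aug.cst z)
    {X : ∀ n, MF A (W n)} {E : MF B (J.φ W0)}
    (h : MLim l (fun n => (J.chom (W n)).obj (X n)) E) : MLim l X (J.n2aPre E) :=
  (h.fn_pre J hc).fn_iso (Eventually.of_forall fun n => fn_pre_obj J (X n))

variable {k : ℕ} {V : I → MvPolynomial (Fin k) ℂ} {V0 : MvPolynomial (Fin k) ℂ}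

theorem potL_of_tendsto (hW : ∀ n, (V n).IsHomogeneous 3) (hW0 : V0.IsHomogeneous 3)
    (h : ∀ m, Tendsto (fun n => (V n).coeff m) l (𝓝 (V0.coeff m))) :
    PotL l (fun n => mvS (V n)) (mvS V0) :=
  potL_mv hW hW0 (cv_of_tendsto (Eventually.of_forall hW) hW0 h)

theorem mlim_of_mvIso {X : ∀ n, MF (mvCtx k) (mvS (V n))}
    {E : MF (co k) ((mvIso k).φ (mvS V0))}
    (h : MLim l (fun n => ((mvIso k).chom (mvS (V n))).obj (X n)) E) :
    MLim l X ((mvIso k).n2aPre E) := h.fn_of_ciso (mvIso k) (mvIso_cst k)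

end Vale.Agent.P287T.G3.Mx
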