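import Vale.Agent.P287T.Op.T1
import Vale.Agent.P287T.Op.Fn4
import Vale.Agent.P287T.Op.Nil
import Vale.Agent.P287T.G3.F

/-!
# Openness and properness for the global family of stability conditions
-/

open Vale.Agent.P294 Vale.Agent.P287T.Op Filter Topology CategoryTheory CategoryTheory.Limits
  CategoryTheory.Pretriangulated Polynomial

namespace Vale.Agent.P287T.G3.Mx

attribute [local instance] algS

/-- finitely many labels in every window of charges -/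
def FinL (A : GCtx) : Prop := ∀ a b : ℤ, {x : A.L | a ≤ A.ch x ∧ A.ch x ≤ b}.Finite

theorem finL_pt : FinL GCtx.pt := fun a b => Set.finite_Icc a b

theorem finL_mv (k : ℕ) : FinL (mvCtx k) := fun a b => Set.finite_Icc a b

theorem FinL.P {A : GCtx} (h : FinL A) : FinL A.P := h

theorem FinL.T {A : GCtx} (h : FinL A) : FinL A.T := fun a b =>
  ((h a b).prod (Set.finite_univ (α := ZMod 3))).subset fun _ hx => ⟨hx, trivial⟩

theorem finL_co : ∀ n, FinL (co n)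
  | 0 => finL_pt
  | n + 1 => (finL_co n).P

variable {A B : GCtx} [GCtx.Aug A] [GCtx.Aug B] {I : Type} {𝒰 : Ultrafilter I} {l : Filter I}

section cpt

variable {W : I → A.S} {W0 : A.S} {σ : ∀ n, Slic (MF A (W n))}

/-- bounded families have minimal models with fixed labels -/
theorem sl_of_win {m : ℕ} (hL : FinL A) (hev : ∀ n, GCtx.Aug.ev (W n) = 0)
    (hc : ∀ᶠ n in (𝒰 : Filter I), ChW (σ n) m) {X : ∀ n, MF A (W n)} {R : ℕ} {a b : ℝ}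
    (h : ∀ᶠ n in (𝒰 : Filter I), rk (X n) ≤ R ∧ (σ n).U a (X n) ∧ (σ n).V b (X n)) :
    ∃ Y : ∀ n, MF A (W n), (∀ n, Nonempty (X n ≅ Y n) ∧ dbar (Y n) = 0) ∧ SL 𝒰 Y := by
  choose Y hY using fun n => exists_minimal (hev n) (X n)
  refine ⟨Y, hY, sl_of_fin (R := R) (hL ⌊-(3 * b + m)⌋ ⌈-(3 * a)⌉) ?_⟩
  filter_upwards [h, hc] with n ⟨h1, h2, h3⟩ h4
  obtain ⟨⟨e⟩, h5⟩ := hY n
  refine ⟨by rwa [← rk_of_minimal h5, ← e3_rk_iso e], fun i => ⟨?_, ?_⟩⟩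
  · have h6 := h4.V b _ h5 ((σ n).V_le_Vc le_rfl (((σ n).ts b).isoV e h3)) i
    have h7 := Int.floor_le (-(3 * b + m))
    have h8 : ((⌊-(3 * b + m)⌋ : ℤ) : ℝ) ≤ (A.ch ((Y n).p i) : ℝ) := by linarith
    exact_mod_cast h8
  · have h6 := h4.U a _ h5 (((σ n).ts a).isoU e h2) i
    have h7 := Int.le_ceil (-(3 * a))
    have h8 : (A.ch ((Y n).p i) : ℝ) ≤ ((⌈-(3 * a)⌉ : ℤ) : ℝ) := by linarith
    exact_mod_cast h8

theorem cpt_of (hP : PotL 𝒰 W W0) {m : ℕ} (hL : FinL A) (hev : ∀ n, GCtx.Aug.ev (W n) = 0)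
    (hc : ∀ᶠ n in (𝒰 : Filter I), ChW (σ n) m) (hF : FK0 𝒰 W W0) (g : GD A W0) {w : ℝ}
    (hw : (limMF hP).WOpen σ g.σ w) (hw0 : 0 ≤ w) : (limMF hP).Cpt σ fun _ => rk := by
  intro X R a b h
  obtain ⟨Y, hY, hS⟩ := sl_of_win hL hev hc h
  have h1 : RLm 𝒰 W0 X :=
    (hF Y hS).ret (Eventually.of_forall fun n => (hY n).1.elim Rt.of_iso)
  exact ((rlm_iff hP X).1 h1).hl g.stab g.disc hw hw0 (h.mono fun _ hn => hn.2)

theorem rt_of_map {C D : Type 1} [Category.{0} C] [Category.{0} D] (F : C ⥤ D) [F.Full]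
    [F.Faithful] {X Y : C} (h : Rt (F.obj X) (F.obj Y)) : Rt X Y := by
  obtain ⟨i, p, e⟩ := h
  refine ⟨F.preimage i, F.preimage p, F.map_injective ?_⟩
  rw [Functor.map_comp, Functor.map_preimage, Functor.map_preimage,
    CategoryTheory.Functor.map_id, e]

theorem FK0.ciso (J : CIso A B) (hc : ∀ z, J.φ (GCtx.Aug.cst z) = GCtx.Aug.cst z)
    (h : FK0 l (fun n => J.φ (W n)) (J.φ W0)) : FK0 l W W0 := by
  intro X hX
  obtain ⟨Y, E, h1, h2⟩ :=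
    h _ (hX.chom (fun n => J.chom (W n)) J.lab (fun _ _ => trivial) fun _ _ => rfl)
  refine ⟨_, _, h1.fn_pre J hc, h2.mono fun n hn => ?_⟩
  have := J.chom_equiv (W n)
  exact rt_of_map (J.chom (W n)).functor (hn.trans (Rt.of_iso (J.n2aPreIso (Y n)).symm))

end cpt

section tower

variable {W : A.S}

/-- the aisles are open along `𝒰` -/
structure Opn (𝒰 : Ultrafilter I) (g : GD A W) : Prop where
  U : ∀ {X : I → MF A W} {E : MF A W} {s : ℝ}, MLim 𝒰 (W := fun _ => W) X E → g.σ.U s E →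
    ∀ᶠ n in (𝒰 : Filter I), g.σ.U s (X n)
  V : ∀ {X : I → MF A W} {E : MF A W} {s : ℝ}, MLim 𝒰 (W := fun _ => W) X E → g.σ.V s E →
    ∀ᶠ n in (𝒰 : Filter I), g.σ.V s (X n)

/-- the properties of one level of the tower -/
structure Lv (𝒰 : Ultrafilter I) (g : GD A W) (m : ℕ) : Prop where
  pot : PotL (𝒰 : Filter I) (fun _ => W) W
  lab : FinL A
  ev : GCtx.Aug.ev W = 0
  ch : ChW g.σ m
  fk : FK0 (𝒰 : Filter I) (fun _ => W) W
  op : Opn 𝒰 g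

theorem pt_model {X E : F0Pt} {d} (h : Md E d X) :
    ∃ Y : F0Pt, Nonempty (X ≅ Y) ∧ Y.d = 0 ∧ ∀ i, ∃ k, F0ph E k = F0ph Y i := by
  obtain ⟨h1, h2, ⟨e⟩⟩ := h
  obtain ⟨Y, ⟨e'⟩, hY⟩ := F0_min X
  exact ⟨Y, ⟨e'⟩, hY, fun i => F0_lab hY (e'.symm ≪≫ e) i⟩

theorem opn_pt (𝒰 : Ultrafilter I) : Opn 𝒰 gdPt := by
  have hP := PotL.fn_const (𝒰 : Filter I) finH_pt (Fer_isPot 0)
  constructor
  · rintro X E s h ⟨E', ⟨e⟩, -, h1⟩
    obtain ⟨d, -, h2⟩ := h.isoR hP e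
    filter_upwards [h2] with n hn
    obtain ⟨Y, h3, h4, h5⟩ := pt_model hn
    exact ⟨Y, h3, h4, fun i => (h5 i).elim fun k hk => hk ▸ h1 k⟩
  · rintro X E s h ⟨E', ⟨e⟩, -, h1⟩
    obtain ⟨d, -, h2⟩ := h.isoR hP e
    filter_upwards [h2] with n hn
    obtain ⟨Y, h3, h4, h5⟩ := pt_model hn
    exact ⟨Y, h3, h4, fun i => (h5 i).elim fun k hk => hk ▸ h1 k⟩

theorem Lv.T {g : GD A W} {m : ℕ} (h : Lv 𝒰 g m) : Lv 𝒰 (gdT g) (m + 1) := by
  have hP : PotL (𝒰 : Filter I) (fun _ => WT A W) (WT A W) := h.pot.fn_WT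
  have hev : GCtx.Aug.ev (WT A W) = 0 := F1_ev_aux h.ev
  have hc := h.ch.T (gdT_win g)
  have hF : FK0 (𝒰 : Filter I) (fun _ => WT A W) (WT A W) := fk0_WT h.pot h.fk
  have hw : (limMF hP).WOpen (fun _ => (gdT g).σ) (gdT g).σ (2 / 5) := by
    constructor
    · intro X E s hX hE
      have h1 : ∀ᶠ n in (𝒰 : Filter I), ∀ v, g.σ.U s (tgr v (X n)) :=
        eventually_all.2 fun v => h.op.U (mlim_tgr v hX) ((gdT_win g).U s E hE v)
      exact h1.mono fun n hn => (gdT_win g).U_of (by linarith) hn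
    · intro X E s hX hE
      have h1 : ∀ᶠ n in (𝒰 : Filter I), ∀ v, g.σ.V (s + 2 / 5) (tgr v (X n)) :=
        eventually_all.2 fun v => h.op.V (mlim_tgr v hX)
          ((gdT_win g).V s E ((gdT g).σ.V_le_Vc le_rfl hE) v _ (by linarith))
      exact h1.mono fun n hn => (gdT_win g).V_of hn
  have h0 := LimS.open_of_wopen (gdT g).stab (gdT g).disc
    (Eventually.of_forall fun _ => (gdT g).stab) (limMF_zc hP (gdT g).κ) hw (by norm_num)
    (by norm_num)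
    (cpt_of hP h.lab.T (fun _ => hev) (Eventually.of_forall fun _ => hc) hF (gdT g) hw
      (by norm_num))
  refine ⟨hP, h.lab.T, hev, hc, hF, fun hX hE => ?_, fun hX hE => ?_⟩
  · simpa only [sub_zero] using h0.U hX hE
  · simpa only [add_zero] using h0.V hX hE

theorem Lv.TT {g : GD A W} {k : ℕ} (h : Lv 𝒰 g k) : ∀ m, Lv 𝒰 (gdTT g m) (k + m)
  | 0 => h
  | m + 1 => Lv.T (A := G3.TT A m) (h.TT m)

theorem lv_of (n : ℕ) (h : Opn 𝒰 (gdFer n)) : Lv 𝒰 (gdFer n) n :=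
  ⟨PotL.fn_const _ (finH_co n) (Fer_isPot n), finL_co n, ev_Fer n, chW_Fer n, fk0_Fer 𝒰 n, h⟩

theorem opn_Fer (𝒰 : Ultrafilter I) : ∀ n, Opn 𝒰 (gdFer n)
  | 0 => opn_pt 𝒰
  | n + 1 => by
    have h := (lv_of n (opn_Fer 𝒰 n)).T.op
    constructor
    · intro X E s hX hE
      exact (h.U (mlim_IndO (A := co n) (W := Fer n) hX) ((gdFer_U n s E).1 hE)).mono
        fun k hk => (gdFer_U n s (X k)).2 hk
    · intro X E s hX hE
      exact (h.V (mlim_IndO (A := co n) (W := Fer n) hX) ((gdFer_V n s E).1 hE)).mono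
        fun k hk => (gdFer_V n s (X k)).2 hk

theorem opn_g0 (𝒰 : Ultrafilter I) (n : ℕ) : Opn 𝒰 (g0 n) :=
  ((lv_of n (opn_Fer 𝒰 n)).TT (mW n)).op

end tower

theorem MLim.mono {l' : Filter I} {W : I → A.S} {W0 : A.S} {X : ∀ n, MF A (W n)} {E : MF A W0}
    (h : MLim l X E) (e : l' ≤ l) : MLim l' X E := by
  obtain ⟨d, h1, h2⟩ := h
  exact ⟨d, h1.mono e, h2.filter_mono e⟩

section final

variable {k : ℕ} {W : I → MvPolynomial (Fin k) ℂ} {W0 : MvPolynomial (Fin k) ℂ}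
  (hW : ∀ n, (W n).IsHomogeneous 3) (hs : ∀ n, SmoothForm (W n)) (hW0 : W0.IsHomogeneous 3)
  (hs0 : SmoothForm W0)

theorem wopen_sig (hc : Cv 𝒰 (fun n => mvS (W n)) (mvS W0)) :
    (limMF (potL_mv hW hW0 hc)).WOpen (fun n => (sig (W n) (hW n) (hs n)).σ)
      (sig W0 hW0 hs0).σ 0 where
  U {X E s} hX hE :=
    ((opn_g0 𝒰 k).U (mlim_Fd hW hW0 hc hX) ((sig_U hW0 hs0 s E).1 hE)).mono fun n hn => by
      rw [sub_zero]
      exact (sig_U (hW n) (hs n) s (X n)).2 hn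
  V {X E s} hX hE :=
    ((opn_g0 𝒰 k).V (mlim_Fd hW hW0 hc hX) ((sig_V hW0 hs0 s E).1 hE)).mono fun n hn => by
      rw [add_zero]
      exact (sig_V (hW n) (hs n) s (X n)).2 hn

theorem stab_sig (n : I) : Stab (sig (W n) (hW n) (hs n)).σ
    (fun E => (sig W0 hW0 hs0).κ * Zf E) rk (g0 k).c := by
  have h := (sig (W n) (hW n) (hs n)).stab
  rwa [sig_c, sig_κ, ← sig_κ hW0 hs0] at h

include hW hW0 hs0 in
theorem fk0_mv (hc : Cv 𝒰 (fun n => mvS (W n)) (mvS W0)) :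
    FK0 𝒰 (fun n => mvS (W n)) (mvS W0) := by
  obtain ⟨N, -, hN⟩ := nilu_co_cv (Eventually.of_forall hW) hW0 hs0 hc
  exact FK0.ciso (mvIso k) (mvIso_cst k) ((fk_co N k (potL_co hW hW0 hc)).fk0 hN)

include hs0 in
theorem cpt_sig (hc : Cv 𝒰 (fun n => mvS (W n)) (mvS W0)) :
    (limMF (potL_mv hW hW0 hc)).Cpt (fun n => (sig (W n) (hW n) (hs n)).σ) fun _ => rk :=
  have : Nonempty (mvCtx k).L := ⟨(0 : ℤ)⟩
  cpt_of _ (finL_mv k) (fun n => ev_pot (isPot_mvS (hW n)))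
    (Eventually.of_forall fun n => chW_sig (hW n) (hs n)) (fk0_mv hW hW0 hs0 hc)
    (sig W0 hW0 hs0) (wopen_sig hW hs hW0 hs0 hc) le_rfl

variable {X : ∀ n, MF (mvCtx k) (mvS (W n))} {E : MF (mvCtx k) (mvS W0)}

/-- **openness** of the aisles -/
theorem opU (hc : Cv l (fun n => mvS (W n)) (mvS W0)) (hX : MLim l X E) {s : ℝ}
    (hE : (sig W0 hW0 hs0).σ.U s E) : ∀ᶠ n in l, (sig (W n) (hW n) (hs n)).σ.U s (X n) := by
  refine Filter.mem_iff_ultrafilter.2 fun 𝒰 h => ?_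
  have h1 := (wopen_sig hW hs hW0 hs0 (hc.mono h)).U (hX.mono h) hE
  rw [sub_zero] at h1
  exact h1

theorem opV (hc : Cv l (fun n => mvS (W n)) (mvS W0)) (hX : MLim l X E) {s : ℝ}
    (hE : (sig W0 hW0 hs0).σ.V s E) : ∀ᶠ n in l, (sig (W n) (hW n) (hs n)).σ.V s (X n) := by
  refine Filter.mem_iff_ultrafilter.2 fun 𝒰 h => ?_
  have h1 := (wopen_sig hW hs hW0 hs0 (hc.mono h)).V (hX.mono h) hE
  rw [add_zero] at h1
  exact h1

/-- **openness** of semistability -/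
theorem opP (hc : Cv l (fun n => mvS (W n)) (mvS W0)) (hX : MLim l X E) {s : ℝ}
    (hE : (sig W0 hW0 hs0).σ.P s E) : ∀ᶠ n in l, (sig (W n) (hW n) (hs n)).σ.P s (X n) := by
  refine Filter.mem_iff_ultrafilter.2 fun 𝒰 h => ?_
  exact (wopen_sig hW hs hW0 hs0 (hc.mono h)).P (sig W0 hW0 hs0).stab
    (Eventually.of_forall (stab_sig hW hs hW0 hs0)) (limMF_zc _ _) (hX.mono h) hE

/-- **properness** in a window -/
theorem prW (hc : Cv 𝒰 (fun n => mvS (W n)) (mvS W0)) {R : ℕ} {a b : ℝ}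
    (h : ∀ᶠ n in (𝒰 : Filter I), rk (X n) ≤ R ∧ (sig (W n) (hW n) (hs n)).σ.U a (X n) ∧
      (sig (W n) (hW n) (hs n)).σ.V b (X n)) :
    ∃ E, MLim 𝒰 X E ∧ (sig W0 hW0 hs0).σ.U a E ∧ (sig W0 hW0 hs0).σ.V b E :=
  LimS.sred_window (sig W0 hW0 hs0).stab (sig W0 hW0 hs0).disc
    (Eventually.of_forall (stab_sig hW hs hW0 hs0)) (limMF_zc _ _)
    (wopen_sig hW hs hW0 hs0 hc) (cpt_sig hW hs hW0 hs0 hc X R a b h)
    (h.mono fun _ hn => hn.2)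

/-- **properness**: semistable objects of bounded central charge -/
theorem prB (hc : Cv 𝒰 (fun n => mvS (W n)) (mvS W0)) {φ M : ℝ}
    (h : ∀ᶠ n in (𝒰 : Filter I), (sig (W n) (hW n) (hs n)).σ.P φ (X n) ∧ ‖Zf (X n)‖ ≤ M) :
    ∃ E, (sig W0 hW0 hs0).σ.P φ E ∧ MLim 𝒰 X E := by
  obtain ⟨R, hR⟩ := exists_nat_ge (‖(sig W0 hW0 hs0).κ‖ * M / (g0 k).c)
  have h1 : ∀ᶠ n in (𝒰 : Filter I), rk (X n) ≤ R ∧ (sig (W n) (hW n) (hs n)).σ.U φ (X n) ∧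
      (sig (W n) (hW n) (hs n)).σ.V (φ + 1) (X n) := by
    filter_upwards [h] with n ⟨h1, h2⟩
    refine ⟨?_, h1.1, h1.2 _ (by linarith)⟩
    have hst := stab_sig hW hs hW0 hs0 n
    obtain ⟨m, h3, h4⟩ := hst.ph φ _ h1
    have h5 : |m| = ‖(sig W0 hW0 hs0).κ‖ * ‖Zf (X n)‖ := by
      rw [← norm_mul, h4, norm_mul, norm_ray, mul_one, Complex.norm_real, Real.norm_eq_abs]
    have h6 := mul_le_mul_of_nonneg_left h2 (norm_nonneg (sig W0 hW0 hs0).κ)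
    rw [div_le_iff₀ hst.cpos] at hR
    have h7 : (g0 k).c * (rk (X n) : ℝ) ≤ (g0 k).c * R := by
      have := le_abs_self m
      linarith
    exact_mod_cast le_of_mul_le_mul_left h7 hst.cpos
  obtain ⟨E, h2, h3⟩ := LimS.sred (sig W0 hW0 hs0).stab (sig W0 hW0 hs0).disc
    (Eventually.of_forall (stab_sig hW hs hW0 hs0)) (limMF_zc _ _)
    (wopen_sig hW hs hW0 hs0 hc) (cpt_sig hW hs hW0 hs0 hc X R φ (φ + 1) h1)
    (h.mono fun _ hn => hn.1)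
  exact ⟨E, h3, h2⟩

/-- **properness**: semistable objects of a fixed central charge -/
theorem prP (hc : Cv 𝒰 (fun n => mvS (W n)) (mvS W0)) {φ : ℝ} {z : ℂ}
    (h : ∀ᶠ n in (𝒰 : Filter I), (sig (W n) (hW n) (hs n)).σ.P φ (X n) ∧ Zf (X n) = z) :
    ∃ E, (sig W0 hW0 hs0).σ.P φ E ∧ MLim 𝒰 X E :=
  prB hW hs hW0 hs0 hc (M := ‖z‖) (h.mono fun _ hn => ⟨hn.1, hn.2 ▸ le_rfl⟩)

end final

end Vale.Agent.P287T.G3.Mx
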