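import Vale.Agent.P287T.Op.AbsDef
import Vale.Agent.P287T.Op.Uo

/-!
# Top factors, the function `hh`, the effect of a Langton move
-/

set_option linter.unusedSectionVars false

open CategoryTheory CategoryTheory.Pretriangulated CategoryTheory.Limits

namespace Vale.Agent.P287T.Op

open Vale.Agent.P294

universe v u

variable {D : Type u} [Category.{v} D] [Preadditive D] [HasZeroObject D] [HasShift D ℤ]
  [∀ k : ℤ, (shiftFunctor D k).Additive] [Pretriangulated D] [IsTriangulated D]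

variable {σ : Slic D} {Z : D → ℂ} {r : D → ℕ} {c : ℝ}

theorem V_neg (σ : Slic D) (s : ℝ) (X : D) : σ.V s (X⟦(-1 : ℤ)⟧) ↔ σ.V (s + 1) X := by
  have := σ.shiftV_int (s + 1) (-1) X
  rwa [show s + 1 + ((-1 : ℤ) : ℝ) = s by push_cast; ring] at this

theorem V_neg' (σ : Slic D) {s t : ℝ} (h : s ≤ t + 1) {X : D} (hX : σ.V s X) :
    σ.V t (X⟦(-1 : ℤ)⟧) := (V_neg σ t X).2 (σ.monoV h _ hX)

omit [IsTriangulated D] in
theorem U_pos' (σ : Slic D) {s t : ℝ} (h : t ≤ s + 1) {X : D} (hX : σ.U s X) :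
    σ.U t (X⟦(1 : ℤ)⟧) := σ.anti h _ ((σ.shift s X).2 hX)

theorem sub_V (σ : Slic D) {X E Y : D} (t : A2bTr X E Y) {s b : ℝ} (hE : σ.V b E)
    (hY : σ.V s Y) (h : s ≤ b + 1) : σ.V b X :=
  (σ.ts b).a2bTr1V t hE (V_neg' σ h hY)

theorem quot_U (σ : Slic D) {X E Y : D} (t : A2bTr X E Y) {s a : ℝ} (hE : σ.U a E)
    (hX : σ.U s X) (h : a ≤ s + 1) : σ.U a Y :=
  (σ.ts a).a2bTr3U t hE (U_pos' σ h hX)

theorem ht_iff (σ : Slic D) (s : ℝ) (X : D) :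
    Ht (σ.U s) (σ.V s) X ↔ σ.U s X ∧ σ.V (s + 1) X := by
  unfold Ht
  rw [V_neg]

theorem exists_Vc (σ : Slic D) {s t : ℝ} (hst : s < t) {X : D}
    (hX : ExtCl (fun Y => ∃ φ, s ≤ φ ∧ φ < t ∧ σ.P φ Y) X) : ∃ u < t, σ.Vc u X := by
  induction hX with
  | zero X hX => exact ⟨s, hst, fun t _ => (σ.ts t).zeroV hX⟩
  | of X hX =>
    obtain ⟨φ, -, h2, h3⟩ := hX
    exact ⟨φ, h2, h3.2⟩
  | ext T hT _ _ ih1 ih3 =>
    obtain ⟨u1, h1, k1⟩ := ih1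
    obtain ⟨u3, h3, k3⟩ := ih3
    refine ⟨max u1 u3, max_lt h1 h3, σ.extVc hT ?_ ?_⟩
    · exact fun t ht => k1 t (lt_of_le_of_lt (le_max_left _ _) ht)
    · exact fun t ht => k3 t (lt_of_le_of_lt (le_max_right _ _) ht)

theorem exists_Vc' (h : σ.HN) {t : ℝ} {X : D} (hX : σ.V t X) : ∃ u < t, σ.Vc u X := by
  obtain ⟨a, b, ha, -⟩ := σ.bdd X
  have h1 : min a (t - 1) < t := lt_of_le_of_lt (min_le_right _ _) (by linarith)
  exact exists_Vc σ h1 (h _ _ X (σ.anti (min_le_left _ _) _ ha) hX)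

/-- the first Harder-Narasimhan factor -/
theorem exists_top (h : σ.HN) {E : D} (h0 : ¬ IsZero E) {a b : ℝ} (hU : σ.U a E)
    (hV : σ.V b E) : ∃ (ψ : ℝ) (A B : D), a ≤ ψ ∧ ψ < b ∧ A2bTr A E B ∧ σ.P ψ A ∧ ¬ IsZero A ∧
      σ.V ψ B ∧ σ.U a B := by
  let S : Set ℝ := {t | σ.V t E}
  have hlow : ∀ t ∈ S, a ≤ t := by
    intro t ht
    by_contra hlt
    exact h0 (σ.isZero_of (le_of_lt (not_le.1 hlt)) hU ht)
  have hbdd : BddBelow S := ⟨a, hlow⟩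
  have hne : S.Nonempty := ⟨b, hV⟩
  have hVc : σ.Vc (sInf S) E := by
    intro t ht
    obtain ⟨t', ht', hlt⟩ := exists_lt_of_csInf_lt hne ht
    exact σ.monoV hlt.le _ ht'
  have hnot : ¬ σ.V (sInf S) E := by
    intro hv
    obtain ⟨u, hu, hu'⟩ := exists_Vc' h hv
    have h1 : (u + sInf S) / 2 ∈ S := hu' _ (by linarith)
    have := csInf_le hbdd h1
    linarith
  have haS : a ≤ sInf S := le_csInf hne hlow
  have hb : sInf S < b := by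
    by_contra hle
    exact hnot (σ.monoV (not_lt.1 hle) _ hV)
  obtain ⟨A, B, t, hA, hB⟩ := trunc σ (sInf S) E
  refine ⟨sInf S, A, B, haS, hb, t, ⟨hA, fun s hs => ?_⟩, fun hz => ?_, hB, ?_⟩
  · exact sub_V σ t (hVc s hs) hB (by linarith)
  · exact hnot ((σ.ts _).a2bTrV t ((σ.ts _).zeroV hz) hB)
  · exact quot_U σ t hU hA (by linarith)

theorem lam_pos' (h : Stab σ Z r c) {s a b : ℝ} {X : D} (ha : s < a) (hb : b ≤ s + 1)
    (hU : σ.U a X) (hV : σ.V b X) (h0 : ¬ IsZero X) : 0 < lam s (Z X) := by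
  obtain ⟨u, hu, hu'⟩ := exists_Vc' h.hn hV
  exact h.lam_pos ha (by linarith) hU hu' h0

/-- an object of the heart whose charge is on the boundary ray is semistable -/
theorem P_of_lam (h : Stab σ Z r c) {ψ : ℝ} {Q : D} (hU : σ.U ψ Q) (hV : σ.V (ψ + 1) Q)
    (hl : lam ψ (Z Q) ≤ 0) : σ.P ψ Q := by
  refine ⟨hU, fun t ht => ?_⟩
  by_cases ht1 : ψ + 1 ≤ t
  · exact σ.monoV ht1 _ hV
  obtain ⟨A, B, tr, hA, hB⟩ := trunc σ t Q
  have hAV : σ.V (ψ + 1) A := sub_V σ tr hV hB (by linarith)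
  have hBU : σ.U ψ B := quot_U σ tr hU hA (by linarith)
  have e := addC h.add tr
  have l1 : 0 ≤ lam ψ (Z B) := h.pre.lam_nonneg le_rfl (by linarith) hBU hB
  have hA0 : IsZero A := by
    by_contra h0
    have l2 := lam_pos' h ht le_rfl hA hAV h0
    rw [e, lam_add] at hl
    linarith
  exact (σ.ts t).a2bTrV tr ((σ.ts t).zeroV hA0) hB

/-- the charge of the part of phases `≥ θ` -/
noncomputable def ZU (σ : Slic D) (Z : D → ℂ) (θ : ℝ) (E : D) : ℂ :=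
  Z (trunc σ θ E).choose

theorem ZU_eq (hZ : AddTri Z) {θ : ℝ} {X E Y : D} (t : A2bTr X E Y) (hX : σ.U θ X)
    (hY : σ.V θ Y) : ZU σ Z θ E = Z X := by
  obtain ⟨Y', t', hX', hY'⟩ := (trunc σ θ E).choose_spec
  have e1 := addC hZ t
  have e2 := addC hZ t'
  obtain ⟨f, g, δ, hT⟩ := t
  obtain ⟨f', g', δ', hT'⟩ := t'
  obtain ⟨e⟩ := (σ.ts θ).uniqV hT hT' hX hY hX' hY' (Iso.refl _)
  have e3 : Z Y = Z Y' := hZ.isoC e
  unfold ZU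
  linear_combination e1 - e2 + e3

/-- `lam θ` of the charge of the part of phases `≥ θ` -/
noncomputable def hh (σ : Slic D) (Z : D → ℂ) (θ : ℝ) (E : D) : ℝ := lam θ (ZU σ Z θ E)

theorem hh_nonneg (h : Stab σ Z r c) {θ : ℝ} {E : D} (hE : σ.V (θ + 1) E) :
    0 ≤ hh σ Z θ E := by
  obtain ⟨X, Y, t, hX, hY⟩ := trunc σ θ E
  unfold hh
  rw [ZU_eq h.add t hX hY]
  exact h.pre.lam_nonneg le_rfl le_rfl hX (sub_V σ t hE hY (by linarith))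

theorem hh_add (hZ : AddTri Z) {θ : ℝ} {A E B : D} (t : A2bTr A E B) (hA : σ.U θ A) :
    hh σ Z θ E = lam θ (Z A) + hh σ Z θ B := by
  obtain ⟨X, Y, t', hX, hY⟩ := trunc σ θ B
  obtain ⟨G, t1, t2⟩ := t.oct2 t'
  unfold hh
  rw [ZU_eq hZ t' hX hY, ZU_eq hZ t1 ((σ.ts θ).a2bTrU t2 hA hX) hY, addC hZ t2, lam_add]

omit [IsTriangulated D] in
/-- a triangle whose first map vanishes on a map kills it, if there are no maps to the shift -/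
theorem zero_of_comp {X Y W K : D} {f : X ⟶ Y} {g : Y ⟶ W} {δ : W ⟶ X⟦(1 : ℤ)⟧}
    (hT : Triangle.mk f g δ ∈ distTriang D) (k : K ⟶ X) (hk : k ≫ f = 0)
    (hv : ∀ l : K ⟶ W⟦(-1 : ℤ)⟧, l = 0) : k = 0 := by
  obtain ⟨l, hl⟩ := Triangle.coyoneda_exact₂ _ (inv_rot_of_distTriang _ hT) k hk
  have h0 : l = 0 := hv l
  rw [hl, h0]
  exact zero_comp

omit [IsTriangulated D] in
theorem isZero_of_mor {X Y W : D} {f : X ⟶ Y} {g : Y ⟶ W} {δ : W ⟶ X⟦(1 : ℤ)⟧}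
    (hT : Triangle.mk f g δ ∈ distTriang D) (hf : f = 0)
    (hv : ∀ l : X ⟶ W⟦(-1 : ℤ)⟧, l = 0) : IsZero X := by
  rw [IsZero.iff_id_eq_zero]
  exact zero_of_comp hT _ (by rw [hf, comp_zero]) hv

theorem mono_le (h : Stab σ Z r c) {θ : ℝ} {K X : D} (hK : Ht (σ.U θ) (σ.V θ) K)
    (hX : Ht (σ.U θ) (σ.V θ) X) (k : K ⟶ X)
    (hk : ∀ (K1 : D) (u : K1 ⟶ K), σ.U θ K1 → u ≫ k = 0 → u = 0) :
    lam θ (Z K) ≤ lam θ (Z X) := by
  obtain ⟨K1, J, Q, k1, p, m, q, δ, δ', t1, t2, hK1, hJ, hQ, hpm⟩ :=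
    heart_factor (σ.ts θ) hK hX k
  have h1 : k1 ≫ p = 0 := comp_distTriang_mor_zero₁₂ _ t1
  have h2 : k1 = 0 := hk K1 k1 hK1.1 (by rw [← hpm, ← Category.assoc, h1, zero_comp])
  have h3 : IsZero K1 := isZero_of_mor t1 h2 fun l => (σ.ts θ).hom hK1.1 hJ.2 l
  have e1 : Z K = Z K1 + Z J := h.add _ t1
  have e2 : Z X = Z J + Z Q := h.add _ t2
  rw [h.add.zeroC h3, zero_add] at e1
  have l1 : 0 ≤ lam θ (Z Q) :=
    h.pre.lam_nonneg le_rfl le_rfl hQ.1 ((V_neg σ θ Q).1 hQ.2)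
  rw [e1, e2, lam_add]
  linarith

/-- left exactness of the top part -/
theorem hh_sub (h : Stab σ Z r c) {θ : ℝ} {B E A : D} (t : A2bTr B E A) (hAU : σ.U θ A)
    (hAV : σ.V (θ + 1) A) (hB : σ.V (θ + 1) B) :
    hh σ Z θ E ≤ hh σ Z θ B + lam θ (Z A) := by
  have hE : σ.V (θ + 1) E := (σ.ts _).a2bTrV t hB hAV
  obtain ⟨X, Y, tE, hX, hY⟩ := trunc σ θ E
  obtain ⟨X', Y', tB, hX', hY'⟩ := trunc σ θ B
  unfold hh
  rw [ZU_eq h.add tE hX hY, ZU_eq h.add tB hX' hY']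
  have hXh : Ht (σ.U θ) (σ.V θ) X := (ht_iff σ θ X).2 ⟨hX, sub_V σ tE hE hY (by linarith)⟩
  have hXh' : Ht (σ.U θ) (σ.V θ) X' := (ht_iff σ θ X').2 ⟨hX', sub_V σ tB hB hY' (by linarith)⟩
  have hAh : Ht (σ.U θ) (σ.V θ) A := (ht_iff σ θ A).2 ⟨hAU, hAV⟩
  obtain ⟨f, g, δ, hT⟩ := t
  obtain ⟨x, y, dx, hTE⟩ := tE
  obtain ⟨x', y', dx', hTB⟩ := tB
  obtain ⟨K, J, Q, k, p, m, q, d1, d2, t1, t2, hK, hJ, hQ, hpm⟩ :=
    heart_factor (σ.ts θ) hXh hAh (x ≫ g)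
  have h1 : k ≫ p = 0 := comp_distTriang_mor_zero₁₂ _ t1
  have h2 : (k ≫ x) ≫ g = 0 := by
    rw [Category.assoc, ← hpm, ← Category.assoc, h1, zero_comp]
  obtain ⟨l, hl⟩ := a2b_coyon2 hT (k ≫ x) h2
  obtain ⟨l', hl'⟩ := a2b_coyon2 hTB l ((σ.ts θ).hom hK.1 hY' _)
  have m1 : lam θ (Z K) ≤ lam θ (Z X') := by
    refine mono_le h hK hXh' l' fun K1 u hK1 hu => ?_
    have h3 : (u ≫ k) ≫ x = 0 := by
      rw [Category.assoc, hl, hl', ← Category.assoc, ← Category.assoc, hu, zero_comp, zero_comp]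
    have h4 : u ≫ k = 0 :=
      zero_of_comp hTE _ h3 fun l => (σ.ts θ).hom hK1 ((σ.ts θ).shV hY) l
    exact zero_of_comp t1 _ h4 fun l => (σ.ts θ).hom hK1 hJ.2 l
  have e1 : Z X = Z K + Z J := h.add _ t1
  have e2 : Z A = Z J + Z Q := h.add _ t2
  have l1 : 0 ≤ lam θ (Z Q) :=
    h.pre.lam_nonneg le_rfl le_rfl hQ.1 ((V_neg σ θ Q).1 hQ.2)
  rw [e1, e2, lam_add, lam_add]
  linarith

theorem P_V (σ : Slic D) {ψ : ℝ} {A : D} (hA : σ.P ψ A) : σ.V (ψ + 1) A :=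
  hA.2 _ (by linarith)

omit [IsTriangulated D] in
theorem stab_pos (h : Stab σ Z r c) {ψ : ℝ} {A : D} (hA : σ.P ψ A) :
    ∃ m : ℝ, 0 ≤ m ∧ (¬ IsZero A → c ≤ m) ∧ Z A = m * ray ψ ∧ ‖Z A‖ = m := by
  obtain ⟨m, hm, e⟩ := h.ph ψ A hA
  have h1 : (0 : ℝ) ≤ c * r A := mul_nonneg h.cpos.le (Nat.cast_nonneg _)
  refine ⟨m, h1.trans hm, fun h0 => le_trans ?_ hm, e, ?_⟩
  · have h2 : r A ≠ 0 := fun h' => h0 ((h.rk.zero A).1 h')
    have h3 : (1 : ℝ) ≤ r A := by exact_mod_cast Nat.one_le_iff_ne_zero.2 h2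
    have := h.cpos
    nlinarith
  · rw [e, norm_mul, norm_ray, mul_one, Complex.norm_real, Real.norm_of_nonneg (h1.trans hm)]

/-- after a nontrivial move the top factor of the same phase is smaller -/
theorem move_lt (h : Stab σ Z r c) {ψ : ℝ} {B E A A' B' : D} {f : B ⟶ E} {g : E ⟶ A}
    {δ : A ⟶ B⟦(1 : ℤ)⟧} (hT : Triangle.mk f g δ ∈ distTriang D) (hδ : δ ≠ 0)
    (hA : σ.P ψ A) (hB : σ.V ψ B) (t : A2bTr A' E B') (hA' : σ.P ψ A') (hB' : σ.V ψ B') :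
    ‖Z A'‖ < ‖Z A‖ := by
  obtain ⟨a, b, d, hT'⟩ := t
  have hAh : Ht (σ.U ψ) (σ.V ψ) A := (ht_iff σ ψ A).2 ⟨hA.1, P_V σ hA⟩
  have hAh' : Ht (σ.U ψ) (σ.V ψ) A' := (ht_iff σ ψ A').2 ⟨hA'.1, P_V σ hA'⟩
  obtain ⟨K, J, Q, k, p, m, q, d1, d2, t1, t2, hK, hJ, hQ, hpm⟩ :=
    heart_factor (σ.ts ψ) hAh' hAh (a ≫ g)
  have h1 : k ≫ p = 0 := comp_distTriang_mor_zero₁₂ _ t1
  have h2 : (k ≫ a) ≫ g = 0 := by
    rw [Category.assoc, ← hpm, ← Category.assoc, h1, zero_comp]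
  obtain ⟨l, hl⟩ := a2b_coyon2 hT (k ≫ a) h2
  have h3 : k ≫ a = 0 := by rw [hl, (σ.ts ψ).hom hK.1 hB l, zero_comp]
  have h4 : k = 0 := zero_of_comp hT' _ h3 fun l => (σ.ts ψ).hom hK.1 ((σ.ts ψ).shV hB') l
  have hK0 : IsZero K := isZero_of_mor t1 h4 fun l => (σ.ts ψ).hom hK.1 hJ.2 l
  have e1 : Z A' = Z K + Z J := h.add _ t1
  have e2 : Z A = Z J + Z Q := h.add _ t2
  rw [h.add.zeroC hK0, zero_add] at e1
  obtain ⟨mA, -, -, eA, nA⟩ := stab_pos h hA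
  obtain ⟨mA', -, -, eA', nA'⟩ := stab_pos h hA'
  have eQ : Z Q = ((mA - mA' : ℝ) : ℂ) * ray ψ := by
    push_cast
    linear_combination eA - eA' - e2 + e1
  have hQP : σ.P ψ Q := by
    refine P_of_lam h hQ.1 ((V_neg σ ψ Q).1 hQ.2) (le_of_eq ?_)
    rw [eQ, lam_mul_ray]
    simp
  have hQ0 : ¬ IsZero Q := by
    intro hQ0
    have i1 : IsIso p := (Triangle.isZero₁_iff_isIso₂ _ t1).1 hK0
    have i2 : IsIso m := (Triangle.isZero₃_iff_isIso₁ _ t2).1 hQ0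
    have i3 : IsIso (a ≫ g) := by
      rw [← hpm]
      infer_instance
    have h5 : g ≫ δ = 0 := comp_distTriang_mor_zero₂₃ _ hT
    apply hδ
    rw [← cancel_epi (a ≫ g), Category.assoc, h5, comp_zero, comp_zero]
  obtain ⟨mQ, -, hQc, eQ', -⟩ := stab_pos h hQP
  have e3 : ((mA - mA' : ℝ) : ℂ) = (mQ : ℂ) :=
    mul_right_cancel₀ (ray_ne_zero ψ) (eQ.symm.trans eQ')
  have e4 : mA - mA' = mQ := by exact_mod_cast e3
  have := hQc hQ0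
  have := h.cpos
  rw [nA, nA']
  linarith

end Vale.Agent.P287T.Op
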