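import Vale.Agent.P287T.Op.Abs1

/-!
# Every convergent family has a limit all of whose Harder-Narasimhan factors lift
-/

set_option linter.unusedSectionVars false

open CategoryTheory CategoryTheory.Pretriangulated CategoryTheory.Limits Filter

namespace Vale.Agent.P287T.Op

open Vale.Agent.P294

universe v u v' u'

variable {I : Type} {𝒰 : Ultrafilter I} {C : I → Type u} [∀ n, Category.{v} (C n)]
  [∀ n, Preadditive (C n)] [∀ n, HasZeroObject (C n)] [∀ n, HasShift (C n) ℤ]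
  [∀ n (k : ℤ), (shiftFunctor (C n) k).Additive] [∀ n, Pretriangulated (C n)]
  {D : Type u'} [Category.{v'} D] [Preadditive D] [HasZeroObject D] [HasShift D ℤ]
  [∀ k : ℤ, (shiftFunctor D k).Additive] [Pretriangulated D] [IsTriangulated D]

theorem half_le_sin {x : ℝ} (h1 : 1 / 4 ≤ x) (h2 : x ≤ 3 / 4) :
    1 / 2 ≤ Real.sin (Real.pi * x) := by
  have hp := Real.pi_pos
  have e : Real.sin (Real.pi * x) = Real.cos |Real.pi / 2 - Real.pi * x| := by
    rw [Real.cos_abs, Real.cos_pi_div_two_sub]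
  rw [e, ← Real.cos_pi_div_three]
  refine Real.cos_le_cos_of_nonneg_of_le_pi (abs_nonneg _) (by linarith) ?_
  rw [abs_le]
  constructor <;> nlinarith

theorem ray_inj {m ψ ψ' : ℝ} (hm : 0 < m) (h : (m : ℂ) * ray ψ = m * ray ψ')
    (h1 : ψ' - ψ < 1) (h2 : ψ - ψ' < 1) : ψ = ψ' := by
  have hp := Real.pi_pos
  have e1 := lam_mul_ray ψ ψ m
  have e2 := lam_mul_ray ψ ψ' m
  rw [h, e2] at e1
  simp only [sub_self, mul_zero, Real.sin_zero, mul_eq_zero] at e1
  rcases e1 with e1 | e1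
  · exact absurd e1 hm.ne'
  · have := (Real.sin_eq_zero_iff_of_lt_of_lt (by nlinarith) (by nlinarith)).1 e1
    rcases mul_eq_zero.1 this with h3 | h3
    · exact absurd h3 hp.ne'
    · linarith

namespace LimS

variable (L : LimS 𝒰 C D) {τ : Slic D} {Z : D → ℂ} {r : D → ℕ} {c : ℝ}

theorem lim_zero {X : ∀ n, C n} {E : D} (h : L.Lim X E) (hE : IsZero E) :
    ∀ᶠ n in (𝒰 : Filter I), IsZero (X n) := by
  filter_upwards [L.hom h h fun f => hE.eq_of_src f 0] with n hn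
  rw [IsZero.iff_id_eq_zero]
  exact hn _

variable {L} in
theorem Fil.mono {a b b' : ℝ} {X : ∀ n, C n} (h : L.Fil τ a b X) (hb : b ≤ b') :
    L.Fil τ a b' X := by
  cases h with
  | zero _ _ h => exact Fil.zero _ _ h
  | cons _ ψ T _ Q T' h1 h2 h3 h4 h5 h6 h7 =>
    exact Fil.cons _ ψ T _ Q T' h1 (lt_of_lt_of_le h2 hb) h3 h4 h5 h6 h7

/-- the statement of one stage -/
def Stage (τ : Slic D) (a θ : ℝ) : Prop :=
  ∀ b ≤ θ, ∀ (X : ∀ n, C n) (E : D), L.Lim X E → τ.U a E → τ.V b E → L.Fil τ a b X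

theorem stage_base (τ : Slic D) (a : ℝ) : L.Stage τ a a := fun _ hb X _ hl hU hV =>
  Fil.zero _ X (L.lim_zero hl (τ.isZero_of hb hU hV))

theorem stage_step (h : Stab τ Z r c) (hd : Disc Z) {a θ : ℝ}
    (hS : L.Stage τ a (θ + 1 / 4)) : L.Stage τ a (θ + 3 / 4) := by
  have hc := h.cpos
  have key : ∀ N : ℕ, ∀ b ≤ θ + 3 / 4, ∀ (X : ∀ n, C n) (E : D), L.Lim X E → τ.U a E →
      τ.V b E → hh τ Z θ E < N * (c / 2) → L.Fil τ a b X := by
    intro N
    induction N with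
    | zero =>
      intro b hb X E _ _ hV hN
      have := hh_nonneg h (θ := θ) (τ.monoV (by linarith) _ hV)
      simp only [CharP.cast_eq_zero, zero_mul] at hN
      linarith
    | succ N ih =>
      intro b hb X E hl hU hV hN
      by_cases hex : ∃ E', L.Lim X E' ∧ τ.U a E' ∧ τ.V (θ + 1 / 4) E' ∧ τ.V b E'
      · obtain ⟨E', h1, h2, h3, h4⟩ := hex
        rcases le_total b (θ + 1 / 4) with hb' | hb'
        · exact hS b hb' X E' h1 h2 h4
        · exact (hS _ le_rfl X E' h1 h2 h3).mono hb'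
      let W : ℝ × ℝ → D → D → D → Prop := fun p E' A B =>
        L.Lim X E' ∧ τ.U a E' ∧ τ.V b E' ∧ hh τ Z θ E' ≤ hh τ Z θ E ∧ A2bTr A E' B ∧
          τ.P p.1 A ∧ ¬ IsZero A ∧ τ.V p.1 B ∧ τ.U a B ∧ a ≤ p.1 ∧ p.1 < b ∧
          θ + 1 / 4 ≤ p.1 ∧ ‖Z A‖ = p.2
      let T : Set (ℝ × ℝ) := {p | ∃ E' A B, W p E' A B}
      have gen : ∀ E', L.Lim X E' → τ.U a E' → τ.V b E' → hh τ Z θ E' ≤ hh τ Z θ E →
          ∃ p A B, W p E' A B := by
        intro E' h1 h2 h3 h4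
        have h0 : ¬ IsZero E' := fun h0 => hex ⟨E', h1, h2, (τ.ts _).zeroV h0, h3⟩
        obtain ⟨ψ, A, B, k1, k2, k3, k4, k5, k6, k7⟩ := exists_top h.hn h0 h2 h3
        refine ⟨(ψ, ‖Z A‖), A, B, h1, h2, h3, h4, k3, k4, k5, k6, k7, k1, k2, ?_, rfl⟩
        by_contra hlt
        have hlt' : ψ < θ + 1 / 4 := not_le.1 hlt
        exact hex ⟨E', h1, h2, (τ.ts _).a2bTrV k3 (k4.2 _ hlt') (τ.monoV hlt'.le _ k6), h3⟩
      have est : ∀ p E' A B, W p E' A B → c ≤ p.2 ∧ Z A = p.2 * ray p.1 ∧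
          p.2 / 2 + hh τ Z θ B ≤ hh τ Z θ E' ∧
          hh τ Z θ E' = lam θ (Z A) + hh τ Z θ B ∧ 0 ≤ hh τ Z θ B := by
        rintro p E' A B ⟨-, -, -, -, k3, k4, k5, k6, -, -, k9, k10, k11⟩
        obtain ⟨m, m0, m1, m2, m3⟩ := stab_pos h k4
        have hm : m = p.2 := m3.symm.trans k11
        subst hm
        have e := hh_add (σ := τ) h.add (θ := θ) k3 (τ.anti (by linarith) _ k4.1)
        have s1 := half_le_sin (x := p.1 - θ) (by linarith) (by linarith)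
        refine ⟨m1 k5, m2, ?_, e, hh_nonneg h (τ.monoV (by linarith) _ k6)⟩
        rw [e, m2, lam_mul_ray]
        nlinarith
      have hfin : T.Finite := by
        refine Set.Finite.of_finite_image (f := fun p : ℝ × ℝ => (p.2 : ℂ) * ray p.1)
          ((hd (2 * hh τ Z θ E)).subset ?_) ?_
        · rintro _ ⟨p, ⟨E', A, B, hW⟩, rfl⟩
          obtain ⟨e1, e2, e3, -, e5⟩ := est p E' A B hW
          obtain ⟨-, -, -, k4, -, -, -, -, -, -, -, -, k11⟩ := hW
          refine ⟨⟨A, e2⟩, ?_⟩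
          change ‖(p.2 : ℂ) * ray p.1‖ ≤ _
          rw [← e2, k11]
          linarith
        · rintro p ⟨E', A, B, hW⟩ q ⟨E'', A', B', hW'⟩ hpq
          obtain ⟨e1, e2, -, -, -⟩ := est p E' A B hW
          obtain ⟨e1', e2', -, -, -⟩ := est q E'' A' B' hW'
          obtain ⟨-, -, -, -, -, -, -, -, -, -, k9, k10, k11⟩ := hW
          obtain ⟨-, -, -, -, -, -, -, -, -, -, k9', k10', k11'⟩ := hW'
          change (p.2 : ℂ) * ray p.1 = (q.2 : ℂ) * ray q.1 at hpq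
          have h2 : p.2 = q.2 := by rw [← k11, ← k11', e2, e2', hpq]
          rw [← h2] at hpq
          exact Prod.ext (ray_inj (by linarith) hpq (by linarith) (by linarith)) h2
      have hne : T.Nonempty := by
        obtain ⟨p, A, B, hW⟩ := gen E hl hU hV le_rfl
        exact ⟨p, E, A, B, hW⟩
      obtain ⟨p0, hp0, hmin0⟩ := Set.exists_min_image T Prod.fst hfin hne
      obtain ⟨p, ⟨hp, hpp⟩, hmin⟩ := Set.exists_min_image {q ∈ T | q.1 = p0.1} Prod.snd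
        (hfin.subset fun q hq => hq.1) ⟨p0, hp0, rfl⟩
      obtain ⟨E', A, B, hW⟩ := hp
      obtain ⟨e1, e2, e3, e4, e5⟩ := est p E' A B hW
      obtain ⟨k0, k1, k2, k2', k3, k4, k5, k6, k7, k8, k9, k10, k11⟩ := hW
      rcases L.move k0 k3 with ⟨A', B', t, lA, lB⟩ | ⟨E'', f, g, δ, hT, hδ, l⟩
      · refine Fil.cons b p.1 A' X B' A k8 k9 t lA k4 k5 ?_
        refine ih p.1 (by linarith) B' B lB k7 k6 ?_
        push_cast at hN
        linarith
      · exfalso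
        have tr : A2bTr B E'' A := ⟨f, g, δ, hT⟩
        have hAV : τ.V b A := k4.2 _ k9
        have hBV : τ.V b B := τ.monoV k9.le _ k6
        have u1 : τ.U a E'' := (τ.ts a).a2bTrU tr k7 (τ.anti k8 _ k4.1)
        have u2 : τ.V b E'' := (τ.ts b).a2bTrV tr hBV hAV
        have u3 : hh τ Z θ E'' ≤ hh τ Z θ E := by
          have := hh_sub h (θ := θ) tr (τ.anti (by linarith) _ k4.1)
            (τ.monoV (by linarith) _ hAV) (τ.monoV (by linarith) _ hBV)
          linarith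
        obtain ⟨q, A2, B2, hW2⟩ := gen E'' l u1 u2 u3
        have hq : q ∈ T := ⟨E'', A2, B2, hW2⟩
        obtain ⟨-, -, -, -, j3, j4, j5, j6, -, -, -, -, j11⟩ := hW2
        have hle : q.1 ≤ p.1 := by
          by_contra hlt
          have hlt' : p.1 < q.1 := not_le.1 hlt
          have v1 : τ.V q.1 E'' := (τ.ts _).a2bTrV tr (τ.monoV hlt'.le _ k6) (k4.2 _ hlt')
          exact j5 (τ.isZero_of le_rfl j4.1 (sub_V τ j3 v1 j6 (by linarith)))
        have heq : q.1 = p0.1 := le_antisymm (hpp ▸ hle) (hmin0 q hq)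
        have h1 := hmin q ⟨hq, heq⟩
        have heq' : q.1 = p.1 := heq.trans hpp.symm
        rw [heq'] at j4 j6
        have h2 := move_lt h hT hδ k4 k6 j3 j4 j6
        rw [k11, j11] at h2
        linarith
  intro b hb X E hl hU hV
  obtain ⟨N, hN⟩ := exists_nat_gt (hh τ Z θ E / (c / 2))
  refine key N b hb X E hl hU hV ?_
  rwa [div_lt_iff₀ (by linarith)] at hN

/-- lifting of Harder-Narasimhan filtrations -/
theorem hnl (h : Stab τ Z r c) (hd : Disc Z) {a b : ℝ} {X : ∀ n, C n} {E : D}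
    (hl : L.Lim X E) (hU : τ.U a E) (hV : τ.V b E) : L.Fil τ a b X := by
  have key : ∀ k : ℕ, L.Stage τ a (a + k / 2) := by
    intro k
    induction k with
    | zero => simpa using L.stage_base τ a
    | succ k ih =>
      have h1 := L.stage_step h hd (a := a) (θ := a + k / 2 - 1 / 4)
        (by rwa [show a + (k : ℝ) / 2 - 1 / 4 + 1 / 4 = a + k / 2 by ring])
      rwa [show a + (k : ℝ) / 2 - 1 / 4 + 3 / 4 = a + ((k + 1 : ℕ) : ℝ) / 2 by
        push_cast; ring] at h1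
  obtain ⟨k, hk⟩ := exists_nat_gt (2 * (b - a))
  exact key k b (by linarith) X E hl hU hV

theorem hl_fil (h : Stab τ Z r c) (hd : Disc Z) {X : ∀ n, C n} (hl : L.HL X) :
    ∃ a b, L.Fil τ a b X := by
  obtain ⟨E, hE⟩ := hl
  obtain ⟨a, b, ha, hb⟩ := τ.bdd E
  exact ⟨a, b, L.hnl h hd hE ha hb⟩

variable {L} in
/-- a filtered family has a limit in the window -/
theorem Fil.lim {a b : ℝ} {X : ∀ n, C n} (h : L.Fil τ a b X) :
    ∃ E, L.Lim X E ∧ τ.U a E ∧ τ.V b E := by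
  induction h with
  | zero b X h =>
    obtain ⟨O, hO⟩ := HasZeroObject.zero (C := D)
    exact ⟨O, L.zero h hO, (τ.ts _).zeroU hO, (τ.ts _).zeroV hO⟩
  | cons b ψ T X Q T' h1 h2 h3 h4 h5 _ _ ih =>
    obtain ⟨Q', l, u, v⟩ := ih
    obtain ⟨E, t, lE⟩ := L.ext h3 h4 l
    exact ⟨E, lE, (τ.ts _).a2bTrU t (τ.anti h1 _ h5.1) u,
      (τ.ts _).a2bTrV t (h5.2 _ h2) (τ.monoV h2.le _ v)⟩

variable [∀ n, IsTriangulated (C n)]

variable {L} in
/-- every truncation lifts -/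
theorem Fil.cut {a b : ℝ} {X : ∀ n, C n} (h : L.Fil τ a b X) (s : ℝ) :
    ∃ (A B : ∀ n, C n) (A' B' : D), (∀ᶠ n in (𝒰 : Filter I), A2bTr (A n) (X n) (B n)) ∧
      L.Lim A A' ∧ L.Lim B B' ∧ τ.U s A' ∧ τ.V s B' := by
  obtain ⟨O, hO⟩ := HasZeroObject.zero (C := D)
  have triv : ∀ {b : ℝ} {X : ∀ n, C n}, L.Fil τ a b X → b ≤ s →
      ∃ (A B : ∀ n, C n) (A' B' : D), (∀ᶠ n in (𝒰 : Filter I), A2bTr (A n) (X n) (B n)) ∧
      L.Lim A A' ∧ L.Lim B B' ∧ τ.U s A' ∧ τ.V s B' := by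
    intro b X h hb
    obtain ⟨E, l, -, v⟩ := h.lim
    choose O' h1 h2 using fun n => A2bTr.zero_id (X n)
    exact ⟨O', X, O, E, Eventually.of_forall h2, L.zero (Eventually.of_forall h1) hO, l,
      (τ.ts _).zeroU hO, τ.monoV hb _ v⟩
  induction h with
  | zero b X h => exact triv (Fil.zero s X h) le_rfl
  | cons b ψ T X Q T' h1 h2 h3 h4 h5 h6 h7 ih =>
    by_cases hs : ψ < s
    · exact triv (Fil.cons s ψ T X Q T' h1 hs h3 h4 h5 h6 h7) le_rfl
    obtain ⟨A, B, A', B', t, lA, lB, u, v⟩ := ih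
    have hG : ∀ n, ∃ G, A2bTr (T n) (X n) (Q n) → A2bTr (A n) (Q n) (B n) →
        A2bTr G (X n) (B n) ∧ A2bTr (T n) G (A n) := by
      intro n
      by_cases h' : A2bTr (T n) (X n) (Q n) ∧ A2bTr (A n) (Q n) (B n)
      · obtain ⟨G, g1, g2⟩ := h'.1.oct2 h'.2
        exact ⟨G, fun _ _ => ⟨g1, g2⟩⟩
      · exact ⟨X n, fun a b => absurd ⟨a, b⟩ h'⟩
    choose G hG using hG
    obtain ⟨G', t', lG⟩ := L.ext (X := G) (by
      filter_upwards [h3, t] with n a b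
      exact (hG n a b).2) h4 lA
    refine ⟨G, B, G', B', ?_, lG, lB, (τ.ts _).a2bTrU t' (τ.anti (not_lt.1 hs) _ h5.1) u, v⟩
    filter_upwards [h3, t] with n a b
    exact (hG n a b).1

theorem hl_cut (h : Stab τ Z r c) (hd : Disc Z) {X : ∀ n, C n} (hl : L.HL X) (s : ℝ) :
    ∃ (A B : ∀ n, C n) (A' B' : D), (∀ᶠ n in (𝒰 : Filter I), A2bTr (A n) (X n) (B n)) ∧
      L.Lim A A' ∧ L.Lim B B' ∧ τ.U s A' ∧ τ.V s B' := by
  obtain ⟨a, b, hf⟩ := L.hl_fil h hd hl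
  exact hf.cut s

end LimS

end Vale.Agent.P287T.Op
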