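import Vale.Agent.P287T.Op.Abs2

/-!
# Weak openness gives openness and semistable reduction
-/

set_option linter.unusedSectionVars false

open CategoryTheory CategoryTheory.Pretriangulated CategoryTheory.Limits Filter

namespace Vale.Agent.P287T.Op

open Vale.Agent.P294

universe v u v' u'

variable {I : Type} {𝒰 : Ultrafilter I} {C : I → Type u} [∀ n, Category.{v} (C n)]
  [∀ n, Preadditive (C n)] [∀ n, HasZeroObject (C n)] [∀ n, HasShift (C n) ℤ]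
  [∀ n (k : ℤ), (shiftFunctor (C n) k).Additive] [∀ n, Pretriangulated (C n)]
  [∀ n, IsTriangulated (C n)]
  {D : Type u'} [Category.{v'} D] [Preadditive D] [HasZeroObject D] [HasShift D ℤ]
  [∀ k : ℤ, (shiftFunctor D k).Additive] [Pretriangulated D] [IsTriangulated D]

/-- if the second map vanishes and there are no maps from the shifted first term, the third term
is zero -/
theorem isZero₃_of {A X B : D} (t : A2bTr A X B) (h1 : ∀ f : X ⟶ B, f = 0)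
    (h2 : ∀ f : A⟦(1 : ℤ)⟧ ⟶ B, f = 0) : IsZero B := by
  obtain ⟨f, g, δ, hT⟩ := t
  obtain ⟨l, hl⟩ := a2b_yon3 hT (𝟙 B) (by rw [h1 g, zero_comp])
  rw [IsZero.iff_id_eq_zero, hl, h2 l, comp_zero]

theorem iso_of_isZero₃ {A X B : D} (t : A2bTr A X B) (h : IsZero B) : Nonempty (A ≅ X) := by
  obtain ⟨f, g, δ, hT⟩ := t
  have : IsIso f := (Triangle.isZero₃_iff_isIso₁ _ hT).1 h
  exact ⟨asIso f⟩

theorem iso_of_isZero₁ {A X B : D} (t : A2bTr A X B) (h : IsZero A) : Nonempty (X ≅ B) := by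
  obtain ⟨f, g, δ, hT⟩ := t
  have : IsIso g := (Triangle.isZero₁_iff_isIso₂ _ hT).1 h
  exact ⟨asIso g⟩

namespace LimS

variable {L : LimS 𝒰 C D} {τ : Slic D} {Z : D → ℂ} {r : D → ℕ} {c : ℝ}
  {σ : ∀ n, Slic (C n)} {Zn : ∀ n, C n → ℂ} {rn : ∀ n, C n → ℕ} {cn w : ℝ}

theorem WOpen.mono {w' : ℝ} (hw : L.WOpen σ τ w) (h : w ≤ w') : L.WOpen σ τ w' where
  U hl hE := by
    filter_upwards [hw.U hl hE] with n hn
    exact (σ n).anti (by linarith) _ hn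
  V hl hE := by
    filter_upwards [hw.V hl hE] with n hn
    exact (σ n).monoV (by linarith) _ hn

theorem top_false (h : Stab τ Z r c) (hσ : ∀ᶠ n in (𝒰 : Filter I), Stab (σ n) (Zn n) (rn n) cn)
    (hZ : L.ZC Zn Z) (hw : L.WOpen σ τ w) (hw1 : w < 1) {a ψ : ℝ} {T X Q : ∀ n, C n} {T' : D}
    (h3 : ∀ᶠ n in (𝒰 : Filter I), A2bTr (T n) (X n) (Q n)) (h4 : L.Lim T T') (h5 : τ.P ψ T')
    (h6 : ¬ IsZero T') (h7 : L.Fil τ a ψ Q)
    (hX : ∀ᶠ n in (𝒰 : Filter I), (σ n).V ψ (X n)) : False := by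
  obtain ⟨Q', lQ, -, vQ⟩ := h7.lim
  obtain ⟨m, -, hm, e, -⟩ := stab_pos h h5
  have hm' := hm h6
  have hc := h.cpos
  obtain ⟨n, k1, k2, k3, k4, k5, k6⟩ := (hσ.and (h3.and (hX.and ((hw.U h4 h5.1).and
    ((hw.V lQ vQ).and (hZ h4)))))).exists
  have v1 : (σ n).V ψ (T n) := sub_V _ k2 k3 k5 (by linarith)
  have e0 : lam ψ (Zn n (T n)) = 0 := by
    rw [k6, e, lam_mul_ray]
    simp
  by_cases h0 : IsZero (T n)
  · have e1 := k1.add.zeroC h0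
    rw [k6, e] at e1
    rcases mul_eq_zero.1 e1 with e2 | e2
    · have : m = 0 := by exact_mod_cast e2
      linarith
    · exact ray_ne_zero _ e2
  · have := k1.lam_neg' (s := ψ) (by linarith) le_rfl k4 v1 h0
    linarith

theorem Fil.lower (h : Stab τ Z r c)
    (hσ : ∀ᶠ n in (𝒰 : Filter I), Stab (σ n) (Zn n) (rn n) cn)
    (hZ : L.ZC Zn Z) (hw : L.WOpen σ τ w) (hw1 : w < 1) {a b θ : ℝ} {X : ∀ n, C n}
    (hf : L.Fil τ a b X) (hX : ∀ᶠ n in (𝒰 : Filter I), (σ n).V θ (X n)) : L.Fil τ a θ X := by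
  cases hf with
  | zero _ _ h0 => exact Fil.zero _ _ h0
  | cons _ ψ T _ Q T' h1 h2 h3 h4 h5 h6 h7 =>
    by_cases hψ : ψ < θ
    · exact Fil.cons _ ψ T _ Q T' h1 hψ h3 h4 h5 h6 h7
    · refine (top_false h hσ hZ hw hw1 h3 h4 h5 h6 h7 ?_).elim
      filter_upwards [hX] with n hn
      exact (σ n).monoV (not_lt.1 hψ) _ hn

/-- openness of semistability -/
theorem open_P (h : Stab τ Z r c) (hd : Disc Z)
    (hσ : ∀ᶠ n in (𝒰 : Filter I), Stab (σ n) (Zn n) (rn n) cn)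
    (hZ : L.ZC Zn Z) (hw : L.WOpen σ τ w) (hw0 : 0 ≤ w) (hw1 : 2 * w < 1) (hc : L.Cpt σ rn)
    {ψ : ℝ} {X : ∀ n, C n} {E : D} (hl : L.Lim X E) (hE : τ.P ψ E) :
    ∀ᶠ n in (𝒰 : Filter I), (σ n).P ψ (X n) := by
  set η : ℝ := w + (1 / 2 - w) / 2 with hη
  have hη0 : 0 ≤ η := by linarith
  have hη1 : η < 1 / 2 := by linarith
  have hcn : 0 < cn := hσ.exists.choose_spec.cpos
  have hcos : 0 < Real.cos (Real.pi * η) := by
    have hp := Real.pi_pos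
    exact Real.cos_pos_of_mem_Ioo ⟨by nlinarith, by nlinarith⟩
  choose A B t hA hB using fun n => trunc (σ n) ψ (X n)
  have xU := hw.U hl hE.1
  have xV := hw.V hl (hE.2 (ψ + (1 / 2 - w) / 2) (by linarith))
  obtain ⟨R, hR⟩ := exists_nat_ge (mu ψ (Z E) / (cn * Real.cos (Real.pi * η)))
  rw [div_le_iff₀ (mul_pos hcn hcos)] at hR
  have hB' : L.HL B := by
    refine hc B R (ψ - w) ψ ?_
    filter_upwards [hσ, xU, xV, hZ hl] with n k1 k2 k3 k4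
    have b1 : (σ n).U (ψ - w) (B n) := quot_U _ (t n) k2 (hA n) (by linarith)
    have a1 : (σ n).V (ψ + η) (A n) :=
      sub_V _ (t n) ((σ n).monoV (by linarith) _ k3) (hB n) (by linarith)
    have m1 := k1.mu_ge_half (θ := ψ) hη0 hη1 (by linarith) le_rfl (hA n) a1
    have m2 := k1.mu_ge_half (θ := ψ) hη0 hη1 (by linarith) (by linarith) b1 (hB n)
    have e := addC k1.add (t n)
    rw [k4] at e
    rw [e, mu_add] at hR
    have p1 : (0 : ℝ) ≤ cn * Real.cos (Real.pi * η) * rn n (A n) :=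
      mul_nonneg (mul_pos hcn hcos).le (Nat.cast_nonneg _)
    refine ⟨?_, b1, hB n⟩
    have p2 : (rn n (B n) : ℝ) ≤ R := by
      by_contra hlt
      have := mul_lt_mul_of_pos_left (not_le.1 hlt) (mul_pos hcn hcos)
      linarith
    exact_mod_cast p2
  obtain ⟨a, b, hf⟩ := L.hl_fil h hd hB'
  obtain ⟨B', lB, -, vB⟩ :=
    (hf.lower h hσ hZ hw (by linarith) (Eventually.of_forall hB)).lim
  obtain ⟨m, -, -, e, -⟩ := stab_pos h hE
  filter_upwards [hσ, xV, hZ hl, L.hom hl lB fun f => (τ.ts ψ).hom hE.1 vB f] with n k1 k3 k4 k5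
  have b0 : IsZero (B n) := isZero₃_of (t n) k5 fun f =>
    ((σ n).ts ψ).hom (((σ n).ts ψ).shU (hA n)) (hB n) f
  have x1 : (σ n).U ψ (X n) := ((σ n).ts ψ).a2bTrU (t n) (hA n) (((σ n).ts ψ).zeroU b0)
  refine P_of_lam k1 x1 ((σ n).monoV (by linarith) _ k3) (le_of_eq ?_)
  rw [k4, e, lam_mul_ray]
  simp

theorem Fil.mem
    (hP : ∀ {ψ : ℝ} {X : ∀ n, C n} {E : D}, L.Lim X E → τ.P ψ E →
      ∀ᶠ n in (𝒰 : Filter I), (σ n).P ψ (X n)) {a b : ℝ} {X : ∀ n, C n}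
    (hf : L.Fil τ a b X) :
    ∀ᶠ n in (𝒰 : Filter I), (σ n).U a (X n) ∧ (σ n).V b (X n) := by
  induction hf with
  | zero b X h0 =>
    filter_upwards [h0] with n hn
    exact ⟨((σ n).ts _).zeroU hn, ((σ n).ts _).zeroV hn⟩
  | cons b ψ T X Q T' h1 h2 h3 h4 h5 _ _ ih =>
    filter_upwards [h3, hP h4 h5, ih] with n k1 k2 k3
    exact ⟨((σ n).ts _).a2bTrU k1 ((σ n).anti h1 _ k2.1) k3.1,
      ((σ n).ts _).a2bTrV k1 (k2.2 _ h2) ((σ n).monoV h2.le _ k3.2)⟩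

/-- weak openness of width `< 1/2` and compactness give openness -/
theorem open_of_wopen (h : Stab τ Z r c) (hd : Disc Z)
    (hσ : ∀ᶠ n in (𝒰 : Filter I), Stab (σ n) (Zn n) (rn n) cn)
    (hZ : L.ZC Zn Z) (hw : L.WOpen σ τ w) (hw0 : 0 ≤ w) (hw1 : 2 * w < 1) (hc : L.Cpt σ rn) :
    L.WOpen σ τ 0 where
  U {X E s} hl hE := by
    obtain ⟨-, b, -, hb⟩ := τ.bdd E
    filter_upwards [(L.hnl h hd hl hE hb).mem
      (fun hl' hE' => open_P h hd hσ hZ hw hw0 hw1 hc hl' hE')] with n hn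
    rw [sub_zero]
    exact hn.1
  V {X E s} hl hE := by
    obtain ⟨a, -, ha, -⟩ := τ.bdd E
    filter_upwards [(L.hnl h hd hl ha hE).mem
      (fun hl' hE' => open_P h hd hσ hZ hw hw0 hw1 hc hl' hE')] with n hn
    rw [add_zero]
    exact hn.2

/-- openness of semistability from openness of the aisles -/
theorem WOpen.P (h : Stab τ Z r c) (hσ : ∀ᶠ n in (𝒰 : Filter I), Stab (σ n) (Zn n) (rn n) cn)
    (hZ : L.ZC Zn Z) (hw : L.WOpen σ τ 0) {ψ : ℝ} {X : ∀ n, C n} {E : D} (hl : L.Lim X E)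
    (hE : τ.P ψ E) : ∀ᶠ n in (𝒰 : Filter I), (σ n).P ψ (X n) := by
  obtain ⟨m, -, -, e, -⟩ := stab_pos h hE
  filter_upwards [hσ, hw.U hl hE.1, hw.V hl (P_V τ hE), hZ hl] with n k1 k2 k3 k4
  rw [sub_zero] at k2
  rw [add_zero] at k3
  refine P_of_lam k1 k2 k3 (le_of_eq ?_)
  rw [k4, e, lam_mul_ray]
  simp

theorem lim_U (h : Stab τ Z r c) (hd : Disc Z) (hw : L.WOpen σ τ 0) {a : ℝ} {X : ∀ n, C n}
    (hl : L.HL X) (hX : ∀ᶠ n in (𝒰 : Filter I), (σ n).U a (X n)) :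
    ∃ E, L.Lim X E ∧ τ.U a E := by
  obtain ⟨A, B, A', B', t, lA, lB, uA, vB⟩ := L.hl_cut h hd hl a
  refine ⟨A', L.isoL ?_ lA, uA⟩
  filter_upwards [t, hX, hw.U lA uA, hw.V lB vB] with n k1 k2 k3 k4
  rw [sub_zero] at k3
  rw [add_zero] at k4
  exact iso_of_isZero₃ k1 ((σ n).isZero_of le_rfl (quot_U _ k1 k2 k3 (by linarith)) k4)

/-- reduction into a window -/
theorem sred_window (h : Stab τ Z r c) (hd : Disc Z)
    (hσ : ∀ᶠ n in (𝒰 : Filter I), Stab (σ n) (Zn n) (rn n) cn)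
    (hZ : L.ZC Zn Z) (hw : L.WOpen σ τ 0) {a b : ℝ} {X : ∀ n, C n} (hl : L.HL X)
    (hX : ∀ᶠ n in (𝒰 : Filter I), (σ n).U a (X n) ∧ (σ n).V b (X n)) :
    ∃ E, L.Lim X E ∧ τ.U a E ∧ τ.V b E := by
  obtain ⟨E, l, u⟩ := lim_U h hd hw hl (hX.mono fun n hn => hn.1)
  obtain ⟨-, b', -, hb⟩ := τ.bdd E
  exact ((L.hnl h hd l u hb).lower h hσ hZ hw (by norm_num) (hX.mono fun n hn => hn.2)).lim

/-- semistable reduction -/
theorem sred (h : Stab τ Z r c) (hd : Disc Z)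
    (hσ : ∀ᶠ n in (𝒰 : Filter I), Stab (σ n) (Zn n) (rn n) cn)
    (hZ : L.ZC Zn Z) (hw : L.WOpen σ τ 0) {φ : ℝ} {X : ∀ n, C n} (hl : L.HL X)
    (hX : ∀ᶠ n in (𝒰 : Filter I), (σ n).P φ (X n)) : ∃ E, L.Lim X E ∧ τ.P φ E := by
  obtain ⟨E, l, u, v⟩ := sred_window h hd hσ hZ hw (a := φ) (b := φ + 1) hl
    (hX.mono fun n hn => ⟨hn.1, P_V _ hn⟩)
  refine ⟨E, l, P_of_lam h u v (le_of_eq ?_)⟩
  obtain ⟨n, k1, k2, k3⟩ := (hσ.and (hX.and (hZ l))).exists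
  obtain ⟨m, -, -, e, -⟩ := stab_pos k1 k2
  rw [← k3, e, lam_mul_ray]
  simp

end LimS

end Vale.Agent.P287T.Op
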