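import Vale.Agent.P287T.Op.Abs3

/-!
# Families with a limit form a thick class
-/

set_option linter.unusedSectionVars false

open CategoryTheory CategoryTheory.Pretriangulated CategoryTheory.Limits Filter

namespace Vale.Agent.P287T.Op

open Vale.Agent.P294

universe v u v' u'

section single

variable {D : Type u'} [Category.{v'} D] [Preadditive D] [HasZeroObject D] [HasShift D ℤ]
  [∀ k : ℤ, (shiftFunctor D k).Additive] [Pretriangulated D] [IsTriangulated D]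

theorem tr_invRot {A X B : D} (t : A2bTr A X B) : A2bTr (B⟦(-1 : ℤ)⟧) A X := by
  obtain ⟨f, g, δ, hT⟩ := t
  exact ⟨_, _, _, inv_rot_of_distTriang _ hT⟩

theorem tr_biprod (A B : D) : A2bTr A (A ⊞ B) B :=
  ⟨_, _, _, binaryBiproductTriangle_distinguished A B⟩

theorem retract_biprod {X Y : D} (i : X ⟶ Y) (p : Y ⟶ X) (h : i ≫ p = 𝟙 X) :
    ∃ X' : D, Nonempty (Y ≅ X ⊞ X') := by
  obtain ⟨X', q, w, hT⟩ := distinguished_cocone_triangle i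
  have hm : Mono i := (SplitMono.mk p h).mono
  obtain ⟨e, -⟩ := exists_iso_binaryBiproduct_of_distTriang _ hT
    (Triangle.mor₃_eq_zero_of_mono₁ _ hT hm)
  exact ⟨X', ⟨e⟩⟩

theorem q_one (X X' : D) : ∃ W : D, A2bTr (X' ⊞ X) W ((X ⊞ X')⟦(1 : ℤ)⟧) ∧
    Nonempty (W ≅ X⟦(1 : ℤ)⟧ ⊞ X) := by
  have h12 := rot_of_distTriang _ (binaryBiproductTriangle_distinguished X X')
  have h23 := binaryBiproductTriangle_distinguished X' X
  obtain ⟨W, v, w, h13⟩ := distinguished_cocone_triangle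
    ((biprod.snd : X ⊞ X' ⟶ X') ≫ (biprod.inl : X' ⟶ X' ⊞ X))
  have o := Triangulated.someOctahedron (u₁₂ := (biprod.snd : X ⊞ X' ⟶ X'))
    (u₂₃ := (biprod.inl : X' ⟶ X' ⊞ X)) rfl h12 h23 h13
  obtain ⟨e, -⟩ := exists_iso_binaryBiproduct_of_distTriang _ o.mem zero_comp
  exact ⟨W, tr_rot ⟨_, _, _, h13⟩, ⟨e⟩⟩

/-- shifting a direct sum -/
noncomputable def shBiprod (A B : D) (k : ℤ) : (A ⊞ B)⟦k⟧ ≅ A⟦k⟧ ⊞ B⟦k⟧ :=
  haveI : PreservesBinaryBiproduct A B (shiftFunctor D k) :=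
    preservesBinaryBiproduct_of_preservesBiproduct _ _ _
  (shiftFunctor D k).mapBiprod A B

/-- rearranging four summands -/
noncomputable def swap4 (A B C' D' : D) : (A ⊞ B) ⊞ (C' ⊞ D') ≅ (B ⊞ C') ⊞ (A ⊞ D') :=
  biprod.mapIso (biprod.braiding A B) (Iso.refl _) ≪≫ biprod.associator B A (C' ⊞ D') ≪≫
    biprod.mapIso (Iso.refl B) ((biprod.associator A C' D').symm ≪≫
      biprod.mapIso (biprod.braiding A C') (Iso.refl _) ≪≫ biprod.associator C' A D') ≪≫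
    (biprod.associator B C' (A ⊞ D')).symm

theorem far_iso (σ : Slic D) {A Q B Y X : D} (t1 : A2bTr A Q B) (t2 : A2bTr Y Q X) {b b' : ℝ}
    (hb : b ≤ b') (hA : σ.U b A) (hY : σ.U b' Y) (hX : σ.V b X) (hB : σ.V b' B)
    (hv : ∀ f : A⟦(1 : ℤ)⟧ ⟶ B, f = 0) : Nonempty (B ≅ X) := by
  obtain ⟨f, g, δ, h1⟩ := t1
  obtain ⟨i, p, δ', h2⟩ := t2
  obtain ⟨l, hl⟩ := a2b_coyon2 h2 f ((σ.ts b).hom hA hX _)
  obtain ⟨T, v, w, h3⟩ := distinguished_cocone_triangle l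
  have o := Triangulated.someOctahedron hl.symm h3 h2 h1
  have hTU : σ.U b T := quot_U σ ⟨_, _, _, h3⟩ (σ.anti hb _ hY) hA (by linarith)
  have hTV : σ.V b' T := sub_V σ ⟨_, _, _, o.mem⟩ hB hX (by linarith)
  have hv0 : v = 0 := (σ.ts b').hom hY hTV v
  have hv1 : ∀ m : T ⟶ B, m = 0 := by
    intro m
    obtain ⟨k, hk⟩ := a2b_yon3 h3 m (by rw [hv0, zero_comp])
    rw [hk, hv k, comp_zero]
  have hm : o.m₁ = 0 := hv1 _
  refine iso_of_isZero₁ ⟨_, _, _, o.mem⟩ (isZero_of_mor o.mem hm fun l => ?_)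
  exact (σ.ts b).hom hTU ((σ.ts b).shV hX) l

end single

variable {I : Type} {𝒰 : Ultrafilter I} {C : I → Type u} [∀ n, Category.{v} (C n)]
  [∀ n, Preadditive (C n)] [∀ n, HasZeroObject (C n)] [∀ n, HasShift (C n) ℤ]
  [∀ n (k : ℤ), (shiftFunctor (C n) k).Additive] [∀ n, Pretriangulated (C n)]
  [∀ n, IsTriangulated (C n)]
  {D : Type u'} [Category.{v'} D] [Preadditive D] [HasZeroObject D] [HasShift D ℤ]
  [∀ k : ℤ, (shiftFunctor D k).Additive] [Pretriangulated D] [IsTriangulated D]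

namespace LimS

variable {L : LimS 𝒰 C D} {τ : Slic D} {Z : D → ℂ} {r : D → ℕ} {c : ℝ}
  {σ : ∀ n, Slic (C n)} {w : ℝ}

theorem HL.iso {X Y : ∀ n, C n} (h : L.HL X)
    (e : ∀ᶠ n in (𝒰 : Filter I), Nonempty (X n ≅ Y n)) : L.HL Y :=
  h.imp fun _ hE => L.isoL e hE

theorem HL.shift {X : ∀ n, C n} (h : L.HL X) (k : ℤ) : L.HL fun n => (X n)⟦k⟧ := by
  obtain ⟨E, hE⟩ := h
  exact ⟨_, L.shift k hE⟩

theorem HL.ext {A X B : ∀ n, C n} (t : ∀ᶠ n in (𝒰 : Filter I), A2bTr (A n) (X n) (B n))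
    (hA : L.HL A) (hB : L.HL B) : L.HL X := by
  obtain ⟨A', hA⟩ := hA
  obtain ⟨B', hB⟩ := hB
  obtain ⟨E, -, hE⟩ := L.ext t hA hB
  exact ⟨E, hE⟩

theorem HL.ext₃ {A X B : ∀ n, C n} (t : ∀ᶠ n in (𝒰 : Filter I), A2bTr (A n) (X n) (B n))
    (hA : L.HL A) (hX : L.HL X) : L.HL B :=
  HL.ext (t.mono fun _ hn => tr_rot hn) hX (hA.shift 1)

theorem HL.ext₁ {A X B : ∀ n, C n} (t : ∀ᶠ n in (𝒰 : Filter I), A2bTr (A n) (X n) (B n))
    (hX : L.HL X) (hB : L.HL B) : L.HL A :=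
  HL.ext (t.mono fun _ hn => tr_invRot hn) (hB.shift (-1)) hX

theorem HL.zero {X : ∀ n, C n} (h : ∀ᶠ n in (𝒰 : Filter I), IsZero (X n)) : L.HL X := by
  obtain ⟨O, hO⟩ := HasZeroObject.zero (C := D)
  exact ⟨O, L.zero h hO⟩

theorem HL.four {A B A' B' : ∀ n, C n} (h1 : L.HL fun n => A n ⊞ B n)
    (h2 : L.HL fun n => A' n ⊞ B' n) (h3 : L.HL fun n => B n ⊞ A' n) :
    L.HL fun n => A n ⊞ B' n :=
  HL.ext₃ (Eventually.of_forall fun n => tr_biprod (B n ⊞ A' n) (A n ⊞ B' n)) h3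
    ((HL.ext (Eventually.of_forall fun n => tr_biprod (A n ⊞ B n) (A' n ⊞ B' n)) h1 h2).iso
      (Eventually.of_forall fun _ => ⟨swap4 _ _ _ _⟩))

theorem HL.odd {X : ∀ n, C n} (h : L.HL fun n => (X n)⟦(1 : ℤ)⟧ ⊞ X n) (k : ℕ) :
    L.HL fun n => (X n)⟦(2 * k + 1 : ℤ)⟧ ⊞ X n := by
  have base : ∀ j j' : ℤ, 1 + j = j' → L.HL fun n => (X n)⟦j'⟧ ⊞ (X n)⟦j⟧ := fun j j' e =>
    (h.shift j).iso (Eventually.of_forall fun n => ⟨shBiprod _ _ j ≪≫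
      biprod.mapIso ((shiftFunctorAdd' (C n) 1 j j' e).app (X n)).symm (Iso.refl _)⟩)
  induction k with
  | zero => simpa using h
  | succ k ih =>
    exact HL.four (base (2 * k + 2) _ (by push_cast; ring)) ih (base (2 * k + 1) _ (by ring))

/-- retracts (in a fixed window) of families with a limit have a limit -/
theorem HL.ret (h : Stab τ Z r c) (hd : Disc Z) (hw : L.WOpen σ τ w) (hw0 : 0 ≤ w)
    {X Y : ∀ n, C n} (hY : L.HL Y)
    (hr : ∀ᶠ n in (𝒰 : Filter I), ∃ (i : X n ⟶ Y n) (p : Y n ⟶ X n), i ≫ p = 𝟙 (X n))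
    {a b : ℝ} (hX : ∀ᶠ n in (𝒰 : Filter I), (σ n).U a (X n) ∧ (σ n).V b (X n)) : L.HL X := by
  have h1 : ∀ n, ∃ X' : C n, (∃ (i : X n ⟶ Y n) (p : Y n ⟶ X n), i ≫ p = 𝟙 (X n)) →
      Nonempty (Y n ≅ X n ⊞ X') := by
    intro n
    by_cases h' : ∃ (i : X n ⟶ Y n) (p : Y n ⟶ X n), i ≫ p = 𝟙 (X n)
    · obtain ⟨i, p, e⟩ := h'
      obtain ⟨X', hX'⟩ := retract_biprod i p e
      exact ⟨X', fun _ => hX'⟩
    · exact ⟨X n, fun k => absurd k h'⟩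
  choose X' hX' using h1
  have h2 : L.HL fun n => X n ⊞ X' n := hY.iso (hr.mono fun n hn => hX' n hn)
  have h3 : L.HL fun n => X' n ⊞ X n :=
    h2.iso (Eventually.of_forall fun n => ⟨biprod.braiding _ _⟩)
  choose W tW eW using fun n => q_one (X n) (X' n)
  have h4 : L.HL fun n => (X n)⟦(1 : ℤ)⟧ ⊞ X n :=
    (HL.ext (Eventually.of_forall tW) h3 (h2.shift 1)).iso (Eventually.of_forall eW)
  obtain ⟨k, hk⟩ := exists_nat_ge (|b - a + 2 * w|)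
  have hk' : b + 2 * w ≤ a + ((2 * k + 1 : ℤ) : ℝ) := by
    have := le_abs_self (b - a + 2 * w)
    have : (0 : ℝ) ≤ k := Nat.cast_nonneg k
    push_cast
    linarith
  obtain ⟨A, B, A', B', t, lA, lB, uA, vB⟩ := L.hl_cut h hd (h4.odd k) (b + w)
  refine HL.iso ⟨B', lB⟩ ?_
  filter_upwards [t, hX, hw.U lA uA, hw.V lB vB, L.hom (L.shift 1 lA) lB
    fun f => (τ.ts _).hom ((τ.ts _).shU uA) vB f] with n k1 k2 k3 k4 k5
  refine far_iso (σ n) k1 (tr_biprod _ _) (b := b) (b' := b + 2 * w) (by linarith)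
    ((σ n).anti (by linarith) _ k3) ?_ k2.2 ((σ n).monoV (by linarith) _ k4) k5
  exact (σ n).anti hk' _ (((σ n).shiftU_int a _ _).2 k2.1)

/-- truncations of families with a limit have a limit -/
theorem HL.trunc (h : Stab τ Z r c) (hd : Disc Z) (hw : L.WOpen σ τ 0) {s : ℝ}
    {A X B : ∀ n, C n} (hX : L.HL X)
    (t : ∀ᶠ n in (𝒰 : Filter I), A2bTr (A n) (X n) (B n) ∧ (σ n).U s (A n) ∧ (σ n).V s (B n)) :
    L.HL A ∧ L.HL B := by
  obtain ⟨A1, B1, A', B', t', lA, lB, uA, vB⟩ := L.hl_cut h hd hX s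
  have hB : L.HL B := by
    refine HL.iso ⟨B', lB⟩ ?_
    filter_upwards [t, t', hw.U lA uA, hw.V lB vB] with n k1 k2 k3 k4
    rw [sub_zero] at k3
    rw [add_zero] at k4
    obtain ⟨⟨f, g, δ, hT⟩, k5, k6⟩ := k1
    obtain ⟨f', g', δ', hT'⟩ := k2
    exact ((σ n).ts s).uniqV hT' hT k3 k4 k5 k6 (Iso.refl _)
  exact ⟨HL.ext₁ (t.mono fun n hn => hn.1) hX hB, hB⟩

end LimS

end Vale.Agent.P287T.Op
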