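import Vale.Agent.P287T.Op.Mx1

/-!
# Functors preserve limits of matrix factorizations
-/

open Vale.Agent.P294 Vale.Agent.P287T.Op Filter Topology CategoryTheory Polynomial

namespace Vale.Agent.P287T.Op

/-- pointwise convergent linear maps applied to a convergent family -/
theorem Cv.fn_lin {I M N : Type} [AddCommGroup M] [Module ℂ M] [AddCommGroup N] [Module ℂ N]
    {l : Filter I} {x : I → M} {a : M} (h : Cv l x a) (T : I → M →ₗ[ℂ] N) (T0 : M →ₗ[ℂ] N)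
    (hT : ∀ m, Cv l (fun n => T n m) (T0 m)) : Cv l (fun n => T n (x n)) (T0 a) := by
  obtain ⟨s, _, b, c, h1, h2⟩ := h
  have h3 := (hT a).add (Cv.sum Finset.univ fun j _ => (hT (b j)).smul (h1 j))
  refine (h3.congr ?_).congr' (fun _ => rfl) (by simp)
  filter_upwards [h2] with n hn
  simp [hn, map_sum]

end Vale.Agent.P287T.Op

namespace Vale.Agent.P287T.G3.Mx

attribute [local instance] algS

variable {A B : GCtx} [GCtx.Aug A] [GCtx.Aug B] {I : Type} {l : Filter I}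

/-- an additive map commuting with the constants -/
def CL (θ : A.S →+ B.S) : Prop :=
  ∀ (z : ℂ) (s : A.S), θ (GCtx.Aug.cst z * s) = GCtx.Aug.cst z * θ s

/-- the linear map of such an additive map -/
def CL.lin {θ : A.S →+ B.S} (h : CL θ) : A.S →ₗ[ℂ] B.S where
  toFun := θ
  map_add' := θ.map_add
  map_smul' z s := h z s

theorem CL.cv {θ : A.S →+ B.S} (h : CL θ) {x : I → A.S} {a : A.S} (hx : Cv l x a) :
    Cv l (fun n => θ (x n)) (θ a) := hx.map h.lin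

theorem CL.cv_fam {θ : I → A.S →+ B.S} {θ0 : A.S →+ B.S} (h : ∀ n, CL (θ n)) (h0 : CL θ0)
    (hp : ∀ s, Cv l (fun n => θ n s) (θ0 s)) {x : I → A.S} {a : A.S} (hx : Cv l x a) :
    Cv l (fun n => θ n (x n)) (θ0 a) := hx.fn_lin (fun n => (h n).lin) h0.lin hp

theorem CL.of_ring (φ : A.S →+* B.S) (h : ∀ z, φ (GCtx.Aug.cst z) = GCtx.Aug.cst z) :
    CL φ.toAddMonoidHom := fun z s => by
  change φ _ = _ * φ s
  rw [map_mul, h]

omit [GCtx.Aug A] in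
theorem fn_md_iso {W0 W : A.S} {E : MF A W0} {d : Matrix E.ι E.ι A.S} {X Y : MF A W}
    (e : Nonempty (X ≅ Y)) (h : Md E d Y) : Md E d X := by
  obtain ⟨e⟩ := e
  obtain ⟨h1, h2, ⟨e2⟩⟩ := h
  exact ⟨h1, h2, ⟨e ≪≫ e2⟩⟩

omit [GCtx.Aug A] in
/-- an object with the labels of `E`, up to a bijection, is its own model -/
theorem fn_md_perm {W0 W : A.S} {E : MF A W0} (X : MF A W) (e : E.ι ≃ X.ι)
    (hp : ∀ i, X.p (e i) = E.p i) : Md E (X.d.submatrix e e) X := by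
  have h1 : DegM E.p E.p (A.en 3) (X.d.submatrix e e) := fun i j => by
    rw [← hp, ← hp]; exact X.deg _ _
  have h2 : X.d.submatrix e e * X.d.submatrix e e = W • (1 : Matrix E.ι E.ι A.S) := by
    rw [Matrix.submatrix_mul_equiv, X.sq, Matrix.submatrix_smul, Pi.smul_apply, Pi.smul_apply,
      Matrix.submatrix_one_equiv]
  exact ⟨h1, h2, ⟨(permIso (E := ⟨E.ι, E.p, _, h1, h2⟩) (F := X) e hp fun _ _ => rfl).symm⟩⟩

variable {W : I → A.S} {W0 : A.S} {V : I → B.S} {V0 : B.S}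

/-- the general principle -/
theorem MLim.fn {X : ∀ n, MF A (W n)} {E : MF A W0} (h : MLim l X E)
    (F : ∀ n, MF A (W n) → MF B (V n)) (E' : MF B V0)
    (hF : ∀ n (X Y : MF A (W n)), Nonempty (X ≅ Y) → Nonempty (F n X ≅ F n Y))
    (T : I → Matrix E.ι E.ι A.S → Matrix E'.ι E'.ι B.S)
    (hT : ∀ d : I → Matrix E.ι E.ι A.S, Cv l d E.d → Cv l (fun n => T n (d n)) E'.d)
    (hM : ∀ᶠ n in l, ∀ d h1 h2, Md E' (T n d) (F n ⟨E.ι, E.p, d, h1, h2⟩)) :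
    MLim l (fun n => F n (X n)) E' := by
  obtain ⟨d, hd, h2⟩ := h
  refine ⟨fun n => T n (d n), hT d hd, ?_⟩
  filter_upwards [h2, hM] with n h3 h4
  obtain ⟨h5, h6, h7⟩ := h3
  exact fn_md_iso (hF n _ _ h7) (h4 _ h5 h6)

theorem MLim.fn_const (l : Filter I) (E : MF A W0) : MLim l (W := fun _ => W0) (fun _ => E) E :=
  ⟨fun _ => E.d, Cv.const l _, Eventually.of_forall fun _ => ⟨E.deg, E.sq, ⟨Iso.refl _⟩⟩⟩

theorem MLim.fn_iso {X Y : ∀ n, MF A (W n)} {E : MF A W0} (h : MLim l X E)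
    (e : ∀ᶠ n in l, Nonempty (Y n ≅ X n)) : MLim l Y E := by
  obtain ⟨d, hd, h2⟩ := h
  exact ⟨d, hd, by filter_upwards [h2, e] with n h3 h4 using fn_md_iso h4 h3⟩

theorem MLim.fn_comp {J : Type} {l' : Filter J} {f : J → I} {X : ∀ n, MF A (W n)} {E : MF A W0}
    (h : MLim l X E) (e : Tendsto f l' l) :
    MLim l' (W := fun j => W (f j)) (fun j => X (f j)) E := by
  obtain ⟨d, hd, h2⟩ := h
  exact ⟨fun j => d (f j), hd.comp e, e.eventually h2⟩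

/-- the labels of a limit -/
theorem MLim.fn_Zf {X : ∀ n, MF A (W n)} {E : MF A W0} (h : MLim l X E) :
    ∀ᶠ n in l, Zf (X n) = Zf E := by
  obtain ⟨d, -, h2⟩ := h
  filter_upwards [h2] with n h3
  obtain ⟨h5, h6, ⟨e⟩⟩ := h3
  exact K1a_Zf_iso e

/-- twists -/
theorem MLim.fn_tw {X : ∀ n, MF A (W n)} {E : MF A W0} (h : MLim l X E) (γ : A.Γ) :
    MLim l (fun n => tw γ (X n)) (tw γ E) := by
  refine h.fn (fun _ => tw γ) _ (fun n X Y ⟨e⟩ => ⟨(twF γ).mapIso e⟩)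
    (fun _ d => sg (A.chΓ γ) • d) (fun d hd => ?_) (Eventually.of_forall fun n d h1 h2 => ?_)
  · exact hd.map (sg (A.chΓ γ) • LinearMap.id)
  · exact fn_md_perm (E := tw γ E) (tw γ (⟨E.ι, E.p, d, h1, h2⟩ : MF A (W n))) (Equiv.refl _)
      fun _ => rfl

/-- homomorphisms of contexts, varying with the parameter -/
theorem MLim.fn_chom {X : ∀ n, MF A (W n)} {E : MF A W0} (h : MLim l X E)
    (Φ : ∀ n, CHom A B (W n) (V n)) (Φ0 : CHom A B W0 V0)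
    (hd : ∀ n a, Φ0.dom a ↔ (Φ n).dom a) (hl : ∀ n a, Φ0.dom a → (Φ n).lab a = Φ0.lab a)
    (hθ : ∀ a b, Φ0.dom a → Φ0.dom b → ∀ (x : I → A.S) (x0 : A.S), Cv l x x0 →
      Cv l (fun n => (Φ n).θ a b (x n)) (Φ0.θ a b x0)) :
    MLim l (fun n => (Φ n).obj (X n)) (Φ0.obj E) := by
  refine h.fn (fun n => (Φ n).obj) _ (fun n X Y ⟨e⟩ => ⟨(Φ n).functor.mapIso e⟩)
    (fun n d (i j : Φ0.Ix E) => (Φ n).θ (A.en 3 +ᵥ E.p j) (E.p i) (d i j)) (fun d hd' => ?_)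
    (Eventually.of_forall fun n d h1 h2 => ?_)
  · exact Cv.matrix fun (i j : Φ0.Ix E) =>
      hθ _ _ ((Φ0.dom_e 3 _).2 j.2) i.2 _ _ (hd'.entry i.1 j.1)
  · exact fn_md_perm (E := Φ0.obj E) ((Φ n).obj (⟨E.ι, E.p, d, h1, h2⟩ : MF A (W n)))
      (Equiv.subtypeEquivRight fun i => hd n (E.p i)) fun i => hl n _ i.2

/-- homomorphisms of contexts with constant linear entry maps -/
theorem MLim.fn_chom' {X : ∀ n, MF A (W n)} {E : MF A W0} (h : MLim l X E)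
    (Φ : ∀ n, CHom A B (W n) (V n)) (Φ0 : CHom A B W0 V0)
    (hd : ∀ n a, Φ0.dom a ↔ (Φ n).dom a) (hl : ∀ n a, Φ0.dom a → (Φ n).lab a = Φ0.lab a)
    (hθ : ∀ n a b, (Φ n).θ a b = Φ0.θ a b) (hc : ∀ a b, CL (Φ0.θ a b)) :
    MLim l (fun n => (Φ n).obj (X n)) (Φ0.obj E) :=
  h.fn_chom Φ Φ0 hd hl fun a b _ _ x x0 hx =>
    ((hc a b).cv hx).congr' (fun n => by rw [hθ]) rfl

/-- isomorphisms of contexts -/
theorem MLim.fn_ciso {X : ∀ n, MF A (W n)} {E : MF A W0} (h : MLim l X E) (J : CIso A B)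
    (hc : ∀ z, J.φ (GCtx.Aug.cst z) = GCtx.Aug.cst z) :
    MLim l (fun n => (J.chom (W n)).obj (X n)) ((J.chom W0).obj E) :=
  h.fn_chom' (fun n => J.chom (W n)) (J.chom W0) (fun _ _ => Iff.rfl) (fun _ _ _ => rfl)
    (fun _ _ _ => rfl) fun _ _ => CL.of_ring (J.φ : A.S →+* B.S) hc

theorem fn_ciso_cst (J : CIso A B) (a : A.L) (h : ∀ s, GCtx.Aug.ev (J.φ s) = GCtx.Aug.ev s)
    (z : ℂ) : J.φ (GCtx.Aug.cst z) = GCtx.Aug.cst z := by
  have h1 := h (GCtx.Aug.cst z)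
  rw [GCtx.Aug.ev_cst] at h1
  by_cases h0 : J.φ (GCtx.Aug.cst z) = 0
  · rw [h0, map_zero] at h1
    rw [h0, ← h1, map_zero]
  · have h2 := (GCtx.Aug.conn ((J.H a a _).1 (GCtx.Aug.cst_mem a z)) h0 rfl).2
    rw [h1] at h2
    exact h2

/-- change of the potentials along equalities -/
theorem MLim.fn_cast {W' : I → A.S} {W0' : A.S} {X : ∀ n, MF A (W n)} {E : MF A W0}
    (h : MLim l X E) (e : ∀ n, W n = W' n) (e0 : W0 = W0') :
    MLim l (W := W') (fun n => ⟨(X n).ι, (X n).p, (X n).d, (X n).deg, e n ▸ (X n).sq⟩)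
      (⟨E.ι, E.p, E.d, E.deg, e0 ▸ E.sq⟩ : MF A W0') := by
  obtain rfl : W = W' := funext e
  subst e0
  exact h

end Vale.Agent.P287T.G3.Mx
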