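import Vale.Agent.P287T.Op.Fn0

/-!
# The functors of the tower preserve limits
-/

open Vale.Agent.P294 Vale.Agent.P287T.Op Filter Topology CategoryTheory Polynomial

namespace Vale.Agent.P287T.G3.Mx

attribute [local instance] algS

variable {A : GCtx} [GCtx.Aug A] {I : Type} {l : Filter I}

theorem fn_cst_P (z : ℂ) : (GCtx.Aug.cst z : A.P.S) = (C (GCtx.Aug.cst z : A.S) : A.S[X]) := rfl

theorem fn_cst_T (z : ℂ) : (GCtx.Aug.cst z : A.T.S) = (C (GCtx.Aug.cst z : A.S) : A.S[X]) := rfl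

/-- the constants of `A.P` -/
noncomputable def cP (A : GCtx) : A.S →+* A.P.S := (C : A.S →+* A.S[X])

/-- the constants of `A.T` -/
noncomputable def cT (A : GCtx) : A.S →+* A.T.S := (C : A.S →+* A.S[X])

theorem cv_cP {x : I → A.S} {a : A.S} (h : Cv l x a) :
    Cv l (fun n => cP A (x n)) (cP A a) := (CL.of_ring (cP A) fun _ => rfl).cv h

theorem cv_cT {x : I → A.S} {a : A.S} (h : Cv l x a) :
    Cv l (fun n => cT A (x n)) (cT A a) := (CL.of_ring (cT A) fun _ => rfl).cv h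

theorem cv_WP {W : I → A.S} {W0 : A.S} (h : Cv l W W0) :
    Cv l (fun n => WP A (W n)) (WP A W0) :=
  (cv_cP h).add (Cv.const l (inP A (X ^ 3)))

theorem cv_WT {W : I → A.S} {W0 : A.S} (h : Cv l W W0) :
    Cv l (fun n => WT A (W n)) (WT A W0) :=
  (cv_cT h).add (Cv.const l (show A.T.S from (X ^ 3 : A.S[X])))

/-- evaluation as an additive map -/
noncomputable def evP (A : GCtx) (t : A.S) : A.P.S →+ A.S := (evalRingHom t).toAddMonoidHom

theorem cl_evP (t : A.S) : CL (evP A t) :=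
  CL.of_ring (A := A.P) (evalRingHom t) fun _ => eval_C

theorem cv_eval {t : I → A.S} {t0 : A.S} (ht : Cv l t t0) {x : I → A.P.S} {a : A.P.S}
    (h : Cv l x a) : Cv l (fun n => evP A (t n) (x n)) (evP A t0 a) := by
  refine CL.cv_fam (fun n => cl_evP (t n)) (cl_evP t0) (fun (s : A.S[X]) => ?_) h
  change Cv l (fun n => s.eval (t n)) (s.eval t0)
  simp only [eval_eq_sum_range]
  exact Cv.sum _ fun i _ => (Cv.const l _).mul (ht.pow i)

theorem cv_evW {t : I → A.S} {t0 : A.S} (ht : Cv l t t0) {Wt : I → A.S[X]} {Wt0 : A.S[X]}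
    (h : Cv l (fun n => inP A (Wt n)) (inP A Wt0)) :
    Cv l (fun n => evW A (Wt n) (t n)) (evW A Wt0 t0) := cv_eval ht h

section pure

variable {R : Type} [CommRing R]

theorem fn_div_eq (t : R) (s q : R[X]) (h : (X - C t) * q = s - C (s.eval t)) :
    s /ₘ (X - C t) = q := by
  apply (monic_X_sub_C t).isRegular.left
  change (X - C t) * (s /ₘ (X - C t)) = (X - C t) * q
  rw [E1a.mul_div, h]

theorem fn_div_add (t : R) (a b : R[X]) :
    (a + b) /ₘ (X - C t) = a /ₘ (X - C t) + b /ₘ (X - C t) := by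
  refine fn_div_eq t _ _ ?_
  rw [mul_add, E1a.mul_div, E1a.mul_div, eval_add, map_add]
  ring

theorem fn_div_C (t c : R) (s : R[X]) : (C c * s) /ₘ (X - C t) = C c * (s /ₘ (X - C t)) := by
  refine fn_div_eq t _ _ ?_
  rw [mul_left_comm, E1a.mul_div, eval_mul, eval_C, map_mul, mul_sub]

theorem fn_div_mon (u a : R) (k : ℕ) : (monomial k a) /ₘ (X - C u) =
    C a * ∑ i ∈ Finset.range k, X ^ i * C u ^ (k - 1 - i) := by
  refine fn_div_eq u _ _ ?_
  rw [mul_left_comm, mul_comm (X - C u), geom_sum₂_mul, ← C_mul_X_pow_eq_monomial]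
  simp [mul_sub]

theorem fn_wtPart_C (w : ZMod 3) (c : R) (s : R[X]) : wtPart w (C c * s) = C c * wtPart w s := by
  ext k
  rw [coeff_C_mul, coeff_wtPart, coeff_wtPart, coeff_C_mul]
  split_ifs <;> simp

end pure

/-- division by `y - t` as an additive map -/
noncomputable def dvP (A : GCtx) (t : A.S) : A.P.S →+ A.P.S where
  toFun (s : A.S[X]) := (s /ₘ (X - C t) : A.S[X])
  map_zero' := zero_divByMonic _
  map_add' a b := fn_div_add t a b

theorem cl_dvP (t : A.S) : CL (dvP A t) := fun _ s => fn_div_C t _ s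

theorem cv_dvP {t : I → A.S} {t0 : A.S} (ht : Cv l t t0) {x : I → A.P.S} {a : A.P.S}
    (h : Cv l x a) : Cv l (fun n => dvP A (t n) (x n)) (dvP A t0 a) := by
  refine CL.cv_fam (fun n => cl_dvP (t n)) (cl_dvP t0) (fun (s : A.S[X]) => ?_) h
  have key : ∀ (u a : A.S) (k : ℕ), dvP A u (monomial k a : A.S[X]) =
      cP A a * ∑ i ∈ Finset.range k, inP A X ^ i * cP A u ^ (k - 1 - i) :=
    fun u a k => fn_div_mon u a k
  induction s using Polynomial.induction_on' with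
  | add p q hp hq =>
    exact (hp.add hq).congr' (fun n => ((dvP A (t n)).map_add p q).symm)
      ((dvP A t0).map_add p q).symm
  | monomial k a =>
    refine Cv.congr' ?_ (fun n => (key (t n) a k).symm) (key t0 a k).symm
    exact (Cv.const l _).mul (Cv.sum _ fun i _ => (Cv.const l _).mul ((cv_cP ht).pow _))

theorem cv_quoW {t : I → A.S} {t0 : A.S} (ht : Cv l t t0) {Wt : I → A.S[X]} {Wt0 : A.S[X]}
    (h : Cv l (fun n => inP A (Wt n)) (inP A Wt0)) :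
    Cv l (fun n => inP A (quoW A (Wt n) (t n))) (inP A (quoW A Wt0 t0)) :=
  (cv_dvP ht h).congr' (fun n => (E1a.quoW_eq A (Wt n) (t n)).symm) (E1a.quoW_eq A Wt0 t0).symm

section T

variable {W : I → A.S} {W0 : A.S}

/-- the graded pieces -/
theorem MLim.fn_tgr {X : ∀ n, MFT A (W n)} {E : MFT A W0} (h : MLim l X E) (v : ZMod 3) :
    MLim l (fun n => tgr v (X n)) (tgr v E) :=
  h.fn_chom' (fun n => Tgr A (W n) v) (Tgr A W0 v) (fun _ _ => Iff.rfl) (fun _ _ _ => rfl)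
    (fun _ _ _ => rfl) fun _ _ _ (s : A.S[X]) => coeff_C_mul s

/-- forgetting the weights -/
theorem MLim.fn_Fo {X : ∀ n, MFT A (W n)} {E : MFT A W0} (h : MLim l X E) :
    MLim l (fun n => (Fo A (W n)).obj (X n)) ((Fo A W0).obj E) :=
  h.fn_chom' (fun n => Fo A (W n)) (Fo A W0) (fun _ _ => Iff.rfl) (fun _ _ _ => rfl)
    (fun _ _ _ => rfl) fun _ _ _ _ => rfl

omit [GCtx.Aug A] in
theorem fn_IndO_iso {X Y : MF A.P (WP A W0)} (e : Nonempty (X ≅ Y)) :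
    Nonempty (IndO X ≅ IndO Y) := by
  obtain ⟨R, -, hR⟩ := Fo_adj (A := A) (W := W0)
  obtain ⟨e⟩ := e
  obtain ⟨e1⟩ := hR X
  obtain ⟨e2⟩ := hR Y
  exact ⟨e1.symm ≪≫ R.mapIso e ≪≫ e2⟩

theorem cl_wtPart (w : ZMod 3) :
    CL (A := A.P) (B := A.T) (wtPartHom (R := A.S) w) := fun _ s => fn_wtPart_C w _ s

/-- induction -/
theorem MLim.fn_IndO {X : ∀ n, MF A.P (WP A (W n))} {E : MF A.P (WP A W0)} (h : MLim l X E) :
    MLim l (fun n => IndO (X n)) (IndO E) := by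
  refine h.fn (fun _ => IndO) _ (fun n X Y e => fn_IndO_iso e)
    (fun _ d => indM (R := A.S) d) (fun d hd => ?_) (Eventually.of_forall fun n d h1 h2 => ?_)
  · exact Cv.matrix (M := A.T.S) fun (i j : E.ι × ZMod 3) =>
      (cl_wtPart (j.2 - i.2)).cv (hd.entry i.1 j.1)
  · exact fn_md_perm (E := IndO E) (IndO (⟨E.ι, E.p, d, h1, h2⟩ : MF A.P (WP A (W n))))
      (Equiv.refl _) fun _ => rfl

end T

section Ev

variable {Wt : I → A.S[X]} {Wt0 : A.S[X]} {t : I → A.S} {t0 : A.S}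

/-- evaluation at a converging family of linear forms -/
theorem MLim.fn_Ev {X : ∀ n, MF A.P (inP A (Wt n))} {E : MF A.P (inP A Wt0)} (h : MLim l X E)
    (hl : ∀ n a, t n ∈ A.H (A.en 2 +ᵥ a) a) (hl0 : ∀ a, t0 ∈ A.H (A.en 2 +ᵥ a) a)
    (ht : Cv l t t0) :
    MLim l (fun n => (Ev A (Wt n) (t n) (hl n)).obj (X n)) ((Ev A Wt0 t0 hl0).obj E) :=
  h.fn_chom (fun n => Ev A (Wt n) (t n) (hl n)) (Ev A Wt0 t0 hl0) (fun _ _ => Iff.rfl)
    (fun _ _ _ => rfl) fun _ _ _ _ _ _ hx => cv_eval ht hx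

omit [GCtx.Aug A] in
theorem fn_EvR_iso (hl0 : ∀ a, t0 ∈ A.H (A.en 2 +ᵥ a) a)
    (hW0 : ∀ a, (inP A Wt0) ∈ A.P.H (A.P.en 6 +ᵥ a) a) {X Y : MF A (evW A Wt0 t0)}
    (e : Nonempty (X ≅ Y)) : Nonempty (EvR hl0 hW0 X ≅ EvR hl0 hW0 Y) := by
  obtain ⟨R, -, hR⟩ := Ev_adj hl0 hW0
  obtain ⟨e⟩ := e
  obtain ⟨e1⟩ := hR X
  obtain ⟨e2⟩ := hR Y
  exact ⟨e1.symm ≪≫ R.mapIso e ≪≫ e2⟩

/-- the right adjoint of evaluation -/
theorem MLim.fn_EvR {Y : ∀ n, MF A (evW A (Wt n) (t n))} {E : MF A (evW A Wt0 t0)}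
    (h : MLim l Y E) (hl : ∀ n a, t n ∈ A.H (A.en 2 +ᵥ a) a)
    (hW : ∀ n a, (inP A (Wt n)) ∈ A.P.H (A.P.en 6 +ᵥ a) a)
    (hl0 : ∀ a, t0 ∈ A.H (A.en 2 +ᵥ a) a) (hW0 : ∀ a, (inP A Wt0) ∈ A.P.H (A.P.en 6 +ᵥ a) a)
    (ht : Cv l t t0) (hc : Cv l (fun n => inP A (Wt n)) (inP A Wt0)) :
    MLim l (fun n => EvR (hl n) (hW n) (Y n)) (EvR hl0 hW0 E) := by
  refine h.fn (fun n => EvR (hl n) (hW n)) _ (fun n X Y e => fn_EvR_iso _ _ e)
    (fun n d => (Matrix.fromBlocks (d.map (cP A)) ((inP A X - cP A (t n)) • 1)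
      (inP A (quoW A (Wt n) (t n)) • 1) (-(d.map (cP A))) :
      Matrix (E.ι ⊕ E.ι) (E.ι ⊕ E.ι) A.P.S)) (fun d hd => ?_)
    (Eventually.of_forall fun n d h1 h2 => ?_)
  · have h3 : Cv l (fun n => (d n).map (cP A)) (E.d.map (cP A)) :=
      Cv.matrix fun i j => cv_cP (hd.entry i j)
    exact h3.fromBlocks (((Cv.const l _).sub (cv_cP ht)).rsmul (Cv.const l _))
      ((cv_quoW ht hc).rsmul (Cv.const l _)) h3.neg
  · exact fn_md_perm (E := EvR hl0 hW0 E)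
      (EvR (hl n) (hW n) (⟨E.ι, E.p, d, h1, h2⟩ : MF A (evW A (Wt n) (t n))))
      (Equiv.refl _) fun _ => rfl

end Ev

end Vale.Agent.P287T.G3.Mx
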