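import Vale.Agent.P287T.Op.Fn1
import Vale.Agent.P287T.G3.D

/-!
# Finite dimensional pieces, convergent potentials, and the descent functor
-/

open Vale.Agent.P294 Vale.Agent.P287T.Op Filter Topology CategoryTheory Polynomial

namespace Vale.Agent.P287T.G3.Mx

attribute [local instance] algS

section fin

theorem fn_fin {A B : GCtx} [GCtx.Aug A] [GCtx.Aug B] {κ : Type} [Fintype κ] (hB : FinH B)
    (a b : A.L) (θ : κ → A.S →+ B.S) (hθ : ∀ k, CL (θ k)) (u v : κ → B.L)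
    (hm : ∀ k s, s ∈ A.H a b → θ k s ∈ B.H (u k) (v k))
    (hi : ∀ s ∈ A.H a b, (∀ k, θ k s = 0) → s = 0) : Module.Finite ℂ (Hs A a b) := by
  let f : Hs A a b →ₗ[ℂ] (∀ k, Hs B (u k) (v k)) :=
    { toFun := fun x k => ⟨θ k x.1, hm k _ x.2⟩
      map_add' := fun x y => funext fun k => Subtype.ext ((θ k).map_add _ _)
      map_smul' := fun z x => funext fun k => Subtype.ext (hθ k z x.1) }
  have : ∀ k, Module.Finite ℂ (Hs B (u k) (v k)) := fun k => hB _ _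
  refine Module.Finite.of_injective f ((injective_iff_map_eq_zero f).2 fun x hx => ?_)
  exact Subtype.ext (hi _ x.2 fun k => congrArg Subtype.val (congrFun hx k))

theorem finH_pt : FinH GCtx.pt := fun a b => by
  let f : Hs GCtx.pt a b →ₗ[ℂ] ℂ :=
    { toFun := fun x => x.1
      map_add' := fun _ _ => rfl
      map_smul' := fun _ _ => rfl }
  exact Module.Finite.of_injective f fun x y h => Subtype.ext h

variable {A B : GCtx} [GCtx.Aug A] [GCtx.Aug B]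

theorem FinH.wt (h : FinH A) (G : Type) [AddCommGroup G] [DecidableEq G] : FinH (A.wt G) :=
  fun a b => fn_fin (κ := Unit) h a b (fun _ => AddMonoidHom.id A.S) (fun _ _ _ => rfl)
    (fun _ => (a : A.L × G).1) (fun _ => (b : A.L × G).1)
    (fun _ s hs => by
      rcases (GCtx.wt_mem_iff A G a b s).1 hs with h1 | h1
      · exact h1.2
      · rw [h1]; exact zero_mem _)
    fun _ _ h1 => h1 ()

theorem FinH.poly (h : FinH A) (η : A.Γ) (hη : 0 < A.chΓ η) :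
    @FinH (A.poly η) (GCtx.augPoly A η hη) := fun (a b : A.L) => by
  let _ := GCtx.augPoly A η hη
  refine fn_fin (A := A.poly η) (κ := Fin ((A.ch a - A.ch b).toNat + 1)) h a b
    (fun k => (lcoeff A.S k).toAddMonoidHom) (fun k _ (s : A.S[X]) => coeff_C_mul s)
    (fun k => -((k : ℕ) • η) +ᵥ a) (fun _ => b) (fun k s hs => hs k)
    fun (s : A.S[X]) hs h1 => Polynomial.ext fun k => ?_
  by_contra h0
  have h2 := GCtx.Aug.pos (hs k) h0
  rw [GCtx.ch_nsmul_vadd] at h2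
  have h3 : (k : ℤ) ≤ k * A.chΓ η := by nlinarith
  exact h0 (h1 ⟨k, by omega⟩)

theorem FinH.P (h : FinH A) : FinH A.P := h.poly _ (by simp)

theorem FinH.T (h : FinH A) : FinH A.T := (h.wt (ZMod 3)).poly _ (by
  change 0 < A.chΓ (A.en 2)
  simp)

theorem finH_co : ∀ n, FinH (co n)
  | 0 => finH_pt
  | n + 1 => (finH_co n).P

theorem FinH.TT (h : FinH A) : ∀ m, FinH (TT A m)
  | 0 => h
  | m + 1 => (h.TT m).T

theorem FinH.ciso (h : FinH B) (J : CIso A B)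
    (hc : ∀ z, J.φ (GCtx.Aug.cst z) = GCtx.Aug.cst z) : FinH A := fun a b =>
  fn_fin (κ := Unit) h a b (fun _ => (J.φ : A.S →+* B.S).toAddMonoidHom)
    (fun _ => CL.of_ring _ hc) (fun _ => J.lab a) (fun _ => J.lab b)
    (fun _ s hs => (J.H a b s).1 hs) fun _ _ h1 => J.φ.map_eq_zero_iff.1 (h1 ())

theorem finH_mv (n : ℕ) : FinH (mvCtx n) := by
  obtain ⟨J, -, -, h⟩ := exists_mvIso n
  exact (finH_co n).ciso J (fn_ciso_cst J (0 : ℤ) h)

end fin

variable {A B : GCtx} [GCtx.Aug A] [GCtx.Aug B] {I : Type} {l : Filter I}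

theorem cv_TTC {x : I → A.S} {a : A.S} (h : Cv l x a) :
    ∀ m, Cv l (fun n => TTC A m (x n)) (TTC A m a)
  | 0 => h
  | m + 1 => cv_cT (cv_TTC h m)

theorem cv_TTW {W : I → A.S} {W0 : A.S} (h : Cv l W W0) :
    ∀ m, Cv l (fun n => TTW A (W n) m) (TTW A W0 m)
  | 0 => h
  | m + 1 => cv_WT (cv_TTW h m)

section pot

variable {W : I → A.S} {W0 : A.S}

theorem PotL.fn_const (l : Filter I) (h : FinH A) (hW : A.IsPot W0) : PotL l (fun _ => W0) W0 :=
  ⟨h, fun _ => hW, hW, Cv.const l _⟩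

theorem PotL.fn_WP (h : PotL l W W0) : PotL l (fun n => WP A (W n)) (WP A W0) :=
  ⟨h.fin.P, fun n => e3_P_mem (h.pot n), e3_P_mem h.pot0, cv_WP h.cv⟩

theorem PotL.fn_WT (h : PotL l W W0) : PotL l (fun n => WT A (W n)) (WT A W0) :=
  ⟨h.fin.T, fun n => e3_TTW_mem (h.pot n) 1, e3_TTW_mem h.pot0 1, cv_WT h.cv⟩

theorem PotL.fn_TT (h : PotL l W W0) (m : ℕ) :
    PotL l (fun n => TTW A (W n) m) (TTW A W0 m) :=
  ⟨h.fin.TT m, fun n => e3_TTW_mem (h.pot n) m, e3_TTW_mem h.pot0 m, cv_TTW h.cv m⟩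

theorem PotL.fn_ciso (h : PotL l W W0) (hB : FinH B) (J : CIso A B)
    (hc : ∀ z, J.φ (GCtx.Aug.cst z) = GCtx.Aug.cst z) :
    PotL l (fun n => J.φ (W n)) (J.φ W0) := by
  have key : ∀ U : A.S, A.IsPot U → B.IsPot (J.φ U) := fun U hU b => by
    obtain ⟨a, rfl⟩ := J.lab.surjective b
    rw [← J.n2a_en, ← J.vadd]
    exact (J.H _ _ _).1 (hU a)
  exact ⟨hB, fun n => key _ (h.pot n), key _ h.pot0,
    (CL.of_ring (J.φ : A.S →+* B.S) hc).cv h.cv⟩

theorem PotL.fn_comp {J : Type} {l' : Filter J} {f : J → I} (h : PotL l W W0)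
    (e : Tendsto f l' l) : PotL l' (fun j => W (f j)) W0 :=
  ⟨h.fin, fun _ => h.pot _, h.pot0, h.cv.comp e⟩

end pot

theorem MLim.fn_castMF {W W' : I → A.S} {W0 W0' : A.S} {X : ∀ n, MF A (W n)} {E : MF A W0}
    (h : MLim l X E) (e : ∀ n, W n = W' n) (e0 : W0 = W0') :
    MLim l (fun n => castMF (e n) (X n)) (castMF e0 E) := h.fn_cast e e0

/-- one descent step -/
theorem MLim.fn_DStep {W t : I → A.S} {W0 t0 : A.S} (m : ℕ)
    {Y : ∀ n, MF (TT A m) (TTW A (W n + t n ^ 3) m)} {E : MF (TT A m) (TTW A (W0 + t0 ^ 3) m)}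
    (h : MLim l Y E) (hW : ∀ n, A.IsPot (W n)) (hl : ∀ n a, t n ∈ A.H (A.en 2 +ᵥ a) a)
    (hW0 : A.IsPot W0) (hl0 : ∀ a, t0 ∈ A.H (A.en 2 +ᵥ a) a) (hc : Cv l W W0) (ht : Cv l t t0) :
    MLim l (fun n => DStep (hW n) (hl n) m (Y n)) (DStep hW0 hl0 m E) :=
  MLim.fn_IndO (A := TT A m) (W := fun n => TTW A (W n) m) (W0 := TTW A W0 m)
    (MLim.fn_EvR (A := TT A m) (Wt := fun n => (C (TTW A (W n) m) + X ^ 3 : (TT A m).S[X]))
      (Wt0 := (C (TTW A W0 m) + X ^ 3 : (TT A m).S[X])) (t := fun n => TTC A m (t n))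
      (t0 := TTC A m t0) (h.fn_castMF (fun n => evW_TT (W n) (t n) m) (evW_TT W0 t0 m))
      _ _ _ _ (cv_TTC ht m) (cv_WP (cv_TTW hc m)))

/-- the descent functor -/
theorem MLim.fn_DObj {t : I → ℕ → A.S} {t0 : ℕ → A.S}
    (hl : ∀ n i a, t n i ∈ A.H (A.en 2 +ᵥ a) a) (hl0 : ∀ i a, t0 i ∈ A.H (A.en 2 +ᵥ a) a)
    {V : I → A.S} {V0 : A.S} {X : ∀ n, MF A (V n)} {E : MF A V0} (h : MLim l X E) :
    ∀ (m : ℕ) {W : I → A.S} {W0 : A.S} (hW : ∀ n, A.IsPot (W n)) (hW0 : A.IsPot W0)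
      (hV : ∀ n, V n = W n + ∑ i ∈ Finset.range m, t n i ^ 3)
      (hV0 : V0 = W0 + ∑ i ∈ Finset.range m, t0 i ^ 3), Cv l W W0 →
      (∀ i < m, Cv l (fun n => t n i) (t0 i)) →
      MLim l (fun n => DObj (t n) (hl n) m (W n) (V n) (hW n) (hV n) (X n))
        (DObj t0 hl0 m W0 V0 hW0 hV0 E)
  | 0, _, _, _, _, hV, hV0, _, _ =>
    h.fn_castMF (fun n => sum_cube_zero (hV n)) (sum_cube_zero hV0)
  | m + 1, _, _, hW, hW0, hV, hV0, hc, ht =>
    (h.fn_DObj hl hl0 m (fun n => cube_pot (hW n) (hl n m)) (cube_pot hW0 (hl0 m))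
      (fun n => sum_cube_succ (hV n)) (sum_cube_succ hV0) (hc.add ((ht m (by omega)).pow 3))
      fun i hi => ht i (by omega)).fn_DStep m hW (fun n => hl n m) hW0 (hl0 m) hc
        (ht m (by omega))

end Vale.Agent.P287T.G3.Mx
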