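import Vale.Agent.P287T.Op.Fn2
import Vale.Agent.P287T.G3.E

/-!
# The descent functor of the global family preserves limits
-/

open Vale.Agent.P294 Vale.Agent.P287T.Op Filter Topology CategoryTheory Polynomial

namespace Vale.Agent.P287T.G3.Mx

attribute [local instance] algS

variable {A : GCtx} [GCtx.Aug A] {I : Type} {l : Filter I}

theorem mlim_tgr {W : A.S} {X : I → MFT A W} {E : MFT A W} (v : ZMod 3)
    (h : MLim l (W := fun _ => WT A W) X E) :
    MLim l (W := fun _ => W) (fun n => tgr v (X n)) (tgr v E) :=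
  MLim.fn_tgr (W := fun _ => W) h v

theorem mlim_IndO {W : A.S} {X : I → MF A.P (WP A W)} {E : MF A.P (WP A W)}
    (h : MLim l (W := fun _ => WP A W) X E) :
    MLim l (W := fun _ => WT A W) (fun n => IndO (X n)) (IndO E) :=
  MLim.fn_IndO (W := fun _ => W) h

theorem mlim_Fo {W : A.S} {X : I → MFT A W} {E : MFT A W}
    (h : MLim l (W := fun _ => WT A W) X E) :
    MLim l (W := fun _ => WP A W) (fun n => (Fo A W).functor.obj (X n))
      ((Fo A W).functor.obj E) :=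
  MLim.fn_Fo (W := fun _ => W) h

section k2

variable {Wt : I → A.S[X]} {Wt0 : A.S[X]}

theorem cv_evW0 (h : Cv l (fun n => inP A (Wt n)) (inP A Wt0)) :
    Cv l (fun n => evW A (Wt n) 0) (evW A Wt0 0) := cv_evW (Cv.const l 0) h

theorem mlim_k2R (hW : ∀ n a, (inP A (Wt n)) ∈ A.P.H (A.P.en 6 +ᵥ a) a)
    (hW0 : ∀ a, (inP A Wt0) ∈ A.P.H (A.P.en 6 +ᵥ a) a)
    (hc : Cv l (fun n => inP A (Wt n)) (inP A Wt0)) {Y : ∀ n, MF A (evW A (Wt n) 0)}
    {E : MF A (evW A Wt0 0)} (h : MLim l Y E) :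
    MLim l (fun n => k2R (hW n) (Y n)) (k2R hW0 E) :=
  MLim.fn_EvR (t := fun _ => 0) h _ hW _ hW0 (Cv.const l 0) hc

theorem mlim_k2G {Y : ∀ n, MF A.P (inP A (Wt n))} {E : MF A.P (inP A Wt0)} (h : MLim l Y E) :
    MLim l (fun n => (k2G (Wt n)).obj (Y n)) ((k2G Wt0).obj E) :=
  MLim.fn_Ev (t := fun _ => 0) h _ _ (Cv.const l 0)

theorem PotL.fn_evW0 (hA : FinH A) (h : PotL (A := A.P) l (fun n => inP A (Wt n)) (inP A Wt0)) :
    PotL l (fun n => evW A (Wt n) 0) (evW A Wt0 0) :=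
  ⟨hA, fun n a => E1a.eval_mem (l := 0) k2_hl (h.pot n a),
    fun a => E1a.eval_mem (l := 0) k2_hl (h.pot0 a), cv_evW0 h.cv⟩

end k2

section mv

variable {k : ℕ} {W : I → MvPolynomial (Fin k) ℂ} {W0 : MvPolynomial (Fin k) ℂ}

theorem mlim_mvIso {X : ∀ n, MF (mvCtx k) (mvS (W n))} {E : MF (mvCtx k) (mvS W0)}
    (h : MLim l X E) :
    MLim l (fun n => ((mvIso k).chom (mvS (W n))).obj (X n)) (((mvIso k).chom (mvS W0)).obj E) :=
  h.fn_ciso (mvIso k) (mvIso_cst k)

theorem potL_mv (hW : ∀ n, (W n).IsHomogeneous 3) (hW0 : W0.IsHomogeneous 3)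
    (hc : Cv l (fun n => mvS (W n)) (mvS W0)) : PotL l (fun n => mvS (W n)) (mvS W0) :=
  ⟨finH_mv k, fun n => isPot_mvS (hW n), isPot_mvS hW0, hc⟩

theorem potL_co (hW : ∀ n, (W n).IsHomogeneous 3) (hW0 : W0.IsHomogeneous 3)
    (hc : Cv l (fun n => mvS (W n)) (mvS W0)) :
    PotL l (fun n => (mvIso k).φ (mvS (W n))) ((mvIso k).φ (mvS W0)) :=
  (potL_mv hW hW0 hc).fn_ciso (finH_co k) (mvIso k) (mvIso_cst k)

theorem potL_big (l : Filter I) (k : ℕ) :
    PotL l (fun _ => TTW (co k) (Fer k) (mW k)) (TTW (co k) (Fer k) (mW k)) :=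
  PotL.fn_const l ((finH_co k).TT _) (e3_TTW_mem (Fer_isPot k) _)

/-- **the descent functor of the family preserves limits** -/
theorem mlim_Fd (hW : ∀ n, (W n).IsHomogeneous 3) (hW0 : W0.IsHomogeneous 3)
    (hc : Cv l (fun n => mvS (W n)) (mvS W0)) {X : ∀ n, MF (mvCtx k) (mvS (W n))}
    {E : MF (mvCtx k) (mvS W0)} (h : MLim l X E) :
    MLim l (W := fun _ => TTW (co k) (Fer k) (mW k)) (fun n => Fd (W n) (hW n) (X n))
      (Fd W0 hW0 E) :=
  (mlim_mvIso h).fn_DObj (fun n => lC_mem (W n)) (lC_mem W0) (mW k) (W := fun _ => Fer k)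
    (fun _ => Fer_isPot k) (Fer_isPot k) (fun n => lC_sum (W n) (hW n)) (lC_sum W0 hW0)
    (Cv.const l _) fun i _ => lC_cv (tendsto_of_cv hc) i

/-- coefficientwise convergence of forms of a fixed degree -/
theorem cv_of_tendsto {d : ℕ} (hW : ∀ᶠ n in l, (W n).IsHomogeneous d) (hW0 : W0.IsHomogeneous d)
    (h : ∀ m, Tendsto (fun n => (W n).coeff m) l (𝓝 (W0.coeff m))) :
    Cv l (fun n => mvS (W n)) (mvS W0) := by
  classical
  let s : Finset (Fin k →₀ ℕ) := (Finsupp.finite_of_degree_le (σ := Fin k) d).toFinset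
  have key : ∀ U : MvPolynomial (Fin k) ℂ, U.IsHomogeneous d →
      ∑ m ∈ s, U.coeff m • mvS (MvPolynomial.monomial m (1 : ℂ)) = mvS U := fun U hU => by
    have h1 : U.support ⊆ s := fun m hm => by
      have h2 : m.degree = d := by
        rw [← hU (MvPolynomial.mem_support_iff.1 hm), Finsupp.degree_eq_weight_one]
        rfl
      simpa [s] using h2.le
    have h3 : ∑ m ∈ s, MvPolynomial.C (U.coeff m) * MvPolynomial.monomial m (1 : ℂ) = U := by
      simp only [MvPolynomial.C_mul_monomial, mul_one]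
      exact (Finset.sum_subset h1 fun m _ hm => by
        rw [MvPolynomial.notMem_support_iff.1 hm, map_zero]).symm.trans U.support_sum_monomial_coeff
    exact h3
  refine Cv.congr (key W0 hW0 ▸ Cv.sum s fun m _ => (Cv.const l _).smul (h m)) ?_
  filter_upwards [hW] with n hn using key _ hn

end mv

end Vale.Agent.P287T.G3.Mx
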