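import Vale.Agent.P287T.Op.Mx1

/-!
# Limits of matrix factorizations: invariance under homotopy equivalence, twists
-/

open Vale.Agent.P294 Vale.Agent.P287T.Op Filter Topology CategoryTheory CategoryTheory.Limits

namespace Vale.Agent.P287T.G3.Mx

attribute [local instance] algS

variable {A : GCtx} [GCtx.Aug A] {I : Type} {l : Filter I} {W : I → A.S} {W0 : A.S}

omit [GCtx.Aug A] in
theorem dmul {ι κ μ : Type} [Fintype κ] {p : ι → A.L} {q : κ → A.L} {r : μ → A.L} {a b c : A.Γ}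
    {f : Matrix κ ι A.S} {g : Matrix μ κ A.S} (hg : DegM q r b g) (hf : DegM p q a f)
    (h : b + a = c) : DegM p r c (g * f) := by
  subst h
  intro i j
  rw [Matrix.mul_apply]
  refine sum_mem fun k _ => A.mul_mem (hg i k) ?_
  rw [← vadd_vadd, A.H_vadd]
  exact hf k j

omit [GCtx.Aug A] in
theorem dadd {ι κ : Type} {p : ι → A.L} {q : κ → A.L} {a : A.Γ} {f g : Matrix κ ι A.S}
    (hf : DegM p q a f) (hg : DegM p q a g) : DegM p q a (f + g) :=
  fun i j => add_mem (hf i j) (hg i j)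

omit [GCtx.Aug A] in
theorem dsub {ι κ : Type} {p : ι → A.L} {q : κ → A.L} {a : A.Γ} {f g : Matrix κ ι A.S}
    (hf : DegM p q a f) (hg : DegM p q a g) : DegM p q a (f - g) :=
  fun i j => sub_mem (hf i j) (hg i j)

omit [GCtx.Aug A] in
theorem done {ι : Type} [DecidableEq ι] (p : ι → A.L) : DegM p p 0 (1 : Matrix ι ι A.S) :=
  DegM.one fun _ => zero_vadd _ _

theorem dsmul {ι κ : Type} {p : ι → A.L} {q : κ → A.L} {a : A.Γ} {f : Matrix κ ι A.S} (z : ℂ)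
    (hf : DegM p q a f) : DegM p q a (z • f) := (DS p q a).smul_mem z hf

omit [GCtx.Aug A] in
theorem dpot {ι κ : Type} {p : ι → A.L} {q : κ → A.L} {a c : A.Γ} {f : Matrix κ ι A.S} {w : A.S}
    (hw : A.IsPot w) (hf : DegM p q a f) (h : A.en 6 + a = c) : DegM p q c (w • f) := by
  subst h
  intro i j
  refine A.mul_mem (hw (q i)) ?_
  rw [← vadd_vadd, A.H_vadd]
  exact hf i j

omit [GCtx.Aug A] in
theorem en_add' {a b c : ℤ} (h : a + b = c) : A.en a + A.en b = A.en c := by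
  rw [← A.en_add, h]

omit [GCtx.Aug A] in
theorem en_33 : A.en 3 + A.en (-3) = 0 := by rw [← A.en_add]; exact A.en_zero

omit [GCtx.Aug A] in
theorem en_33' : A.en (-3) + A.en 3 = 0 := by rw [← A.en_add]; exact A.en_zero

omit [GCtx.Aug A] in
theorem Md.iso {E : MF A W0} {d} {V : A.S} {X Y : MF A V} (e : X ≅ Y) (h : Md E d X) :
    Md E d Y := by
  obtain ⟨h1, h2, ⟨i⟩⟩ := h
  exact ⟨h1, h2, ⟨e.symm ≪≫ i⟩⟩

theorem MLim.isoL {X Y : ∀ n, MF A (W n)} {E : MF A W0} (e : ∀ᶠ n in l, Nonempty (X n ≅ Y n))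
    (h : MLim l X E) : MLim l Y E := by
  obtain ⟨d, h1, h2⟩ := h
  refine ⟨d, h1, ?_⟩
  filter_upwards [e, h2] with n ⟨i⟩ h3 using h3.iso i

theorem sdr_alg {S ι κ : Type} [CommRing S] [Fintype ι] [DecidableEq ι] [Fintype κ]
    [DecidableEq κ] {d h : Matrix ι ι S} {e e' : Matrix κ κ S} {s : Matrix ι κ S}
    {π : Matrix κ ι S} {w w' : S} (hd : d * d = w • 1)
    (he' : e' * e' = w' • 1) (h1 : d * s = s * e) (h2 : e * π = π * d) (h3 : π * s = 1)
    (h4 : 1 - s * π = d * h + h * d) (h5 : h * h = 0) (h6 : h * s = 0) (h7 : π * h = 0) :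
    let D := d + s * (e' - e) * π + (w' - w) • h
    D * D = w' • 1 ∧ D * s = s * e' ∧ e' * π = π * D ∧ 1 - s * π = D * h + h * D := by
  intro D
  have a1 : D * s = s * e' := by
    simp only [D, Matrix.add_mul, Matrix.smul_mul, h6, Matrix.mul_assoc, h3, h1, smul_zero,
      Matrix.mul_one, Matrix.mul_sub]
    abel
  have a2 : e' * π = π * D := by
    simp only [D, Matrix.mul_add, Matrix.mul_smul, h7, ← Matrix.mul_assoc, h3, ← h2, smul_zero,
      Matrix.one_mul, Matrix.sub_mul]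
    abel
  have a3 : 1 - s * π = D * h + h * D := by
    simp only [D, Matrix.add_mul, Matrix.mul_add, Matrix.smul_mul, Matrix.mul_smul, h5,
      Matrix.mul_assoc, h7, smul_zero, Matrix.mul_zero, add_zero]
    simp only [← Matrix.mul_assoc, h6, Matrix.zero_mul, add_zero, h4]
  refine ⟨?_, a1, a2, a3⟩
  have b1 : D * (s * π) = s * e' * π := by rw [← Matrix.mul_assoc, a1]
  have b2 : D * D * (s * π) = w' • (s * π) := by
    rw [Matrix.mul_assoc, b1, ← Matrix.mul_assoc, ← Matrix.mul_assoc, a1, Matrix.mul_assoc s, he']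
    simp
  have c1 : D * h = d * h := by
    simp only [D, Matrix.add_mul, Matrix.smul_mul, h5, Matrix.mul_assoc, h7, smul_zero,
      Matrix.mul_zero, add_zero]
  have c2 : h * d * h = h := by
    have := congrArg (· * h) h4
    simp only [Matrix.sub_mul, Matrix.add_mul, Matrix.mul_assoc, h7, h5, Matrix.mul_zero,
      Matrix.one_mul, sub_zero, zero_add] at this
    rw [Matrix.mul_assoc]; exact this.symm
  have c3 : π * (d * h) = 0 := by rw [← Matrix.mul_assoc, ← h2, Matrix.mul_assoc, h7]; simp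
  have c4 : D * (d * h) = w' • h := by
    simp only [D, Matrix.add_mul, Matrix.smul_mul, Matrix.mul_assoc, c3, Matrix.mul_zero,
      add_zero]
    rw [← Matrix.mul_assoc, hd, ← Matrix.mul_assoc, c2]
    simp [sub_smul]
  have b3 : D * D * (1 - s * π) = w' • (1 - s * π) := by
    rw [h4, Matrix.mul_add, Matrix.mul_assoc, c4, ← Matrix.mul_assoc, Matrix.mul_assoc D D h, c1,
      c4, Matrix.mul_smul, c1, Matrix.smul_mul, smul_add]
  calc D * D = D * D * (s * π) + D * D * (1 - s * π) := by rw [← Matrix.mul_add]; simp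
    _ = w' • 1 := by rw [b2, b3, ← smul_add]; simp

/-- limits go up along a deformation retraction -/
theorem MLim.sdr (hP : PotL l W W0) {X : ∀ n, MF A (W n)} {E E' : MF A W0}
    {s : Matrix E.ι E'.ι A.S} (hs : s ∈ Z0 E' E) {π : Matrix E'.ι E.ι A.S} (hπ : π ∈ Z0 E E')
    {h : Matrix E.ι E.ι A.S} (hh : IsDeg E E (A.en (-3)) h) (h3 : π * s = 1)
    (h4 : 1 - s * π = E.d * h + h * E.d) (h5 : h * h = 0) (h6 : h * s = 0) (h7 : π * h = 0)
    (H : MLim l X E') : MLim l X E := by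
  obtain ⟨e, c1, c2⟩ := H
  refine ⟨fun n => E.d + s * (e n - E'.d) * π + (W n - W0) • h, ?_, ?_⟩
  · refine (((Cv.const l E.d).add (((Cv.const l s).mmul (c1.sub (Cv.const l E'.d))).mmul
      (Cv.const l π))).add ((hP.cv.sub (Cv.const l W0)).rsmul (Cv.const l h))).congr'
      (fun _ => rfl) ?_
    simp
  · filter_upwards [c2] with n ⟨d1, d2, ⟨i⟩⟩
    obtain ⟨a0, a1, a2, a3⟩ := sdr_alg E.sq d2 hs.2 hπ.2 h3 h4 h5 h6 h7
    have hd : DegM E.p E.p (A.en 3) (E.d + s * (e n - E'.d) * π + (W n - W0) • h) :=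
      dadd (dadd E.deg (dmul (dmul hs.1 (dsub d1 E'.deg) (zero_add _)) hπ.1 (add_zero _)))
        (dpot (fun a => sub_mem (hP.pot n a) (hP.pot0 a)) hh (en_add' (by norm_num)))
    exact ⟨hd, a0, ⟨i ≪≫ isoOfHtpy (E := ⟨E'.ι, E'.p, e n, d1, d2⟩) (F := ⟨E.ι, E.p, _, hd, a0⟩)
      s ⟨hs.1, a1⟩ π ⟨hπ.1, a2⟩ h3 ⟨h, hh, a3⟩⟩⟩

theorem MLim.strict (hP : PotL l W W0) {X : ∀ n, MF A (W n)} {E E' : MF A W0}
    {s : Matrix E.ι E'.ι A.S} (hs : s ∈ Z0 E' E) {π : Matrix E'.ι E.ι A.S} (hπ : π ∈ Z0 E E')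
    (h3 : π * s = 1) (h4 : s * π = 1) (H : MLim l X E') : MLim l X E :=
  H.sdr hP hs hπ (IsDeg.zero _ _ _) h3 (by simp [h4]) (by simp) (by simp) (by simp)

/-- the augmentation is linear -/
noncomputable def evL (A : GCtx) [GCtx.Aug A] : A.S →ₗ[ℂ] ℂ where
  toFun := GCtx.Aug.ev
  map_add' := map_add _
  map_smul' z s := by rw [smul_eq, map_mul, GCtx.Aug.ev_cst]; rfl

theorem eq_cst {a : A.L} {s : A.S} (hs : s ∈ A.H a a) : s = GCtx.Aug.cst (GCtx.Aug.ev s) := by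
  by_cases h : s = 0
  · simp [h]
  · exact (GCtx.Aug.conn hs h rfl).2

theorem single_deg {ι : Type} [DecidableEq ι] {p : ι → A.L} {i j : ι}
    (hlab : A.en 3 +ᵥ p j = p i) (v : ℂ) :
    DegM p p (A.en (-3)) (Matrix.single j i (GCtx.Aug.cst v : A.S)) := by
  intro k m
  by_cases hkl : j = k ∧ i = m
  · obtain ⟨rfl, rfl⟩ := hkl
    rw [Matrix.single_apply_same, ← hlab, vadd_vadd, en_33', zero_vadd]
    exact GCtx.Aug.cst_mem _ _
  · rw [Matrix.single_apply_of_ne _ _ _ _ _ hkl]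
    exact zero_mem _

/-- the Schur complement -/
noncomputable def gD {ι : Type} [Fintype ι] [DecidableEq ι] (d : Matrix ι ι A.S) (i j : ι)
    (v : ℂ) : Matrix (K1aIx i j) (K1aIx i j) A.S :=
  (d - d * Matrix.single j i (GCtx.Aug.cst v : A.S) * d).submatrix Subtype.val Subtype.val

theorem gD_deg {ι : Type} [Fintype ι] [DecidableEq ι] {p : ι → A.L} {d : Matrix ι ι A.S}
    (hd : DegM p p (A.en 3) d) {i j : ι} (hlab : A.en 3 +ᵥ p j = p i) (v : ℂ) :
    DegM (fun k : K1aIx i j => p k.1) (fun k : K1aIx i j => p k.1) (A.en 3) (gD d i j v) :=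
  fun k m => dsub hd (dmul (dmul hd (single_deg hlab v) en_33) hd (zero_add _)) k.1 m.1

/-- Gauss elimination of a unit entry -/
noncomputable def gauss {V : A.S} (E : MF A V) {i j : E.ι} (hlab : A.en 3 +ᵥ E.p j = E.p i)
    (hij : i ≠ j) {v : ℂ} (hv : E.d i j * GCtx.Aug.cst v = 1) : MF A V where
  ι := K1aIx i j
  p k := E.p k.1
  d := gD E.d i j v
  deg := gD_deg E.deg hlab v
  sq := (K1a_gauss E.sq rfl hv hij).1

theorem gauss_sdr {V : A.S} (E : MF A V) {i j : E.ι} (hlab : A.en 3 +ᵥ E.p j = E.p i)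
    (hij : i ≠ j) {v : ℂ} (hv : E.d i j * GCtx.Aug.cst v = 1) :
    ∃ s ∈ Z0 (gauss E hlab hij hv) E, ∃ π ∈ Z0 E (gauss E hlab hij hv),
      ∃ h, IsDeg E E (A.en (-3)) h ∧ π * s = 1 ∧ 1 - s * π = E.d * h + h * E.d ∧ h * h = 0 ∧
        h * s = 0 ∧ π * h = 0 := by
  obtain ⟨-, h2, h3, h4, h5⟩ := K1a_gauss E.sq rfl hv hij
  have hh := single_deg hlab v
  have h0 : Matrix.single j i (GCtx.Aug.cst v : A.S) * Matrix.single j i (GCtx.Aug.cst v : A.S) =
    0 := K1a_hh hij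
  refine ⟨_, ⟨fun x y => dsub (done _) (dmul hh E.deg en_33') x y.1, h2⟩, _,
    ⟨fun x y => dsub (done _) (dmul E.deg hh en_33) x.1 y, h3⟩, _, hh, h4, h5, h0, ?_, ?_⟩
  · ext x y
    have : Matrix.single j i (GCtx.Aug.cst v : A.S) *
        (1 - Matrix.single j i (GCtx.Aug.cst v : A.S) * E.d) =
        Matrix.single j i (GCtx.Aug.cst v : A.S) := by
      rw [Matrix.mul_sub, ← Matrix.mul_assoc, h0]; simp
    exact (congrFun (congrFun this x) y.1).trans (K1a_h1 x y.1 y.2.1)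
  · ext x y
    have : (1 - E.d * Matrix.single j i (GCtx.Aug.cst v : A.S)) *
        Matrix.single j i (GCtx.Aug.cst v : A.S) = Matrix.single j i (GCtx.Aug.cst v : A.S) := by
      rw [Matrix.sub_mul, Matrix.mul_assoc, h0]; simp
    exact (congrFun (congrFun this x.1) y).trans (K1a_h2 x.1 y x.2.2)

theorem gauss_iso {V : A.S} (E : MF A V) {i j : E.ι} (hlab : A.en 3 +ᵥ E.p j = E.p i)
    (hij : i ≠ j) {v : ℂ} (hv : E.d i j * GCtx.Aug.cst v = 1) :
    Nonempty (gauss E hlab hij hv ≅ E) := by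
  obtain ⟨s, hs, π, hπ, h, hh, h1, h2, -⟩ := gauss_sdr E hlab hij hv
  exact ⟨isoOfHtpy s hs π hπ h1 ⟨h, hh, h2⟩⟩

theorem MLim.down {X : ∀ n, MF A (W n)} {E : MF A W0} {i j : E.ι}
    (hlab : A.en 3 +ᵥ E.p j = E.p i) (hij : i ≠ j) (hz : GCtx.Aug.ev (E.d i j) ≠ 0)
    (hv : E.d i j * GCtx.Aug.cst (GCtx.Aug.ev (E.d i j))⁻¹ = 1) (H : MLim l X E) :
    MLim l X (gauss E hlab hij hv) := by
  obtain ⟨d, c1, c2⟩ := H
  have t : Tendsto (fun n => GCtx.Aug.ev (d n i j)) l (𝓝 (GCtx.Aug.ev (E.d i j))) :=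
    ((c1.entry i j).map (evL A)).tendsto
  have e : ∀ v : ℂ, Matrix.single j i (GCtx.Aug.cst v : A.S) =
      v • Matrix.single j i (1 : A.S) := fun v => by
    rw [Matrix.smul_single, smul_eq, mul_one]
  refine ⟨fun n => gD (d n) i j (GCtx.Aug.ev (d n i j))⁻¹, ?_, ?_⟩
  · have := (c1.sub ((c1.mmul (Cv.smul (t.inv₀ hz)
      (Cv.const l (Matrix.single j i (1 : A.S))))).mmul c1)).submatrix
      (Subtype.val : K1aIx i j → E.ι) (Subtype.val : K1aIx i j → E.ι)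
    simp only [← e] at this
    exact this
  · filter_upwards [c2, t.eventually_ne hz] with n ⟨d1, d2, ⟨k⟩⟩ hn
    have hv' : d n i j * GCtx.Aug.cst (GCtx.Aug.ev (d n i j))⁻¹ = 1 := by
      have h1 := d1 i j
      rw [hlab] at h1
      rw [eq_cst h1, GCtx.Aug.ev_cst, ← map_mul, mul_inv_cancel₀ hn, map_one]
    obtain ⟨g⟩ := gauss_iso (⟨E.ι, E.p, d n, d1, d2⟩ : MF A (W n)) hlab hij hv'
    exact ⟨gD_deg d1 hlab _, (K1a_gauss d2 rfl hv' hij).1, ⟨k ≪≫ g.symm⟩⟩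

theorem to_min (hP : PotL l W W0) (E : MF A W0) : ∃ E' : MF A W0, dbar E' = 0 ∧
    Nonempty (E ≅ E') ∧ ∀ X : ∀ n, MF A (W n), MLim l X E ↔ MLim l X E' := by
  generalize hn : Fintype.card E.ι = n
  induction n using Nat.strong_induction_on generalizing E with
  | _ n ih =>
    by_cases h : dbar E = 0
    · exact ⟨E, h, ⟨Iso.refl _⟩, fun _ => Iff.rfl⟩
    obtain ⟨i, j, hz⟩ : ∃ i j, GCtx.Aug.ev (E.d i j) ≠ 0 := by
      by_contra hcon
      exact h (Matrix.ext fun i j => by_contra fun h' => hcon ⟨i, j, h'⟩)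
    have hlab : A.en 3 +ᵥ E.p j = E.p i := by
      by_contra h
      exact hz (ev_eq_zero (E.deg i j) h)
    have hij : i ≠ j := by
      rintro rfl
      have := congrArg A.ch hlab
      rw [A.ch_vadd, A.chΓ_en] at this
      omega
    have hv : E.d i j * GCtx.Aug.cst (GCtx.Aug.ev (E.d i j))⁻¹ = 1 := by
      have h1 := E.deg i j
      rw [hlab] at h1
      rw [eq_cst h1, GCtx.Aug.ev_cst, ← map_mul, mul_inv_cancel₀ hz, map_one]
    obtain ⟨E', h1, ⟨e⟩, h2⟩ := ih _ (hn ▸ Fintype.card_subtype_lt (x := i) (fun h => h.1 rfl))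
      (gauss E hlab hij hv) rfl
    obtain ⟨g⟩ := gauss_iso E hlab hij hv
    obtain ⟨s, hs, π, hπ, k, hk, k1, k2, k3, k4, k5⟩ := gauss_sdr E hlab hij hv
    exact ⟨E', h1, ⟨g.symm ≪≫ e⟩, fun X => ⟨fun H => (h2 X).1 (H.down hlab hij hz hv),
      fun H => ((h2 X).2 H).sdr hP hs hπ hk k1 k2 k3 k4 k5⟩⟩

theorem unip {ι : Type} [Fintype ι] [DecidableEq ι] {p : ι → A.L} {ν : Matrix ι ι A.S}
    (hν : DegM p p 0 ν) (h0 : ∀ i j, GCtx.Aug.ev (ν i j) = 0) :
    ∃ u, DegM p p 0 u ∧ u * (1 - ν) = 1 ∧ (1 - ν) * u = 1 := by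
  have h1 : ∀ i j, ν i j ≠ 0 → A.ch (p i) + 1 ≤ A.ch (p j) := by
    intro i j hne
    have h2 := hν i j
    rw [zero_vadd] at h2
    have h3 := GCtx.Aug.pos h2 hne
    rcases h3.eq_or_lt with h4 | h4
    · exact absurd (by rw [(GCtx.Aug.conn h2 hne h4.symm).2, h0, map_zero]) hne
    · omega
  have h2 : ∀ (k : ℕ) i j, (ν ^ k) i j ≠ 0 → A.ch (p i) + k ≤ A.ch (p j) := by
    intro k
    induction k with
    | zero =>
      intro i j hne
      have : i = j := by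
        by_contra h
        exact hne (by simp [h])
      simp [this]
    | succ k ih =>
      intro i j hne
      rw [pow_succ, Matrix.mul_apply] at hne
      obtain ⟨m, -, hm⟩ := Finset.exists_ne_zero_of_sum_ne_zero hne
      have := ih i m (left_ne_zero_of_mul hm)
      have := h1 m j (right_ne_zero_of_mul hm)
      push_cast
      omega
  obtain ⟨N, hN⟩ : ∃ N : ℕ, ∀ i j, A.ch (p j) < A.ch (p i) + N := by
    obtain ⟨b, hb⟩ := (Set.finite_range fun q : ι × ι => A.ch (p q.2) - A.ch (p q.1)).bddAbove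
    refine ⟨b.toNat + 1, fun i j => ?_⟩
    have := hb ⟨(i, j), rfl⟩
    have h3 := Int.self_le_toNat b
    simp only at this
    push_cast
    omega
  have h3 : ν ^ N = 0 := Matrix.ext fun i j => by_contra fun h => by
    have := h2 N i j h
    have := hN i j
    omega
  have h4 : ∀ k : ℕ, DegM p p 0 (ν ^ k) := by
    intro k
    induction k with
    | zero => simpa using done p
    | succ k ih => rw [pow_succ]; exact dmul ih hν (add_zero _)
  refine ⟨∑ k ∈ Finset.range N, ν ^ k, (DS p p 0).sum_mem fun k _ => h4 k, ?_, ?_⟩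
  · rw [geom_sum_mul_neg, h3, sub_zero]
  · rw [mul_neg_geom_sum, h3, sub_zero]

theorem unip_B0 {V : A.S} {E : MF A V} (hE : dbar E = 0) {f : Matrix E.ι E.ι A.S}
    (h : 1 - f ∈ B0 E E) : ∃ u, IsDeg E E 0 u ∧ u * f = 1 ∧ f * u = 1 := by
  have hd : ∀ i j, GCtx.Aug.ev (E.d i j) = 0 := fun i j => congrFun (congrFun hE i) j
  obtain ⟨u, h1, h2⟩ := unip (B0_le_Z0 E E h).1 (by
    obtain ⟨k, -, hk⟩ := h
    intro i j
    rw [hk]
    simp [Matrix.mul_apply, map_sum, hd])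
  rw [sub_sub_cancel] at h2
  exact ⟨u, h1, h2⟩

/-- homotopy equivalent minimal factorizations are isomorphic on the nose -/
theorem min_strict {V : A.S} {E F : MF A V} (hE : dbar E = 0) (hF : dbar F = 0) (e : E ≅ F) :
    ∃ s ∈ Z0 E F, ∃ π ∈ Z0 F E, π * s = 1 ∧ s * π = 1 := by
  obtain ⟨φ, ψ, h1, h2⟩ := e
  induction φ using hom_ind with
  | h φ hφ =>
  induction ψ using hom_ind with
  | h ψ hψ =>
  rw [mk_comp_mk, ← mk_one] at h1 h2
  obtain ⟨u, u1, u2, -⟩ := unip_B0 hE ((mk_eq_mk _ _).1 h1.symm)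
  obtain ⟨v, -, -, v2⟩ := unip_B0 hF ((mk_eq_mk _ _).1 h2.symm)
  have a1 : u * ψ * φ = 1 := by rw [Matrix.mul_assoc, u2]
  have a2 : u * ψ = ψ * v := by
    rw [← Matrix.mul_one (u * ψ), ← v2, Matrix.mul_assoc φ, ← Matrix.mul_assoc (u * ψ), a1,
      Matrix.one_mul]
  have a3 : φ * (u * ψ) = 1 := by rw [a2, ← Matrix.mul_assoc, v2]
  refine ⟨φ, hφ, u * ψ, ⟨u1.mul hψ.1 (add_zero _), ?_⟩, a1, a3⟩
  calc E.d * (u * ψ) = u * ψ * φ * E.d * (u * ψ) := by rw [a1, Matrix.one_mul]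
    _ = u * ψ * F.d * (φ * (u * ψ)) := by
      rw [Matrix.mul_assoc (u * ψ) φ, ← hφ.2]; simp only [Matrix.mul_assoc]
    _ = u * ψ * F.d := by rw [a3, Matrix.mul_one]

theorem MLim.isoR (hP : PotL l W W0) {X : ∀ n, MF A (W n)} {E F : MF A W0} (e : E ≅ F)
    (H : MLim l X E) : MLim l X F := by
  obtain ⟨E', h1, ⟨e1⟩, h2⟩ := to_min hP E
  obtain ⟨F', h3, ⟨e2⟩, h4⟩ := to_min hP F
  obtain ⟨s, hs, π, hπ, h5, h6⟩ := min_strict h1 h3 (e1.symm ≪≫ e ≪≫ e2)
  exact (h4 X).2 (((h2 X).1 H).strict hP hs hπ h5 h6)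

theorem MLim.zero (hP : PotL l W W0) {X : ∀ n, MF A (W n)} {E : MF A W0}
    (h : ∀ᶠ n in l, IsZero (X n)) (hE : IsZero E) : MLim l X E := by
  refine MLim.isoR hP (isZero_zeroMF.iso hE) ⟨fun _ => 0, Cv.const l _, ?_⟩
  filter_upwards [h] with n hn
  exact ⟨(zeroMF A (W n)).deg, (zeroMF A (W n)).sq, ⟨hn.iso isZero_zeroMF⟩⟩

theorem MLim.twist {X : ∀ n, MF A (W n)} {E : MF A W0} (γ : A.Γ) (H : MLim l X E) :
    MLim l (fun n => tw γ (X n)) (tw γ E) := by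
  obtain ⟨d, c1, c2⟩ := H
  refine ⟨fun n => sg (A.chΓ γ) • d n, c1.map (sg (A.chΓ γ) • LinearMap.id), ?_⟩
  filter_upwards [c2] with n ⟨d1, d2, ⟨k⟩⟩
  exact ⟨(tw γ (⟨E.ι, E.p, d n, d1, d2⟩ : MF A (W n))).deg,
    (tw γ (⟨E.ι, E.p, d n, d1, d2⟩ : MF A (W n))).sq, ⟨(twF γ).mapIso k⟩⟩

theorem MLim.shift {X : ∀ n, MF A (W n)} {E : MF A W0} (k : ℤ) (H : MLim l X E) :
    MLim l (fun n => (X n)⟦k⟧) (E⟦k⟧) := H.twist (A.en (3 * k))

end Vale.Agent.P287T.G3.Mx
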