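import Vale.Agent.P287T.Op.Mx2

/-!
# Limits of matrix factorizations: semicontinuity, block models of triangles, extensions
-/

open Vale.Agent.P294 Vale.Agent.P287T.Op Filter Topology CategoryTheory CategoryTheory.Limits
  CategoryTheory.Pretriangulated

namespace Vale.Agent.P287T.G3.Mx

attribute [local instance] algS

variable {A : GCtx} {I : Type} {W : I → A.S} {W0 V : A.S}

section alg

variable {S ι κ : Type} [CommRing S] [Algebra ℂ S] [Fintype ι] [DecidableEq ι] [Fintype κ]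
  [DecidableEq κ]

theorem sc_comm (a : Matrix ι ι S) (f : Matrix ι κ S) (b : Matrix κ κ S) (z : ℂ) :
    Matrix.fromBlocks a (z • f) 0 b * Matrix.fromBlocks (z • 1) 0 0 1 =
      Matrix.fromBlocks (z • 1) 0 0 1 * Matrix.fromBlocks a f 0 b := by
  simp [Matrix.fromBlocks_multiply]

theorem sc_comm' (a : Matrix ι ι S) (f : Matrix ι κ S) (b : Matrix κ κ S) {z : ℂ} (hz : z ≠ 0) :
    Matrix.fromBlocks a f 0 b * Matrix.fromBlocks (z⁻¹ • 1) 0 0 1 =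
      Matrix.fromBlocks (z⁻¹ • 1) 0 0 1 * Matrix.fromBlocks a (z • f) 0 b := by
  simp [Matrix.fromBlocks_multiply, smul_smul, mul_inv_cancel₀ hz]

theorem sc_inv {z w : ℂ} (h : z * w = 1) :
    (Matrix.fromBlocks (z • 1) 0 0 1 : Matrix (ι ⊕ κ) (ι ⊕ κ) S) *
      Matrix.fromBlocks (w • 1) 0 0 1 = 1 := by
  simp [Matrix.fromBlocks_multiply, smul_smul, h, mul_comm w z]

omit [Algebra ℂ S] in
theorem bl_inl (a : Matrix ι ι S) (f : Matrix ι κ S) (b : Matrix κ κ S) :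
    Matrix.fromBlocks a f 0 b * (Matrix.fromRows 1 0 : Matrix (ι ⊕ κ) ι S) =
      (Matrix.fromRows 1 0 : Matrix (ι ⊕ κ) ι S) * a := by
  simp [Matrix.fromBlocks_mul_fromRows, Matrix.fromRows_mul]

omit [Algebra ℂ S] in
theorem bl_snd (a : Matrix ι ι S) (f : Matrix ι κ S) (b : Matrix κ κ S) :
    b * (Matrix.fromCols 0 1 : Matrix κ (ι ⊕ κ) S) =
      (Matrix.fromCols 0 1 : Matrix κ (ι ⊕ κ) S) * Matrix.fromBlocks a f 0 b := by
  simp [Matrix.fromCols_mul_fromBlocks, Matrix.mul_fromCols]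

end alg

/-- isomorphism given by mutually inverse matrices -/
noncomputable def isoS {E F : MF A V} (φ : Matrix F.ι E.ι A.S) (hφ : φ ∈ Z0 E F)
    (ψ : Matrix E.ι F.ι A.S) (hψ : ψ ∈ Z0 F E) (h1 : ψ * φ = 1) (h2 : φ * ψ = 1) : E ≅ F :=
  isoOfHtpy φ hφ ψ hψ h1 (by rw [h2, sub_self]; exact zero_mem _)

/-- block upper triangular factorization -/
noncomputable def blk (E F : MF A V) (f : Matrix E.ι F.ι A.S) (h1 : DegM F.p E.p (A.en 3) f)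
    (h2 : E.d * f + f * F.d = 0) : MF A V where
  ι := E.ι ⊕ F.ι
  p := Sum.elim E.p F.p
  d := Matrix.fromBlocks E.d f 0 F.d
  deg := DegM.fromBlocks E.deg h1 (DegM.zero _ _ _) F.deg
  sq := by
    rw [Matrix.fromBlocks_multiply]
    simp [E.sq, F.sq, ← Matrix.fromBlocks_one, Matrix.fromBlocks_smul, h2]

theorem blk_inl (E F : MF A V) (f) (h1 h2) :
    (Matrix.fromRows 1 0 : Matrix (E.ι ⊕ F.ι) E.ι A.S) ∈ Z0 E (blk E F f h1 h2) :=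
  ⟨DegM.fromRows (done _) (DegM.zero _ _ _), bl_inl _ _ _⟩

theorem blk_snd (E F : MF A V) (f) (h1 h2) :
    (Matrix.fromCols 0 1 : Matrix F.ι (E.ι ⊕ F.ι) A.S) ∈ Z0 (blk E F f h1 h2) F :=
  ⟨DegM.fromCols (DegM.zero _ _ _) (done _), bl_snd _ _ _⟩

theorem sh_mem {E F : MF A V} {f : Matrix E.ι F.ι A.S} :
    f ∈ Z0 F (tw (A.en (3 * 1)) E) ↔ DegM F.p E.p (A.en 3) f ∧ E.d * f + f * F.d = 0 := by
  rw [mem_Z0, m3_tw5]
  refine and_congr (forall₂_congr fun i j => ?_) ?_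
  · rw [zero_vadd, tw_p, ← A.H_vadd (A.en 3), vadd_vadd, mul_one, add_neg_cancel, zero_vadd]
  · change -E.d * f = f * F.d ↔ _
    rw [Matrix.neg_mul, neg_eq_iff_add_eq_zero]

theorem blk_tri (E F : MF A V) (f) (h1 h2) :
    Triangle.mk (mk _ (blk_inl E F f h1 h2)) (mk _ (blk_snd E F f h1 h2))
      (mk (F := tw (A.en (3 * 1)) E) (-f) (neg_mem (sh_mem.2 ⟨h1, h2⟩)) : F ⟶ E⟦(1 : ℤ)⟧) ∈
      distTriang (MF A V) := by
  let F' : MF A V := ⟨F.ι, fun i => A.en 3 +ᵥ F.p i, -F.d,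
    (DegM.shift (δ := A.en 3) F.deg).neg, by simp [F.sq]⟩
  have hf : f ∈ Z0 F' E := ⟨fun i j => by rw [zero_vadd]; exact h1 i j, by
    change E.d * f = f * -F.d
    rw [Matrix.mul_neg, eq_neg_iff_add_eq_zero, h2]⟩
  have hT := tri_rot.1 (stdTri_mem F' E f hf)
  have e1 : (fun i => -A.en 3 +ᵥ (A.en 3 +ᵥ F.p i)) = F.p := by
    funext i; rw [vadd_vadd, neg_add_cancel, zero_vadd]
  let b : blk E F f h1 h2 ≅ cone F' E f hf :=
    idIso (ι := E.ι ⊕ F.ι) (p := Sum.elim E.p F.p)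
      (p' := Sum.elim E.p fun i => -A.en 3 +ᵥ (A.en 3 +ᵥ F.p i))
      (d := Matrix.fromBlocks E.d f 0 F.d) (d' := Matrix.fromBlocks E.d f 0 (- -F.d))
      (h1 := (blk E F f h1 h2).deg) (h2 := (blk E F f h1 h2).sq) (h1' := (cone F' E f hf).deg)
      (h2' := (cone F' E f hf).sq) (by rw [e1]) (by rw [neg_neg])
  let c : F ≅ tw (A.en (3 * 1)) F' :=
    idIso (ι := F.ι) (p := F.p) (p' := fun i => -A.en (3 * 1) +ᵥ (A.en 3 +ᵥ F.p i))
      (d := F.d) (d' := (tw (A.en (3 * 1)) F').d) (h1 := F.deg) (h2 := F.sq)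
      (h1' := (tw (A.en (3 * 1)) F').deg) (h2' := (tw (A.en (3 * 1)) F').sq) e1.symm
      (by rw [m3_tw5]; exact (neg_neg _).symm)
  refine tri_iso hT (Iso.refl _) b c ?_ ?_ ?_
  · rw [Iso.refl_hom, Category.id_comp]
    exact mk_congr _ (Matrix.one_mul _)
  · exact mk_congr _ ((Matrix.one_mul _).trans (Matrix.mul_one _).symm)
  · rw [Iso.refl_hom, CategoryTheory.Functor.map_id]
    exact (Category.comp_id _).trans (mk_congr _ (Matrix.mul_one _).symm)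

theorem blk_a2b (E F : MF A V) (f) (h1 h2) : A2bTr E (blk E F f h1 h2) F :=
  ⟨_, _, _, blk_tri E F f h1 h2⟩

theorem a2b_iso {C : Type*} [Category C] [Preadditive C] [HasZeroObject C] [HasShift C ℤ]
    [∀ n : ℤ, (shiftFunctor C n).Additive] [Pretriangulated C] {X Y Z X' Y' Z' : C}
    (t : A2bTr X Y Z) (a : X ≅ X') (b : Y ≅ Y') (c : Z ≅ Z') : A2bTr X' Y' Z' := by
  obtain ⟨f, g, d, h⟩ := t
  exact ⟨a.inv ≫ f ≫ b.hom, b.inv ≫ g ≫ c.hom, c.inv ≫ d ≫ a.hom⟦(1 : ℤ)⟧',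
    tri_iso h a.symm b.symm c.symm (by simp) (by simp) (by simp [← Functor.map_comp])⟩

/-- every extension has a block model -/
theorem exists_blk {E X F : MF A V} (t : A2bTr E X F) :
    ∃ f h1 h2, Nonempty (X ≅ blk E F f h1 h2) := by
  obtain ⟨a, b, δ, hT⟩ := t
  induction δ using hom_ind with
  | h g hg =>
  obtain ⟨h1, h2⟩ := (sh_mem (E := E) (F := F) (f := -g)).1 (neg_mem hg)
  refine ⟨-g, h1, h2, Cc.uniq ⟨b, _, tri_rot.1 hT⟩ ?_⟩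
  have h3 := tri_rot.1 (blk_tri E F (-g) h1 h2)
  have e : mk (- -g) (neg_mem (neg_mem hg)) = mk g hg := mk_congr _ (neg_neg g)
  exact e ▸ ⟨_, _, h3⟩

variable [GCtx.Aug A]

/-- rescaling the gluing map -/
noncomputable def blkScale (E F : MF A V) (f) (h1 h2) {z : ℂ} (hz : z ≠ 0) :
    blk E F f h1 h2 ≅ blk E F (z • f) (dsmul z h1)
      (by rw [Matrix.mul_smul, Matrix.smul_mul, ← smul_add, h2, smul_zero]) :=
  isoS (Matrix.fromBlocks (z • 1) 0 0 1 : Matrix (E.ι ⊕ F.ι) (E.ι ⊕ F.ι) A.S)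
    ⟨DegM.fromBlocks (dsmul z (done _)) (DegM.zero _ _ _) (DegM.zero _ _ _) (done _),
      sc_comm _ _ _ z⟩
    (Matrix.fromBlocks (z⁻¹ • 1) 0 0 1 : Matrix (E.ι ⊕ F.ι) (E.ι ⊕ F.ι) A.S)
    ⟨DegM.fromBlocks (dsmul _ (done _)) (DegM.zero _ _ _) (DegM.zero _ _ _) (done _),
      sc_comm' _ _ _ hz⟩
    (sc_inv (inv_mul_cancel₀ hz)) (sc_inv (mul_inv_cancel₀ hz))

variable {𝒰 : Ultrafilter I}

theorem MLim.ext (hP : PotL 𝒰 W W0) {Y X Z : ∀ n, MF A (W n)} {E F : MF A W0}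
    (t : ∀ᶠ n in (𝒰 : Filter I), A2bTr (Y n) (X n) (Z n)) (h1 : MLim 𝒰 Y E) (h2 : MLim 𝒰 Z F) :
    ∃ G, A2bTr E G F ∧ MLim 𝒰 X G := by
  obtain ⟨a, a1, a2⟩ := h1
  obtain ⟨b, b1, b2⟩ := h2
  have key : ∀ᶠ n in (𝒰 : Filter I), ∃ f : Matrix E.ι F.ι A.S, f ∈ DS F.p E.p (A.en 3) ∧
      a n * f + f * b n = 0 ∧ ∀ z : ℂ, z ≠ 0 → ∃ h1 h2, Nonempty (X n ≅
        (⟨E.ι ⊕ F.ι, Sum.elim E.p F.p, Matrix.fromBlocks (a n) (z • f) 0 (b n), h1, h2⟩ :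
          MF A (W n))) := by
    filter_upwards [t, a2, b2] with n tn ⟨d1, d2, ⟨i⟩⟩ ⟨e1, e2, ⟨j⟩⟩
    obtain ⟨f, f1, f2, ⟨k⟩⟩ := exists_blk (a2b_iso tn i (Iso.refl _) j)
    exact ⟨f, f1, f2, fun z hz => ⟨_, _, ⟨k ≪≫ blkScale _ _ f f1 f2 hz⟩⟩⟩
  obtain ⟨f, hf⟩ := key.choice
  have := hP.fin.ds F.p E.p (A.en 3)
  obtain ⟨z, g, hz, hg⟩ := exists_rescale 𝒰 (DS F.p E.p (A.en 3)) f (hf.mono fun n h => h.1)
  have g1 : g ∈ DS F.p E.p (A.en 3) :=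
    hg.mem _ (hf.mono fun n h => Submodule.smul_mem _ _ h.1)
  have g2 : E.d * g + g * F.d = 0 :=
    ((a1.mmul hg).add (hg.mmul b1)).uniq (Cv.const _ 0) (hf.mono fun n h => by
      rw [Matrix.mul_smul, Matrix.smul_mul, ← smul_add, h.2.1, smul_zero])
  exact ⟨blk E F g g1 g2, blk_a2b E F g g1 g2,
    fun n => Matrix.fromBlocks (a n) (z n • f n) 0 (b n), a1.fromBlocks hg (Cv.const _ 0) b1,
    hf.mono fun n h => h.2.2 (z n) (hz n)⟩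

/-- closed maps of degree zero -/
def Zs {ι κ : Type} [Fintype ι] [Fintype κ] (p : ι → A.L) (q : κ → A.L) (d : Matrix ι ι A.S)
    (e : Matrix κ κ A.S) : Submodule ℂ (Matrix κ ι A.S) where
  carrier := {f | DegM p q 0 f ∧ e * f = f * d}
  zero_mem' := ⟨DegM.zero _ _ _, by simp⟩
  add_mem' ha hb := ⟨dadd ha.1 hb.1, by rw [Matrix.mul_add, Matrix.add_mul, ha.2, hb.2]⟩
  smul_mem' z _ h := ⟨dsmul z h.1, by rw [Matrix.mul_smul, Matrix.smul_mul, h.2]⟩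

/-- null-homotopic maps of degree zero -/
def Bs {ι κ : Type} [Fintype ι] [Fintype κ] (p : ι → A.L) (q : κ → A.L) (d : Matrix ι ι A.S)
    (e : Matrix κ κ A.S) : Submodule ℂ (Matrix κ ι A.S) where
  carrier := {f | ∃ h, DegM p q (A.en (-3)) h ∧ f = e * h + h * d}
  zero_mem' := ⟨0, DegM.zero _ _ _, by simp⟩
  add_mem' := by
    rintro a b ⟨h, hh, rfl⟩ ⟨k, hk, rfl⟩
    exact ⟨h + k, dadd hh hk, by rw [Matrix.mul_add, Matrix.add_mul]; abel⟩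
  smul_mem' := by
    rintro z a ⟨h, hh, rfl⟩
    exact ⟨z • h, dsmul z hh, by rw [Matrix.mul_smul, Matrix.smul_mul, smul_add]⟩

theorem MLim.hom (hP : PotL 𝒰 W W0) {X Y : ∀ n, MF A (W n)} {E F : MF A W0}
    (h1 : MLim 𝒰 X E) (h2 : MLim 𝒰 Y F) (h0 : ∀ f : E ⟶ F, f = 0) :
    ∀ᶠ n in (𝒰 : Filter I), ∀ f : X n ⟶ Y n, f = 0 := by
  obtain ⟨a, a1, a2⟩ := h1
  obtain ⟨b, b1, b2⟩ := h2
  by_contra hcon
  have := hP.fin.ds E.p F.p 0
  obtain ⟨g, g0, g1, g2, g3⟩ := exists_riesz 𝒰 (DS E.p F.p 0) (fun n => Zs E.p F.p (a n) (b n))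
    (fun n => Bs E.p F.p (a n) (b n)) (fun n f hf => hf.1) (by
      filter_upwards [Ultrafilter.eventually_not.2 hcon, a2, b2] with n hn ⟨d1, d2, ⟨i⟩⟩
        ⟨e1, e2, ⟨j⟩⟩ hle
      refine hn fun f => ?_
      have : i.inv ≫ f ≫ j.hom = 0 := by
        induction i.inv ≫ f ≫ j.hom using hom_ind with
        | h φ hφ => exact (mk_eq_zero hφ).2 (hle hφ)
      simpa using this)
  have z0 : g0 ∈ Z0 E F := ⟨g2.mem (DS E.p F.p 0) (Eventually.of_forall fun n => (g1 n).1),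
    (b1.mmul g2).uniq (g2.mmul a1) (Eventually.of_forall fun n => (g1 n).2)⟩
  obtain ⟨k, hk, hk'⟩ := (mk_eq_zero z0).1 (h0 _)
  refine g3 (fun n => b n * k + k * a n) ?_
    (hk' ▸ (b1.mmul (Cv.const _ k)).add ((Cv.const _ k).mmul a1))
  filter_upwards [a2, b2] with n ⟨d1, d2, _⟩ ⟨e1, e2, _⟩
  exact ⟨⟨k, hk, rfl⟩, B0_le_Z0 (⟨E.ι, E.p, a n, d1, d2⟩ : MF A (W n)) ⟨F.ι, F.p, b n, e1, e2⟩
    ⟨k, hk, rfl⟩⟩

end Vale.Agent.P287T.G3.Mx
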