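import Vale.Agent.P287T.Op.Mx3

/-!
# Limits of matrix factorizations: the Langton move and the limit structure
-/

open Vale.Agent.P294 Vale.Agent.P287T.Op Filter Topology CategoryTheory CategoryTheory.Limits
  CategoryTheory.Pretriangulated

namespace Vale.Agent.P287T.G3.Mx

theorem ev_choice {I : Type} {l : Filter I} {β : I → Type*} [∀ n, Nonempty (β n)]
    {r : ∀ n, β n → Prop} (h : ∀ᶠ n in l, ∃ y, r n y) : ∃ f : ∀ n, β n, ∀ᶠ n in l, r n (f n) := by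
  have : ∀ n, ∃ y : β n, (∃ y, r n y) → r n y := fun n => by
    by_cases hn : ∃ y, r n y
    · exact ⟨hn.choose, fun _ => hn.choose_spec⟩
    · exact ⟨Classical.arbitrary _, fun h => absurd h hn⟩
  choose f hf using this
  exact ⟨f, h.mono hf⟩

theorem pen_min {k m : ℕ} (Φ : (Fin k → ℂ) → (Fin m → ℂ)) (hΦ : Continuous Φ) :
    ∃ y, ‖y‖ ≤ √‖Φ 0‖ ∧ ‖Φ y‖ ≤ ‖Φ 0‖ ∧
      ∀ x, ‖x‖ ≤ 1 → ‖Φ y‖ + √‖Φ 0‖ * ‖y‖ ≤ ‖Φ x‖ + √‖Φ 0‖ * ‖x‖ := by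
  by_cases h0 : ‖Φ 0‖ = 0
  · exact ⟨0, by simp, le_rfl, fun x _ => by simp [h0]⟩
  have hp : 0 < √‖Φ 0‖ := Real.sqrt_pos.2 (lt_of_le_of_ne (norm_nonneg _) (Ne.symm h0))
  obtain ⟨y, -, hy⟩ := (isCompact_closedBall (0 : Fin k → ℂ) 1).exists_isMinOn
    ⟨0, by simp⟩ (f := fun x => ‖Φ x‖ + √‖Φ 0‖ * ‖x‖) (by fun_prop)
  have h1 : ‖Φ y‖ + √‖Φ 0‖ * ‖y‖ ≤ ‖Φ 0‖ := by simpa using hy (show (0 : Fin k → ℂ) ∈ _ by simp)
  have h2 := Real.mul_self_sqrt (norm_nonneg (Φ 0))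
  refine ⟨y, le_of_mul_le_mul_left (by linarith [norm_nonneg (Φ y)]) hp, ?_, fun x hx => ?_⟩
  · nlinarith [norm_nonneg y]
  · exact hy (show x ∈ _ by simpa using hx)

/-- gauge fixing along an ultrafilter -/
theorem gauge {I M N : Type} [AddCommGroup M] [Module ℂ M] [AddCommGroup N] [Module ℂ N]
    (𝒰 : Ultrafilter I) (H : Submodule ℂ M) [Module.Finite ℂ H] (V : Submodule ℂ N)
    [Module.Finite ℂ V] (Φ : I → M → N) (L : M → N)
    (hV : ∀ᶠ n in (𝒰 : Filter I), ∀ h ∈ H, Φ n h ∈ V)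
    (hc : ∀ n (J : Type) (l : Filter J) (h : J → M) (h0 : M), Cv l h h0 →
      Cv l (fun j => Φ n (h j)) (Φ n h0))
    (h0 : Cv 𝒰 (fun n => Φ n 0) 0)
    (hd : ∀ (h : I → M) (μ : I → ℂ) (k : M), Cv 𝒰 h 0 → Tendsto μ 𝒰 (𝓝 0) →
      (∀ᶠ n in (𝒰 : Filter I), μ n ≠ 0) →
      Cv 𝒰 (fun n => (μ n)⁻¹ • (Φ n (h n - μ n • k) - Φ n (h n))) (-L k)) :
    ∃ h : I → M, (∀ n, h n ∈ H) ∧ Cv 𝒰 h 0 ∧ ((∀ᶠ n in (𝒰 : Filter I), Φ n (h n) = 0) ∨
      ∃ (μ : I → ℂ) (e : N), Tendsto μ 𝒰 (𝓝 0) ∧ (∀ᶠ n in (𝒰 : Filter I), μ n ≠ 0) ∧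
        Cv 𝒰 (fun n => (μ n)⁻¹ • Φ n (h n)) e ∧ ∀ k ∈ H, e ≠ L k) := by
  obtain ⟨k, ρ, j, h1, h2, h3⟩ := exists_coord H
  obtain ⟨m, ρ', j', h1', -, h3'⟩ := exists_coord V
  have hcont : ∀ n, Continuous fun y => ρ' (Φ n (j y)) := fun n =>
    continuous_iff_continuousAt.2 fun y =>
      ((hc n _ (𝓝 y) _ _ ((Cv.of_tendsto_pi tendsto_id).map j)).map ρ').tendsto
  choose y y1 y2 y3 using fun n => pen_min _ (hcont n)
  simp only [map_zero] at y1 y2 y3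
  have t0 : Tendsto (fun n => ‖ρ' (Φ n 0)‖) 𝒰 (𝓝 0) := by simpa using (h0.map ρ').tendsto.norm
  have t1 : Tendsto (fun n => √‖ρ' (Φ n 0)‖) 𝒰 (𝓝 0) := by simpa using t0.sqrt
  have t2 : Tendsto y 𝒰 (𝓝 0) := squeeze_zero_norm y1 t1
  have c2 : Cv 𝒰 (fun n => j (y n)) 0 := by simpa using (Cv.of_tendsto_pi t2).map j
  refine ⟨fun n => j (y n), fun n => h2 _, c2, ?_⟩
  set μ : I → ℝ := fun n => ‖ρ' (Φ n (j (y n)))‖ with hμ
  have t3 : Tendsto μ 𝒰 (𝓝 0) := squeeze_zero (fun n => norm_nonneg _) y2 t0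
  have t4 : Tendsto (fun n => (μ n : ℂ)) 𝒰 (𝓝 0) :=
    (Complex.continuous_ofReal.tendsto 0).comp t3
  rcases 𝒰.em (fun n => μ n = 0) with hz | hz
  · left
    filter_upwards [hz, hV] with n hn hv
    rw [← h1' _ (hv _ (h2 _)), norm_eq_zero.1 hn, map_zero]
  right
  have hz' : ∀ᶠ n in (𝒰 : Filter I), (μ n : ℂ) ≠ 0 := hz.mono fun n => Complex.ofReal_ne_zero.2
  obtain ⟨e, he⟩ := ultra_lim 𝒰 (fun n => (μ n : ℂ)⁻¹ • ρ' (Φ n (j (y n))))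
    (hz.mono fun n hn => by
      rw [norm_smul, norm_inv, Complex.norm_real, norm_norm]
      exact (inv_mul_cancel₀ hn).le)
  have ce : Cv 𝒰 (fun n => (μ n : ℂ)⁻¹ • Φ n (j (y n))) (j' e) :=
    ((Cv.of_tendsto_pi he).map j').congr (hV.mono fun n hv => by
      rw [map_smul, h1' _ (hv _ (h2 _))])
  refine ⟨fun n => μ n, j' e, t4, hz', ce, fun x hx hL => ?_⟩
  have c5 := ((ce.add (hd _ _ x c2 t4 hz')).map ρ').tendsto.norm
  rw [hL, add_neg_cancel, map_zero, norm_zero] at c5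
  have t6 : Tendsto (fun n => y n - (μ n : ℂ) • ρ x) 𝒰 (𝓝 0) := by
    simpa using t2.sub (t4.smul_const (ρ x))
  have t7 := c5.add (t1.mul_const ‖ρ x‖)
  rw [zero_mul, add_zero] at t7
  have t8 : Tendsto (fun n => ‖y n - (μ n : ℂ) • ρ x‖) 𝒰 (𝓝 0) := by simpa using t6.norm
  obtain ⟨n, a1, a2, a3⟩ := ((t7.eventually (gt_mem_nhds one_pos)).and
    ((t8.eventually (gt_mem_nhds one_pos)).and hz)).exists
  have a4 := y3 n _ a2.le
  have hp : 0 < μ n := lt_of_le_of_ne (norm_nonneg _) (Ne.symm a3)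
  rw [← smul_add, add_sub_cancel, map_smul, norm_smul, norm_inv, Complex.norm_real,
    Real.norm_of_nonneg hp.le] at a1
  rw [map_sub, map_smul, h1 x hx] at a4
  have a5 : ‖y n - (μ n : ℂ) • ρ x‖ ≤ ‖y n‖ + μ n * ‖ρ x‖ := by
    refine (norm_sub_le _ _).trans ?_
    rw [norm_smul, Complex.norm_real, Real.norm_of_nonneg hp.le]
  have a6 := mul_lt_mul_of_pos_left a1 hp
  rw [mul_add, ← mul_assoc, mul_inv_cancel₀ hp.ne', one_mul, mul_one] at a6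
  have a7 := mul_le_mul_of_nonneg_left a5 (Real.sqrt_nonneg ‖ρ' (Φ n 0)‖)
  change μ n + _ ≤ _ at a4
  nlinarith

section alg

variable {S ι κ : Type} [CommRing S] [Algebra ℂ S] [Fintype ι] [DecidableEq ι] [Fintype κ]
  [DecidableEq κ]

/-- the lower left block after the gauge transformation `h` -/
def gPhi (D : Matrix (ι ⊕ κ) (ι ⊕ κ) S) (h : Matrix κ ι S) : Matrix κ ι S :=
  D.toBlocks₂₁ + h * D.toBlocks₁₁ - D.toBlocks₂₂ * h - h * D.toBlocks₁₂ * h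

theorem gauge_conj (D : Matrix (ι ⊕ κ) (ι ⊕ κ) S) (h : Matrix κ ι S) {z w : ℂ} (hz : z * w = 1) :
    (Matrix.fromBlocks (z • h) (z • 1) 1 0 : Matrix (κ ⊕ ι) (ι ⊕ κ) S) * D *
      (Matrix.fromBlocks 0 1 (w • 1) (-h) : Matrix (ι ⊕ κ) (κ ⊕ ι) S) =
      Matrix.fromBlocks (h * D.toBlocks₁₂ + D.toBlocks₂₂) (z • gPhi D h) (w • D.toBlocks₁₂)
        (D.toBlocks₁₁ - D.toBlocks₁₂ * h) := by
  conv_lhs => rw [← Matrix.fromBlocks_toBlocks D]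
  simp only [Matrix.fromBlocks_multiply, gPhi, Matrix.smul_mul, Matrix.mul_smul, Matrix.one_mul,
    Matrix.mul_one, Matrix.zero_mul, Matrix.mul_zero, zero_add, add_zero, ← smul_add, smul_smul,
    mul_comm w z, hz, one_smul, Matrix.mul_neg, Matrix.add_mul, sub_eq_add_neg, ← smul_neg,
    neg_add]
  congr 2
  abel

theorem gauge_inv (h : Matrix κ ι S) {z w : ℂ} (hz : z * w = 1) :
    (Matrix.fromBlocks (z • h) (z • 1) 1 0 : Matrix (κ ⊕ ι) (ι ⊕ κ) S) *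
      (Matrix.fromBlocks 0 1 (w • 1) (-h) : Matrix (ι ⊕ κ) (κ ⊕ ι) S) = 1 := by
  simp [Matrix.fromBlocks_multiply, smul_smul, hz, mul_comm w z]

theorem gauge_inv' (h : Matrix κ ι S) {z w : ℂ} (hz : z * w = 1) :
    (Matrix.fromBlocks 0 1 (w • 1) (-h) : Matrix (ι ⊕ κ) (κ ⊕ ι) S) *
      (Matrix.fromBlocks (z • h) (z • 1) 1 0 : Matrix (κ ⊕ ι) (ι ⊕ κ) S) = 1 := by
  simp [Matrix.fromBlocks_multiply, smul_smul, hz]

omit [DecidableEq ι] [DecidableEq κ] in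
theorem gPhi_diff (D : Matrix (ι ⊕ κ) (ι ⊕ κ) S) (h k : Matrix κ ι S) {μ : ℂ} (hμ : μ ≠ 0) :
    μ⁻¹ • (gPhi D (h - μ • k) - gPhi D h) = -(k * D.toBlocks₁₁ - D.toBlocks₂₂ * k) +
      (k * D.toBlocks₁₂ * h + h * D.toBlocks₁₂ * k - μ • (k * D.toBlocks₁₂ * k)) := by
  rw [inv_smul_eq_iff₀ hμ]
  simp only [gPhi, Matrix.sub_mul, Matrix.mul_sub, Matrix.smul_mul, Matrix.mul_smul, smul_add,
    smul_sub, smul_neg]
  abel

omit [Algebra ℂ S] in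
theorem blocks_sq {a : Matrix ι ι S} {f : Matrix ι κ S} {g : Matrix κ ι S} {b : Matrix κ κ S}
    {w : S} (h : Matrix.fromBlocks a f g b * Matrix.fromBlocks a f g b = w • 1) :
    a * a + f * g = w • 1 ∧ a * f + f * b = 0 ∧ g * a + b * g = 0 ∧ g * f + b * b = w • 1 := by
  rw [Matrix.fromBlocks_multiply, ← Matrix.fromBlocks_one, Matrix.fromBlocks_smul,
    Matrix.fromBlocks_inj] at h
  simpa using h

end alg

attribute [local instance] algS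

variable {A : GCtx} [GCtx.Aug A] {I : Type} {W : I → A.S} {W0 V : A.S} {𝒰 : Ultrafilter I}

omit [GCtx.Aug A] in
theorem conj_md {E : MF A V} {κ : Type} [Fintype κ] [DecidableEq κ] {q : κ → A.L}
    {g : Matrix κ E.ι A.S} {g' : Matrix E.ι κ A.S} (hg : DegM E.p q 0 g) (hg' : DegM q E.p 0 g')
    (h1 : g * g' = 1) (h2 : g' * g = 1) {D : Matrix κ κ A.S} (hD : g * E.d * g' = D) :
    ∃ a b, Nonempty (E ≅ (⟨κ, q, D, a, b⟩ : MF A V)) := by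
  subst hD
  have a : DegM q q (A.en 3) (g * E.d * g') :=
    dmul (dmul hg E.deg (zero_add _)) hg' (add_zero _)
  have e1 : g * E.d * g' * g = g * E.d := by rw [Matrix.mul_assoc, h2, Matrix.mul_one]
  have e2 : E.d * g' = g' * (g * E.d * g') := by
    rw [← Matrix.mul_assoc, ← Matrix.mul_assoc, h2, Matrix.one_mul]
  have b : g * E.d * g' * (g * E.d * g') = V • 1 := by
    rw [Matrix.mul_assoc (g * E.d), ← e2, Matrix.mul_assoc, ← Matrix.mul_assoc E.d, E.sq]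
    simp [h1]
  exact ⟨a, b, ⟨isoS (F := ⟨κ, q, _, a, b⟩) g ⟨hg, e1⟩ g' ⟨hg', e2⟩ h2 h1⟩⟩

theorem gauge_md {E F : MF A W0} {D : Matrix (E.ι ⊕ F.ι) (E.ι ⊕ F.ι) A.S} {f f1 f2} {X : MF A V}
    (hX : Md (blk E F f f1 f2) D X) {h : Matrix F.ι E.ι A.S} (hh : DegM E.p F.p 0 h) {z w : ℂ}
    (hz : z * w = 1) : ∃ a b, Nonempty (X ≅ (⟨F.ι ⊕ E.ι, Sum.elim F.p E.p,
      Matrix.fromBlocks (h * D.toBlocks₁₂ + D.toBlocks₂₂) (z • gPhi D h) (w • D.toBlocks₁₂)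
        (D.toBlocks₁₁ - D.toBlocks₁₂ * h), a, b⟩ : MF A V)) := by
  obtain ⟨d1, d2, ⟨i⟩⟩ := hX
  obtain ⟨a, b, ⟨k⟩⟩ := conj_md (E := (⟨E.ι ⊕ F.ι, Sum.elim E.p F.p, D, d1, d2⟩ : MF A V))
    (q := Sum.elim F.p E.p)
    (DegM.fromBlocks (dsmul z hh) (dsmul z (done _)) (done _) (DegM.zero _ _ _))
    (DegM.fromBlocks (DegM.zero _ _ _) (done _) (dsmul w (done _)) hh.neg)
    (gauge_inv h hz) (gauge_inv' h hz) (gauge_conj D h hz)
  exact ⟨a, b, ⟨i ≪≫ k⟩⟩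

instance : Nonempty (MF A V) := ⟨zeroMF A V⟩

theorem MLim.move (hP : PotL 𝒰 W W0) {X : ∀ n, MF A (W n)} {E G F : MF A W0} (H : MLim 𝒰 X G)
    (t : A2bTr E G F) :
    (∃ Y Z : ∀ n, MF A (W n), (∀ᶠ n in (𝒰 : Filter I), A2bTr (Y n) (X n) (Z n)) ∧
      MLim 𝒰 Y E ∧ MLim 𝒰 Z F) ∨
    ∃ (G' : MF A W0) (f : F ⟶ G') (g : G' ⟶ E) (δ : E ⟶ F⟦(1 : ℤ)⟧),
      Triangle.mk f g δ ∈ distTriang (MF A W0) ∧ δ ≠ 0 ∧ MLim 𝒰 X G' := by
  obtain ⟨f, f1, f2, ⟨i⟩⟩ := exists_blk t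
  obtain ⟨D, c, hD⟩ : ∃ D : I → Matrix (E.ι ⊕ F.ι) (E.ι ⊕ F.ι) A.S,
      Cv (𝒰 : Filter I) D (Matrix.fromBlocks E.d f 0 F.d) ∧
        ∀ᶠ n in (𝒰 : Filter I), Md (blk E F f f1 f2) (D n) (X n) := H.isoR hP i
  have c11 : Cv 𝒰 (fun n => (D n).toBlocks₁₁) E.d := c.submatrix Sum.inl Sum.inl
  have c12 : Cv 𝒰 (fun n => (D n).toBlocks₁₂) f := c.submatrix Sum.inl Sum.inr
  have c21 : Cv 𝒰 (fun n => (D n).toBlocks₂₁) 0 := c.submatrix Sum.inr Sum.inl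
  have c22 : Cv 𝒰 (fun n => (D n).toBlocks₂₂) F.d := c.submatrix Sum.inr Sum.inr
  have := hP.fin.ds E.p F.p 0
  have := hP.fin.ds E.p F.p (A.en 3)
  obtain ⟨h, hh, ch, alt⟩ := gauge 𝒰 (DS E.p F.p 0) (DS E.p F.p (A.en 3))
    (fun n => gPhi (D n)) (fun k => k * E.d - F.d * k)
    (hD.mono fun n hn h hh => by
      obtain ⟨a, -⟩ := gauge_md hn hh (one_mul (1 : ℂ))
      have : DegM E.p F.p (A.en 3) ((1 : ℂ) • gPhi (D n) h) := fun x y => a (.inl x) (.inr y)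
      rwa [one_smul] at this)
    (fun n J l h h0 hc => (((Cv.const l _).add (hc.mmul (Cv.const l _))).sub
      ((Cv.const l _).mmul hc)).sub ((hc.mmul (Cv.const l _)).mmul hc))
    (c21.congr' (fun n => by simp [gPhi]) rfl)
    (fun h μ k ch tμ hμ => by
      have ck := Cv.const (𝒰 : Filter I) k
      refine ((((ck.mmul c11).sub (c22.mmul ck)).neg.add ((((ck.mmul c12).mmul ch).add
        ((ch.mmul c12).mmul ck)).sub (Cv.smul tμ ((ck.mmul c12).mmul ck)))).congr' (fun _ => rfl)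
        (by simp)).congr (hμ.mono fun n hn => (gPhi_diff (D n) (h n) k hn).symm))
  have cE : Cv 𝒰 (fun n => (D n).toBlocks₁₁ - (D n).toBlocks₁₂ * h n) E.d :=
    (c11.sub (c12.mmul ch)).congr' (fun _ => rfl) (by simp)
  have cF : Cv 𝒰 (fun n => h n * (D n).toBlocks₁₂ + (D n).toBlocks₂₂) F.d :=
    ((ch.mmul c12).add c22).congr' (fun _ => rfl) (by simp)
  rcases alt with h0 | ⟨μ, e, tμ, hμ, ce, hne⟩
  · left
    have key : ∀ᶠ n in (𝒰 : Filter I), ∃ y : MF A (W n) × MF A (W n), A2bTr y.1 (X n) y.2 ∧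
        Md E ((D n).toBlocks₁₁ - (D n).toBlocks₁₂ * h n) y.1 ∧
        Md F (h n * (D n).toBlocks₁₂ + (D n).toBlocks₂₂) y.2 := by
      filter_upwards [hD, h0] with n hn hz
      obtain ⟨a, b, ⟨k⟩⟩ := gauge_md hn (hh n) (one_mul (1 : ℂ))
      have b' := b
      rw [hz, one_smul, one_smul] at b'
      obtain ⟨b1, -, b3, b4⟩ := blocks_sq b'
      simp only [Matrix.zero_mul, Matrix.mul_zero, add_zero, zero_add] at b1 b4
      let Y : MF A (W n) := ⟨E.ι, E.p, _, fun x y => a (.inr x) (.inr y), b4⟩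
      let Z : MF A (W n) := ⟨F.ι, F.p, _, fun x y => a (.inl x) (.inl y), b1⟩
      have g1 : DegM F.p E.p (A.en 3) (D n).toBlocks₁₂ := fun x y => hn.1 (.inl x) (.inr y)
      have g2 : Y.d * (D n).toBlocks₁₂ + (D n).toBlocks₁₂ * Z.d = 0 := (add_comm _ _).trans b3
      refine ⟨(Y, Z), a2b_iso (blk_a2b Y Z _ g1 g2) (Iso.refl _) (k ≪≫ ?_).symm (Iso.refl _),
        ⟨_, _, ⟨Iso.refl _⟩⟩, ⟨_, _, ⟨Iso.refl _⟩⟩⟩
      refine permIso (Equiv.sumComm _ _) ?_ ?_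
      · rintro (x | x) <;> rfl
      · rintro (x | x) (y | y)
        · rfl
        · exact (congrFun (congrFun (by rw [hz, smul_zero] :
            (1 : ℂ) • gPhi (D n) (h n) = 0) x) y).symm
        · exact (congrFun (congrFun (one_smul ℂ (D n).toBlocks₁₂) x) y).symm
        · rfl
    obtain ⟨y, hy⟩ := ev_choice key
    exact ⟨fun n => (y n).1, fun n => (y n).2, hy.mono fun n h => h.1,
      ⟨_, cE, hy.mono fun n h => h.2.1⟩, ⟨_, cF, hy.mono fun n h => h.2.2⟩⟩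
  · right
    have key := (hD.and hμ).mono fun n hn => gauge_md hn.1 (hh n) (inv_mul_cancel₀ hn.2)
    have c0 : Cv 𝒰 (fun n => μ n • (D n).toBlocks₁₂) 0 :=
      (Cv.smul tμ c12).congr' (fun _ => rfl) (zero_smul _ _)
    have e1 : e ∈ DS E.p F.p (A.en 3) := ce.mem _ (key.mono fun n ⟨a, _⟩ x y => a (.inl x) (.inr y))
    have e2 : F.d * e + e * E.d = 0 :=
      ((cF.mmul ce).add (ce.mmul cE)).uniq (Cv.const _ 0)
        (key.mono fun n ⟨_, b, _⟩ => (blocks_sq b).2.1)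
    refine ⟨blk F E e e1 e2, _, _, _, blk_tri F E e e1 e2, fun h0 => ?_,
      _, cF.fromBlocks ce c0 cE, key⟩
    obtain ⟨k, k1, k2⟩ := (mk_eq_zero _).1 h0
    rw [m3_tw5] at k2
    refine hne (-k) (neg_mem fun x y => ?_) ?_
    · have := k1 x y
      rwa [tw_p, mul_one, A.en_neg, A.H_vadd, ← zero_vadd A.Γ (E.p y)] at this
    · have k3 : -e = -F.d * k + k * E.d := k2
      rw [← neg_neg e, k3]
      simp only [Matrix.neg_mul, Matrix.mul_neg]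
      abel

/-- **the limit structure on matrix factorizations** -/
noncomputable def limMF (hP : PotL 𝒰 W W0) : LimS 𝒰 (fun n => MF A (W n)) (MF A W0) where
  Lim := MLim 𝒰
  isoL := MLim.isoL
  isoR := MLim.isoR hP
  zero := MLim.zero hP
  shift := MLim.shift
  hom := MLim.hom hP
  ext := MLim.ext hP
  move := MLim.move hP

theorem MLim.zf {l : Filter I} {X : ∀ n, MF A (W n)} {E : MF A W0} (H : MLim l X E) :
    ∀ᶠ n in l, Zf (X n) = Zf E := by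
  obtain ⟨d, -, h⟩ := H
  filter_upwards [h] with n ⟨_, _, ⟨i⟩⟩ using K1a_Zf_iso i

theorem limMF_zc (hP : PotL 𝒰 W W0) (κ : ℂ) :
    (limMF hP).ZC (fun _ E => κ * Zf E) (fun E => κ * Zf E) :=
  fun H => (MLim.zf H).mono fun _ h => congrArg (κ * ·) h

end Vale.Agent.P287T.G3.Mx
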