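import Vale.Agent.P287T.Op.Fn3
import Vale.Agent.P287T.Op.Mx4
import Vale.Agent.P287T.Df.ModD
import Vale.Agent.P287T.Oc.Tp

/-!
# Limits of matrix factorizations in terms of the normed spaces of matrices
-/

open Vale.Agent.P294 Vale.Agent.P287T.Op Filter Topology CategoryTheory MvPolynomial

namespace Vale.Agent.P287T.G3.Mx

open Vale.Agent.P287T.Cy Vale.Agent.P287T.Df

attribute [local instance] algS

variable {I : Type} {l : Filter I}

theorem cv_of_fd {E : Type} [NormedAddCommGroup E] [NormedSpace ℂ E] [FiniteDimensional ℂ E]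
    {x : I → E} {a : E} (h : Tendsto x l (𝓝 a)) : Cv l x a := by
  let e := (Module.finBasis ℂ E).equivFun
  have h1 : Tendsto (fun n => e (x n)) l (𝓝 (e a)) :=
    (e.toLinearMap.continuous_of_finiteDimensional.tendsto a).comp h
  exact ((Cv.of_tendsto_pi h1).map e.symm.toLinearMap).congr' (fun n => e.symm_apply_apply _)
    (e.symm_apply_apply _)

/-- a homogeneous matrix as a matrix over the ring of the context -/
noncomputable def rawL {ι κ : Type} (p : ι → ℤ) (q : κ → ℤ) (j : ℤ) :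
    MM p q j →ₗ[ℂ] Matrix κ ι (mvCtx 6).S where
  toFun g := g.1
  map_add' _ _ := rfl
  map_smul' z g := Matrix.ext fun i k => smul_eq_C_mul (g.1 i k) z

theorem cv_raw {ι κ : Type} [Finite ι] [Finite κ] {p : ι → ℤ} {q : κ → ℤ} {j : ℤ}
    {d : I → MM p q j} {d0 : MM p q j} (h : Tendsto d l (𝓝 d0)) :
    Cv (M := Matrix κ ι (mvCtx 6).S) l (fun n => (d n).1) d0.1 :=
  (cv_of_fd h).map (rawL p q j)

theorem tendsto_prj {ι κ : Type} [Finite ι] [Finite κ] {p : ι → ℤ} {q : κ → ℤ} {j : ℤ}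
    {d : I → Matrix κ ι S6} {d0 : MM p q j}
    (h : Cv (M := Matrix κ ι (mvCtx 6).S) l d d0.1) (hd : ∀ᶠ n in l, d n ∈ MM p q j) :
    Tendsto (fun n => prj p q j (d n)) l (𝓝 d0) := by
  refine tendsto_MM.2 fun i k m => ?_
  refine Tendsto.congr' (hd.mono fun n hn => ?_)
    ((Cv.entry (M := (mvCtx 6).S) h i k).map (coefL 6 m)).tendsto
  change coeff m (d n i k) = coeff m ((prj p q j (d n)).1 i k)
  rw [prj_of_mem hn]

theorem cv_Hs {w : I → Df.Hs 6} {w0 : Df.Hs 6} (h : Tendsto w l (𝓝 w0)) :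
    Cv l (fun n => mvS (w n).1) (mvS w0.1) := by
  let f : Df.Hs 6 →ₗ[ℂ] (mvCtx 6).S :=
    { toFun := fun g => mvS g.1
      map_add' := fun _ _ => rfl
      map_smul' := fun z s => smul_eq_C_mul s.1 z }
  exact (cv_of_fd h).map f

variable {W : I → S6} {W0 : S6}

theorem md_iff {V : S6} (E : HM W0) (d : Matrix E.ι E.ι S6) (X : HM V) :
    Md E d X ↔ ∃ h : IsMF V E.pz d, Nonempty (ofRaw h ≅ X) := by
  constructor
  · rintro ⟨h1, h2, ⟨e⟩⟩
    exact ⟨⟨fun i k => (mv_H 3 (E.pz k) (E.pz i) (d i k)).1 (h1 i k), h2⟩, ⟨e.symm⟩⟩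
  · rintro ⟨h, ⟨e⟩⟩
    exact ⟨(ofRaw h).deg, h.sq, ⟨e.symm⟩⟩

/-- **limits in raw form** -/
theorem mlim_iff {X : ∀ n, HM (W n)} {E : HM W0} :
    MLim l (W := fun n => mvS (W n)) X E ↔ ∃ d : I → MM E.pz E.pz 3, Tendsto d l (𝓝 (dM E)) ∧
      ∀ᶠ n in l, ∃ h : IsMF (W n) E.pz (d n).1, Nonempty (ofRaw h ≅ X n) := by
  constructor
  · rintro ⟨d, h1, h2⟩
    have h3 := h2.mono fun n hn => (md_iff E (d n) (X n)).1 hn
    refine ⟨fun n => prj _ _ 3 (d n), tendsto_prj (d0 := dM E) h1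
      (h3.mono fun n ⟨h, _⟩ => h.deg), ?_⟩
    filter_upwards [h3] with n ⟨h, e⟩
    have h4 := prj_of_mem h.deg
    generalize (prj E.pz E.pz 3 (d n)).1 = g at h4
    subst h4
    exact ⟨h, e⟩
  · rintro ⟨d, h1, h2⟩
    exact ⟨fun n => (d n).1, cv_raw h1, h2.mono fun n hn => (md_iff E _ (X n)).2 hn⟩

theorem mlim_mdl {X : I → HM W0} {E : HM W0} :
    MLim l (W := fun _ => mvS W0) X E ↔ ∃ d : I → MM E.pz E.pz 3, Tendsto d l (𝓝 (dM E)) ∧
      ∀ᶠ n in l, Mdl E (d n) (X n) := mlim_iff (W := fun _ => W0)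

theorem mlim_ofRaw {ι : Type} [Fintype ι] [DecidableEq ι] {p : ι → ℤ} {d : I → MM p p 3}
    {d0 : MM p p 3} (h : ∀ n, IsMF (W n) p (d n).1) (h0 : IsMF W0 p d0.1)
    (hd : Tendsto d l (𝓝 d0)) :
    MLim l (W := fun n => mvS (W n)) (fun n => ofRaw (h n)) (ofRaw h0) :=
  mlim_iff.2 ⟨d, hd, Eventually.of_forall fun n => ⟨h n, ⟨Iso.refl _⟩⟩⟩

/-- a statement holds eventually if it holds along all ultrafilters on the bad set -/
theorem ev_of_ultra {T : Type} {l : Filter T} {Q : T → Prop}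
    (h : ∀ 𝒰 : Ultrafilter {t // ¬ Q t},
      Tendsto (Subtype.val : {t // ¬ Q t} → T) 𝒰 l → False) :
    ∀ᶠ t in l, Q t := by
  by_contra hn
  have : (comap (Subtype.val : {t // ¬ Q t} → T) l).NeBot := by
    rw [comap_neBot_iff_frequently]
    exact (not_eventually.1 hn).mono fun t ht => ⟨⟨t, ht⟩, rfl⟩
  exact h (Ultrafilter.of _) (tendsto_iff_comap.2 (Ultrafilter.of_le _))

/-- a class of objects which is open along ultrafilters -/
def OpU (Q : ∀ (V : S6), V.IsHomogeneous 3 → SmoothForm V → HM V → Prop) : Prop :=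
  ∀ (I : Type) (𝒰 : Ultrafilter I) (W : I → S6) (W0 : S6) (hW : ∀ n, (W n).IsHomogeneous 3)
    (hs : ∀ n, SmoothForm (W n)) (hW0 : W0.IsHomogeneous 3) (hs0 : SmoothForm W0),
    Cv 𝒰 (fun n => mvS (W n)) (mvS W0) → ∀ (X : ∀ n, HM (W n)) (E : HM W0),
    MLim 𝒰 (W := fun n => mvS (W n)) X E → Q W0 hW0 hs0 E →
      ∀ᶠ n in (𝒰 : Filter I), Q (W n) (hW n) (hs n) (X n)

/-- **openness in raw form**, along any filter -/
theorem OpU.raw {Q : ∀ (V : S6), V.IsHomogeneous 3 → SmoothForm V → HM V → Prop} (hO : OpU Q)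
    {T : Type} {l : Filter T} {w : T → S6} {W0 : S6}
    (hw : ∀ m, Tendsto (fun t => coeff m (w t)) l (𝓝 (coeff m W0))) {hW0 : W0.IsHomogeneous 3}
    {hs0 : SmoothForm W0} {ι : Type} [Fintype ι] [DecidableEq ι] {p : ι → ℤ} {d : T → MM p p 3}
    {d0 : MM p p 3} (hd : Tendsto d l (𝓝 d0)) {h0 : IsMF W0 p d0.1}
    (hE : Q W0 hW0 hs0 (ofRaw h0)) :
    ∀ᶠ t in l, ∀ (hW : (w t).IsHomogeneous 3) (hs : SmoothForm (w t))
      (h : IsMF (w t) p (d t).1), Q (w t) hW hs (ofRaw h) := by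
  refine ev_of_ultra fun 𝒰 hU => ?_
  have hb : ∀ t : {t // ¬ ∀ (hW : (w t).IsHomogeneous 3) (hs : SmoothForm (w t))
      (h : IsMF (w t) p (d t).1), Q (w t) hW hs (ofRaw h)},
      ∃ (hW : (w t).IsHomogeneous 3) (hs : SmoothForm (w t)) (h : IsMF (w t) p (d t).1),
        ¬ Q (w t) hW hs (ofRaw h) := fun t => by
    simpa only [not_forall] using t.2
  choose hW hs h hq using hb
  obtain ⟨t, ht⟩ := (hO _ 𝒰 (fun t => w t.1) W0 hW hs hW0 hs0
    (cv_of_tendsto (Eventually.of_forall hW) hW0 fun m => (hw m).comp hU) _ _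
    (mlim_ofRaw h h0 (hd.comp hU)) hE).exists
  exact hq t ht

/-- openness for a fixed potential -/
theorem OpU.fix {Q : ∀ (V : S6), V.IsHomogeneous 3 → SmoothForm V → HM V → Prop} (hO : OpU Q)
    {hW0 : W0.IsHomogeneous 3} {hs0 : SmoothForm W0} {E : HM W0} (hE : Q W0 hW0 hs0 E) :
    ∀ᶠ d in 𝓝 (dM E), ∀ h : IsMF W0 E.pz d.1, Q W0 hW0 hs0 (ofRaw h) :=
  (hO.raw (w := fun _ => W0) (fun _ => tendsto_const_nhds) (d := fun d => d) (d0 := dM E)
    tendsto_id (h0 := E.isMF) (hW0 := hW0) (hs0 := hs0) hE).mono fun _ hd h => hd hW0 hs0 h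

end Vale.Agent.P287T.G3.Mx
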