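import Vale.Agent.P287T.Op.Abs4

/-!
# Thick classes of families
-/

set_option linter.unusedSectionVars false

open CategoryTheory CategoryTheory.Pretriangulated CategoryTheory.Limits Filter

namespace Vale.Agent.P287T.Op

open Vale.Agent.P294

universe v u v' u' v'' u''

section single

variable {D : Type u'} [Category.{v'} D]

/-- `X` is a retract of `Y` -/
def Rt (X Y : D) : Prop := ∃ (i : X ⟶ Y) (p : Y ⟶ X), i ≫ p = 𝟙 X

theorem Rt.refl (X : D) : Rt X X := ⟨𝟙 X, 𝟙 X, Category.comp_id _⟩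

theorem Rt.trans {X Y Z : D} (h : Rt X Y) (h' : Rt Y Z) : Rt X Z := by
  obtain ⟨i, p, e⟩ := h
  obtain ⟨j, q, e'⟩ := h'
  exact ⟨i ≫ j, q ≫ p, by rw [Category.assoc, ← Category.assoc j, e', Category.id_comp, e]⟩

theorem Rt.of_iso {X Y : D} (e : X ≅ Y) : Rt X Y := ⟨e.hom, e.inv, e.hom_inv_id⟩

theorem Rt.map {D' : Type u''} [Category.{v''} D'] (F : D ⥤ D') {X Y : D} (h : Rt X Y) :
    Rt (F.obj X) (F.obj Y) := by
  obtain ⟨i, p, e⟩ := h
  exact ⟨F.map i, F.map p, by rw [← F.map_comp, e, F.map_id]⟩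

variable [Preadditive D] [HasZeroObject D] [HasShift D ℤ]
  [∀ k : ℤ, (shiftFunctor D k).Additive] [Pretriangulated D]

/-- an extension of retracts is a retract of an extension -/
theorem Rt.ext {A X B A' B' : D} (t : A2bTr A X B) (hA : Rt A A') (hB : Rt B B') :
    ∃ X', A2bTr A' X' B' ∧ Rt X X' := by
  obtain ⟨f, g, δ, hT⟩ := t
  obtain ⟨i, p, e⟩ := hA
  obtain ⟨j, q, e'⟩ := hB
  obtain ⟨X', f', g', hT'⟩ := distinguished_cocone_triangle₂ (q ≫ δ ≫ i⟦(1 : ℤ)⟧')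
  obtain ⟨a, ha1, ha2⟩ := complete_distinguished_triangle_morphism₂ _ _ hT hT' i j (by
    change δ ≫ i⟦(1 : ℤ)⟧' = j ≫ q ≫ δ ≫ i⟦(1 : ℤ)⟧'
    rw [← Category.assoc j, e', Category.id_comp])
  obtain ⟨b, hb1, hb2⟩ := complete_distinguished_triangle_morphism₂ _ _ hT' hT p q (by
    change (q ≫ δ ≫ i⟦(1 : ℤ)⟧') ≫ p⟦(1 : ℤ)⟧' = q ≫ δ
    rw [Category.assoc, Category.assoc, ← Functor.map_comp, e, CategoryTheory.Functor.map_id,
      Category.comp_id])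
  change X ⟶ X' at a
  change X' ⟶ X at b
  change f ≫ a = i ≫ f' at ha1
  change g ≫ j = a ≫ g' at ha2
  change f' ≫ b = p ≫ f at hb1
  change g' ≫ q = b ≫ g at hb2
  let φ : Triangle.mk f g δ ⟶ Triangle.mk f g δ :=
    { hom₁ := 𝟙 A
      hom₂ := a ≫ b
      hom₃ := 𝟙 B
      comm₁ := by
        change f ≫ a ≫ b = 𝟙 A ≫ f
        rw [← Category.assoc, ha1, Category.assoc, hb1, ← Category.assoc, e]
      comm₂ := by
        change g ≫ 𝟙 B = (a ≫ b) ≫ g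
        rw [Category.assoc, ← hb2, ← Category.assoc, ← ha2, Category.assoc, e']
      comm₃ := by
        change δ ≫ (𝟙 A)⟦(1 : ℤ)⟧' = 𝟙 B ≫ δ
        rw [CategoryTheory.Functor.map_id, Category.comp_id, Category.id_comp] }
  have hI : IsIso φ.hom₂ := isIso₂_of_isIso₁₃ φ hT hT (inferInstanceAs (IsIso (𝟙 A)))
    (inferInstanceAs (IsIso (𝟙 B)))
  have hI' : IsIso (a ≫ b) := hI
  exact ⟨X', ⟨f', g', _, hT'⟩, a, b ≫ inv (a ≫ b), by
    rw [← Category.assoc, IsIso.hom_inv_id]⟩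

theorem tr_map {D' : Type u''} [Category.{v''} D'] [Preadditive D'] [HasZeroObject D']
    [HasShift D' ℤ] [∀ k : ℤ, (shiftFunctor D' k).Additive] [Pretriangulated D'] (F : D ⥤ D')
    [F.CommShift ℤ] [F.IsTriangulated] {A X B : D} (t : A2bTr A X B) :
    A2bTr (F.obj A) (F.obj X) (F.obj B) := by
  obtain ⟨f, g, δ, hT⟩ := t
  exact ⟨_, _, _, F.map_distinguished _ hT⟩

end single

variable {I : Type} (l : Filter I) {C : I → Type u} [∀ n, Category.{v} (C n)]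
  [∀ n, Preadditive (C n)] [∀ n, HasZeroObject (C n)] [∀ n, HasShift (C n) ℤ]
  [∀ n (k : ℤ), (shiftFunctor (C n) k).Additive] [∀ n, Pretriangulated (C n)]

/-- a class of families closed under extensions and retracts -/
structure FTh (Q : (∀ n, C n) → Prop) : Prop where
  zero : ∀ {X : ∀ n, C n}, (∀ᶠ n in l, IsZero (X n)) → Q X
  ext : ∀ {A X B : ∀ n, C n}, (∀ᶠ n in l, A2bTr (A n) (X n) (B n)) → Q A → Q B → Q X
  ret : ∀ {X Y : ∀ n, C n}, (∀ᶠ n in l, Rt (X n) (Y n)) → Q Y → Q X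

variable {l}

theorem FTh.iso {Q : (∀ n, C n) → Prop} (h : FTh l Q) {X Y : ∀ n, C n}
    (e : ∀ᶠ n in l, Nonempty (X n ≅ Y n)) (hY : Q Y) : Q X :=
  h.ret (e.mono fun _ hn => hn.elim Rt.of_iso) hY

theorem FTh.iso' {Q : (∀ n, C n) → Prop} (h : FTh l Q) {X Y : ∀ n, C n}
    (e : ∀ n, Nonempty (X n ≅ Y n)) (hY : Q Y) : Q X :=
  h.iso (Eventually.of_forall e) hY

theorem FTh.forall {α : Type} {Q : α → (∀ n, C n) → Prop} (h : ∀ a, FTh l (Q a)) :
    FTh l fun X => ∀ a, Q a X where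
  zero hX a := (h a).zero hX
  ext t hA hB a := (h a).ext t (hA a) (hB a)
  ret t hY a := (h a).ret t (hY a)

theorem FTh.comap {C' : I → Type u'} [∀ n, Category.{v'} (C' n)]
    [∀ n, Preadditive (C' n)] [∀ n, HasZeroObject (C' n)] [∀ n, HasShift (C' n) ℤ]
    [∀ n (k : ℤ), (shiftFunctor (C' n) k).Additive] [∀ n, Pretriangulated (C' n)]
    {Q : (∀ n, C n) → Prop} (h : FTh l Q) (F : ∀ n, C' n ⥤ C n) [∀ n, (F n).CommShift ℤ]
    [∀ n, (F n).IsTriangulated] : FTh l fun X : ∀ n, C' n => Q fun n => (F n).obj (X n) where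
  zero hX := h.zero (hX.mono fun n hn => (F n).map_isZero hn)
  ext t hA hB := h.ext (t.mono fun n hn => tr_map (F n) hn) hA hB
  ret t hY := h.ret (t.mono fun n hn => hn.map (F n)) hY

theorem ev_choose {α : I → Type u'} (d : ∀ n, α n) {P : ∀ n, α n → Prop}
    (h : ∀ᶠ n in l, ∃ x, P n x) : ∃ x : ∀ n, α n, ∀ᶠ n in l, P n (x n) := by
  classical
  refine ⟨fun n => if hn : ∃ x, P n x then hn.choose else d n, h.mono fun n hn => ?_⟩
  simp only [dif_pos hn]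
  exact hn.choose_spec

variable {𝒰 : Ultrafilter I} [∀ n, IsTriangulated (C n)]
  {D : Type u'} [Category.{v'} D] [Preadditive D] [HasZeroObject D] [HasShift D ℤ]
  [∀ k : ℤ, (shiftFunctor D k).Additive] [Pretriangulated D] [IsTriangulated D]

/-- retracts of families with a limit -/
def LimS.RL (L : LimS 𝒰 C D) (X : ∀ n, C n) : Prop :=
  ∃ Y, L.HL Y ∧ ∀ᶠ n in (𝒰 : Filter I), Rt (X n) (Y n)

theorem LimS.HL.rl {L : LimS 𝒰 C D} {X : ∀ n, C n} (h : L.HL X) : L.RL X :=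
  ⟨X, h, Eventually.of_forall fun _ => Rt.refl _⟩

theorem LimS.fth_rl (L : LimS 𝒰 C D) : FTh (𝒰 : Filter I) L.RL where
  zero h := (LimS.HL.zero h).rl
  ext {A X B} t hA hB := by
    obtain ⟨A', h1, h2⟩ := hA
    obtain ⟨B', h3, h4⟩ := hB
    have h5 : ∀ᶠ n in (𝒰 : Filter I), ∃ X', A2bTr (A' n) X' (B' n) ∧ Rt (X n) X' := by
      filter_upwards [t, h2, h4] with n t1 t2 t3
      exact Rt.ext t1 t2 t3
    obtain ⟨X', h6⟩ := ev_choose X h5
    exact ⟨X', LimS.HL.ext (h6.mono fun _ hn => hn.1) h1 h3, h6.mono fun _ hn => hn.2⟩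
  ret t hY := by
    obtain ⟨Y', h1, h2⟩ := hY
    refine ⟨Y', h1, ?_⟩
    filter_upwards [t, h2] with n t1 t2
    exact t1.trans t2

theorem LimS.RL.hl {L : LimS 𝒰 C D} {τ : Slic D} {Z : D → ℂ} {r : D → ℕ} {c : ℝ}
    {σ : ∀ n, Slic (C n)} {w : ℝ} (h : Stab τ Z r c) (hd : Disc Z) (hw : L.WOpen σ τ w)
    (hw0 : 0 ≤ w) {X : ∀ n, C n} (hX : L.RL X) {a b : ℝ}
    (hab : ∀ᶠ n in (𝒰 : Filter I), (σ n).U a (X n) ∧ (σ n).V b (X n)) : L.HL X := by
  obtain ⟨Y, h1, h2⟩ := hX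
  exact LimS.HL.ret h hd hw hw0 h1 h2 hab

end Vale.Agent.P287T.Op
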