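import Vale.Agent.P287T.Op.T0
import Vale.Agent.P287T.Op.Mx4
import Vale.Agent.P287T.Op.Fn2

/-!
# Families with fixed labels are retracts of convergent families
-/

open Vale.Agent.P294 Vale.Agent.P287T.Op Filter Topology CategoryTheory CategoryTheory.Limits
  CategoryTheory.Pretriangulated Polynomial

namespace Vale.Agent.P287T.G3.Mx

attribute [local instance] algS

section point

variable {A : GCtx} {W : A.S}

/-- a block of the differential is a retract -/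
theorem rt_res (E : MF A W) (q : E.ι → Prop) [DecidablePred q]
    (hq : ∀ i j, E.d i j ≠ 0 → (q i ↔ q j)) : Rt (E2_res E q hq) E := by
  have hv : Function.Injective (Subtype.val : {i : E.ι // q i} → E.ι) := Subtype.val_injective
  have h1 : (1 : Matrix E.ι E.ι A.S).submatrix id (Subtype.val : {i : E.ι // q i} → E.ι) ∈
      Z0 (E2_res E q hq) E := by
    refine L1_Z0 (E2_res E q hq) E E.d Subtype.val id hv Function.injective_id rfl rfl ?_ ?_ ?_
    · intro i j h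
      exact absurd rfl (h j.1)
    · intro i j h
      by_contra h0
      exact h ⟨i, (hq _ _ h0).2 j.2⟩ rfl
    · rintro i j (rfl : i = j.1)
      exact A.one_mem _
  have h2 : (1 : Matrix E.ι E.ι A.S).submatrix (Subtype.val : {i : E.ι // q i} → E.ι) id ∈
      Z0 E (E2_res E q hq) := by
    refine L1_Z0 E (E2_res E q hq) E.d id Subtype.val Function.injective_id hv rfl rfl ?_ ?_ ?_
    · intro i j h
      by_contra h0
      exact h ⟨j, (hq _ _ h0).1 i.2⟩ rfl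
    · intro i j h
      exact absurd rfl (h i.1)
    · rintro i j (rfl : i.1 = j)
      exact A.one_mem _
  refine ⟨mk _ h1, mk _ h2, (mk_comp_mk h1 h2).trans (mk_congr _ ?_)⟩
  exact (L1_comp _ id _ Function.injective_id fun _ j _ => ⟨j.1, rfl⟩).trans (L1_one _ hv)

/-- an object is a retract of the induction of its underlying object -/
theorem rt_ind (X : MFT A W) : Rt X (IndO ((Fo A W).functor.obj X)) := by
  have hX : ∀ (i j : X.ι), (show A.S[X] from X.d i j) ∈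
      A.T.H (A.T.en 3 +ᵥ (show A.T.L from (X.p j : A.L × ZMod 3))) (X.p i) :=
    fun i j => X.deg i j
  have hq : ∀ i j : (IndO ((Fo A W).functor.obj X)).ι,
      (IndO ((Fo A W).functor.obj X)).d i j ≠ 0 →
      (i.2 = (show A.L × ZMod 3 from X.p i.1.1).2 ↔
        j.2 = (show A.L × ZMod 3 from X.p j.1.1).2) := by
    rintro ⟨i, u⟩ ⟨j, v⟩ h
    have h1 := E2_wtPart_ne (hX i.1 j.1) h
    change u = (show A.L × ZMod 3 from X.p i.1).2 ↔ v = (show A.L × ZMod 3 from X.p j.1).2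
    constructor
    · intro h2
      linear_combination h1 + h2
    · intro h2
      linear_combination h2 - h1
  refine Rt.trans ?_ (rt_res (IndO ((Fo A W).functor.obj X)) _ hq)
  obtain ⟨e⟩ := E2_reindex (E := E2_res (IndO ((Fo A W).functor.obj X)) _ hq) (F := X)
    { toFun := fun jv => jv.1.1.1
      invFun := fun j => ⟨(⟨j, trivial⟩, (show A.L × ZMod 3 from X.p j).2), rfl⟩
      left_inv := by
        rintro ⟨⟨⟨j, hj⟩, v⟩, h⟩
        exact Subtype.ext (Prod.ext rfl h.symm)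
      right_inv := fun j => rfl }
    (by
      rintro ⟨⟨⟨j, hj⟩, v⟩, h⟩
      change (show A.L × ZMod 3 from X.p j) = ((show A.L × ZMod 3 from X.p j).1, v)
      exact Prod.ext rfl h.symm)
    (by
      rintro ⟨⟨⟨i, hi⟩, u⟩, h⟩ ⟨⟨⟨j, hj⟩, v⟩, h'⟩
      change u = (show A.L × ZMod 3 from X.p i).2 at h
      change v = (show A.L × ZMod 3 from X.p j).2 at h'
      change X.d i j = wtPart (v - u) (X.d i j)
      refine (E2_wtPart_eq (hX i j) ?_).symm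
      rw [h, h'])
  exact Rt.of_iso e.symm

variable {Wt : A.S[X]}

/-- `C` is a cone of the multiplication by `y ^ k` -/
def KC (E : MF A.P (inP A Wt)) (k : ℕ) (C : MF A.P (inP A Wt)) : Prop :=
  ∃ (g : E ⟶ C) (h : C ⟶ (tw (A.P.en (-2 * k)) E)⟦(1 : ℤ)⟧),
    Triangle.mk (k2X E k) g h ∈ distTriang _

theorem KC.ex (E : MF A.P (inP A Wt)) (k : ℕ) : ∃ C, KC E k C :=
  distinguished_cocone_triangle (k2X E k)

theorem KC.zero {E C : MF A.P (inP A Wt)} (h : KC E 0 C) : IsZero C := by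
  obtain ⟨g, δ, hT⟩ := h
  exact (Triangle.isZero₃_iff_isIso₁ _ hT).2 (k2X_zero E)

theorem KC.step (hW : ∀ a, (inP A Wt) ∈ A.P.H (A.P.en 6 +ᵥ a) a) {E C : MF A.P (inP A Wt)}
    {k : ℕ} (h : KC E (k + 1) C) :
    ∃ C', KC E k C' ∧ A2bTr (tw (A.P.en (-2 * k)) (k2R hW ((k2G Wt).obj E))) C C' := by
  obtain ⟨g, δ, hT⟩ := h
  obtain ⟨hm, g0, h0, hT0⟩ := Ev_cone (A := A) (Wt := Wt) (l := 0) k2_hl hW E
  have hT1 := (twF (A.P.en (-2 * k))).map_distinguished _ hT0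
  have ha : A.P.en (-2 * ((k + 1 : ℕ) : ℤ)) = A.P.en (-2) + A.P.en (-2 * k) := by
    rw [← A.P.en_add]; congr 1; push_cast; ring
  have hT2 := k2_pre hT1 (twAdd E ha)
  obtain ⟨Ck, gk, hk, hTk⟩ := distinguished_cocone_triangle (k2X E k)
  have comm := k2_comm E k hm ha
  have oct := Triangulated.someOctahedron comm hT2 hTk hT
  exact ⟨Ck, ⟨gk, hk, hTk⟩, _, _, _, oct.mem⟩

theorem KC.rt {E C : MF A.P (inP A Wt)} {N : ℕ} (h : KC E N C)
    (hN : NH E ((show A.P.S from (X : A.S[X])) ^ N) (A.P.en (2 * N))) : Rt E C := by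
  obtain ⟨g, δ, hT⟩ := h
  obtain ⟨r, hr⟩ := Triangle.yoneda_exact₂ _ hT (𝟙 E) (by
    change k2X E N ≫ 𝟙 E = 0
    rw [k2_null hN, Limits.zero_comp])
  exact ⟨g, r, hr.symm⟩

theorem nh_WP [GCtx.Aug A] (E : MF A.P (WP A W)) :
    NH E ((show A.P.S from (X : A.S[X])) ^ 2) (A.P.en (2 * (2 : ℕ))) := by
  have h1 := (F1Der.dX A).NH E
  have hδ : (F1Der.dX A).D (WP A W) = 3 * (show A.P.S from (X : A.S[X])) ^ 2 := F1_der_X W
  rw [hδ] at h1
  have h2 := F1_NH_smul h1 (1 / 3)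
  have e : GCtx.Aug.cst (A := A.P) (1 / 3) * (3 * (show A.P.S from (X : A.S[X])) ^ 2) =
      (show A.P.S from (X : A.S[X])) ^ 2 := by
    rw [← mul_assoc]
    have : GCtx.Aug.cst (A := A.P) (1 / 3) * 3 = 1 := by
      have h5 : (3 : A.P.S) = GCtx.Aug.cst (A := A.P) 3 := by
        rw [map_ofNat]
      rw [h5, ← map_mul]
      norm_num
    rw [this, one_mul]
  rw [e] at h2
  have e2 : A.P.en (2 * ((2 : ℕ) : ℤ)) = A.P.en 4 := by norm_num
  rw [e2]
  exact h2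

end point

variable {A B : GCtx} {I : Type} {l : Filter I} {W : I → A.S} {W0 : A.S} {V : I → B.S}
  {V0 : B.S}

/-- the labels of the family are eventually constant -/
def SL (l : Filter I) (X : ∀ n, MF A (W n)) : Prop :=
  ∃ (k : ℕ) (p : Fin k → A.L), ∀ᶠ n in l, ∃ e : Fin k ≃ (X n).ι, ∀ i, (X n).p (e i) = p i

theorem SL.chom {X : ∀ n, MF A (W n)} (h : SL l X) (Φ : ∀ n, CHom A B (W n) (V n))
    (f : A.L → B.L) (hd : ∀ n a, (Φ n).dom a) (hf : ∀ n a, (Φ n).lab a = f a) :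
    SL l fun n => (Φ n).obj (X n) := by
  obtain ⟨k, p, h⟩ := h
  refine ⟨k, fun i => f (p i), h.mono fun n ⟨e, he⟩ => ?_⟩
  refine ⟨e.trans (Equiv.subtypeUnivEquiv fun i => hd n ((X n).p i)).symm, fun i => ?_⟩
  change (Φ n).lab ((X n).p (e i)) = _
  rw [hf, he]

theorem sl_of_fin {𝒰 : Ultrafilter I} {X : ∀ n, MF A (W n)} {R : ℕ} {F : Set A.L}
    (hF : F.Finite)
    (h : ∀ᶠ n in (𝒰 : Filter I), Fintype.card (X n).ι ≤ R ∧ ∀ i, (X n).p i ∈ F) :
    SL 𝒰 X := by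
  have h1 : ∀ᶠ n in (𝒰 : Filter I), ∃ k ∈ Set.Iic R, Fintype.card (X n).ι = k :=
    h.mono fun n hn => ⟨_, hn.1, rfl⟩
  obtain ⟨k, -, h2⟩ := (Ultrafilter.eventually_exists_mem_iff (Set.finite_Iic R)).1 h1
  have h3 : ∀ᶠ n in (𝒰 : Filter I), ∃ p ∈ {p : Fin k → A.L | ∀ i, p i ∈ F},
      ∃ e : Fin k ≃ (X n).ι, ∀ i, (X n).p (e i) = p i := by
    filter_upwards [h, h2] with n t1 t2
    exact ⟨fun i => (X n).p ((Fintype.equivFinOfCardEq t2).symm i), fun i => t1.2 _,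
      (Fintype.equivFinOfCardEq t2).symm, fun _ => rfl⟩
  obtain ⟨p, -, h4⟩ :=
    (Ultrafilter.eventually_exists_mem_iff (Set.Finite.pi' fun _ => hF)).1 h3
  exact ⟨k, p, h4⟩

variable [GCtx.Aug A] [GCtx.Aug B]

/-- retracts of convergent families -/
def RLm (l : Filter I) (W0 : A.S) (X : ∀ n, MF A (W n)) : Prop :=
  ∃ (Y : ∀ n, MF A (W n)) (E : MF A W0), MLim l Y E ∧ ∀ᶠ n in l, Rt (X n) (Y n)

theorem RLm.ret {X Y : ∀ n, MF A (W n)} (h : RLm l W0 Y) (e : ∀ᶠ n in l, Rt (X n) (Y n)) :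
    RLm l W0 X := by
  obtain ⟨Z, E, h1, h2⟩ := h
  refine ⟨Z, E, h1, ?_⟩
  filter_upwards [e, h2] with n t1 t2 using t1.trans t2

theorem RLm.map {X : ∀ n, MF A (W n)} (h : RLm l W0 X) (F : ∀ n, MF A (W n) ⥤ MF B (V n))
    (G : ∀ n, MF A (W n) → MF B (V n)) (e : ∀ n Y, Nonempty ((F n).obj Y ≅ G n Y))
    (hG : ∀ (Y : ∀ n, MF A (W n)) (E : MF A W0), MLim l Y E →
      ∃ E' : MF B V0, MLim l (fun n => G n (Y n)) E') : RLm l V0 fun n => G n (X n) := by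
  obtain ⟨Y, E, h1, h2⟩ := h
  obtain ⟨E', h3⟩ := hG Y E h1
  refine ⟨_, E', h3, h2.mono fun n hn => ?_⟩
  obtain ⟨a⟩ := e n (X n)
  obtain ⟨b⟩ := e n (Y n)
  exact ((Rt.of_iso a.symm).trans (hn.map (F n))).trans (Rt.of_iso b)

theorem RLm.twist {X : ∀ n, MF A (W n)} (h : RLm l W0 X) (γ : A.Γ) :
    RLm l W0 fun n => tw γ (X n) :=
  h.map (fun _ => twF γ) (fun _ Y => tw γ Y) (fun _ _ => ⟨Iso.refl _⟩)
    fun _ _ hY => ⟨_, hY.twist γ⟩

variable {𝒰 : Ultrafilter I}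

theorem rlm_iff (hP : PotL 𝒰 W W0) (X : ∀ n, MF A (W n)) : RLm 𝒰 W0 X ↔ (limMF hP).RL X :=
  ⟨fun ⟨Y, E, h1, h2⟩ => ⟨Y, ⟨E, h1⟩, h2⟩, fun ⟨Y, ⟨E, h1⟩, h2⟩ => ⟨Y, E, h1, h2⟩⟩

theorem fth_rlm (hP : PotL 𝒰 W W0) :
    FTh (C := fun n => MF A (W n)) (𝒰 : Filter I) (RLm 𝒰 W0) := by
  have h : RLm (W := W) 𝒰 W0 = (limMF hP).RL := funext fun X => propext (rlm_iff hP X)
  rw [h]
  exact (limMF hP).fth_rl

/-- families with fixed labels killed by the `N`-th powers of `S` are retracts of convergent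
families -/
def FK (l : Filter I) (W : I → A.S) (W0 : A.S) (S : Set A.S) (N : ℕ) : Prop :=
  ∀ X : ∀ n, MF A (W n), SL l X →
    (∀ᶠ n in l, ∀ s ∈ S, NH (X n) (s ^ N) (A.en (2 * N))) → RLm l W0 X

theorem pt_pot {w : GCtx.pt.S} (h : GCtx.pt.IsPot w) : w = 0 := by
  rcases (GCtx.pt_mem_iff _ _ _).1 (h (0 : ℤ)) with h1 | h1
  · have h2 : (6 : ℤ) • (1 : ℤ) + 0 = 0 := h1
    norm_num at h2
  · exact h1

theorem fk_pt {W : I → GCtx.pt.S} {W0 : GCtx.pt.S} (hP : PotL 𝒰 W W0) (S : Set GCtx.pt.S)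
    (N : ℕ) : FK 𝒰 W W0 S N := by
  rintro X ⟨k, p, hX⟩ -
  have h1 : ∀ᶠ n in (𝒰 : Filter I), ∃ d : Matrix (Fin k) (Fin k) GCtx.pt.S, ∃ a b,
      Nonempty (X n ≅ (⟨Fin k, p, d, a, b⟩ : MF GCtx.pt (W n))) := by
    filter_upwards [hX] with n ⟨e, he⟩
    refine ⟨(X n).d.submatrix e e, fun i j => ?_, ?_, ⟨(permIso
      (E := (⟨Fin k, p, (X n).d.submatrix e e, _, _⟩ : MF GCtx.pt (W n))) (F := X n) e he
      fun _ _ => rfl).symm⟩⟩
    · rw [← he, ← he]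
      exact (X n).deg _ _
    · rw [Matrix.submatrix_mul_equiv, (X n).sq, Matrix.submatrix_smul,
        Pi.smul_apply, Pi.smul_apply, Matrix.submatrix_one_equiv]
  obtain ⟨d, hd⟩ := ev_choose (fun _ => 0) h1
  have := hP.fin.ds p p (GCtx.pt.en 3)
  obtain ⟨z, a, hz, ha⟩ := exists_rescale 𝒰 (DS p p (GCtx.pt.en 3)) d
    (hd.mono fun n ⟨t, _⟩ => t)
  have h2 : ∀ᶠ n in (𝒰 : Filter I), z n • d n * z n • d n = 0 := by
    filter_upwards [hd] with n ⟨_, t, _⟩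
    rw [Matrix.smul_mul, Matrix.mul_smul, t, pt_pot (hP.pot n), zero_smul, smul_zero, smul_zero]
  have h3 : a * a = W0 • (1 : Matrix (Fin k) (Fin k) GCtx.pt.S) := by
    rw [pt_pot hP.pot0, zero_smul]
    exact (ha.mmul ha).uniq (Cv.const _ 0) h2
  have h4 : DegM p p (GCtx.pt.en 3) a :=
    ha.mem (DS p p (GCtx.pt.en 3)) (hd.mono fun n ⟨t, _⟩ => dsmul (z n) t)
  refine ⟨X, ⟨Fin k, p, a, h4, h3⟩, ⟨fun n => z n • d n, ha, ?_⟩,
    Eventually.of_forall fun _ => Rt.refl _⟩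
  filter_upwards [hd] with n ⟨t1, t2, ⟨e⟩⟩
  have hg : ∀ w : ℂ, DegM p p 0
      (Matrix.diagonal fun i => (show GCtx.pt.S from w ^ ((show ℤ from p i) / 3))) := by
    intro w i j
    by_cases hij : i = j
    · subst hij
      exact (GCtx.pt_mem_iff _ _ _).2 (Or.inl (zero_add _))
    · rw [Matrix.diagonal_apply_ne _ hij]
      exact zero_mem _
  have hi : ∀ w w' : ℂ, w * w' = 1 →
      (Matrix.diagonal fun i => (show GCtx.pt.S from w ^ ((show ℤ from p i) / 3))) *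
      (Matrix.diagonal fun i => (show GCtx.pt.S from w' ^ ((show ℤ from p i) / 3))) = 1 := by
    intro w w' h
    rw [Matrix.diagonal_mul_diagonal, ← Matrix.diagonal_one]
    refine congrArg Matrix.diagonal (funext fun i => ?_)
    have h0 : ∀ t : ℤ, w ^ t * w' ^ t = 1 := fun t => by rw [← mul_zpow, h, one_zpow]
    exact h0 _
  obtain ⟨u, v, ⟨e'⟩⟩ := conj_md (E := (⟨Fin k, p, d n, t1, t2⟩ : MF GCtx.pt (W n))) (q := p)
    (hg (z n)) (hg (z n)⁻¹) (hi _ _ (mul_inv_cancel₀ (hz n))) (hi _ _ (inv_mul_cancel₀ (hz n)))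
    (D := z n • d n) (by
      ext i j
      rw [Matrix.mul_diagonal, Matrix.diagonal_mul]
      change z n ^ ((show ℤ from p i) / 3) * (show ℂ from d n i j) *
        (z n)⁻¹ ^ ((show ℤ from p j) / 3) = z n * (show ℂ from d n i j)
      rcases (GCtx.pt_mem_iff _ _ _).1 (t1 i j) with h | h
      · have h5 : (3 : ℤ) • (1 : ℤ) + (show ℤ from p j) = (show ℤ from p i) := h
        have h6 : (show ℤ from p i) / 3 = (show ℤ from p j) / 3 + 1 := by
          rw [← h5, smul_eq_mul]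
          omega
        have h7 := zpow_ne_zero ((show ℤ from p j) / 3) (hz n)
        rw [h6, zpow_add_one₀ (hz n), inv_zpow]
        field_simp
      · rw [show (show ℂ from d n i j) = 0 from h, mul_zero, zero_mul, mul_zero])
  exact ⟨u, v, ⟨e ≪≫ e'⟩⟩

theorem PotL.ev0 {Wt : I → A.S[X]} {Wt0 : A.S[X]} (hA : FinH A)
    (hP : PotL l (fun n => inP A (Wt n)) (inP A Wt0)) :
    PotL l (fun n => evW A (Wt n) 0) (evW A Wt0 0) :=
  ⟨hA, fun n => k2_isPot _ (hP.pot n), k2_isPot _ hP.pot0, cv_evW (Cv.const l 0) hP.cv⟩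

/-- the Koszul step -/
theorem fk_P {Wt : I → A.S[X]} {Wt0 : A.S[X]} (hP : PotL 𝒰 (fun n => inP A (Wt n)) (inP A Wt0))
    {S : Set A.S} {N : ℕ} (h : FK 𝒰 (fun n => evW A (Wt n) 0) (evW A Wt0 0) S N) :
    FK 𝒰 (fun n => inP A (Wt n)) (inP A Wt0)
      (insert (X : A.S[X]) ((fun s => (C s : A.S[X])) '' S) : Set A.S[X]) N := by
  intro Y hY hN
  have h1 : RLm 𝒰 (evW A Wt0 0) fun n => (k2G (Wt n)).obj (Y n) :=
    h _ (hY.chom (fun n => k2Ev (Wt n)) (fun a => a) (fun _ _ => trivial) fun _ _ => rfl)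
      (hN.mono fun n hn s hs => k2_NH (hn _ (Or.inr ⟨s, hs, rfl⟩)))
  choose R _ _ hR using fun n => k2_exists_R (Wt := Wt n) (hP.pot n)
  have h2 : RLm 𝒰 (inP A Wt0) fun n => k2R (hP.pot n) ((k2G (Wt n)).obj (Y n)) :=
    h1.map R (fun n Z => k2R (hP.pot n) Z) hR fun Z E hZ =>
      ⟨_, hZ.fn_EvR (fun _ => k2_hl) hP.pot k2_hl hP.pot0 (Cv.const _ 0) hP.cv⟩
  have h3 : ∀ (k : ℕ) (Z : ∀ n, MF A.P (inP A (Wt n))), (∀ n, KC (Y n) k (Z n)) →
      RLm 𝒰 (inP A Wt0) Z := by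
    intro k
    induction k with
    | zero => exact fun Z hZ => (fth_rlm hP).zero (Eventually.of_forall fun n => (hZ n).zero)
    | succ k ih =>
      intro Z hZ
      choose Z' h4 h5 using fun n => (hZ n).step (hP.pot n)
      exact (fth_rlm hP).ext (Eventually.of_forall h5) (h2.twist _) (ih Z' h4)
  choose Z hZ using fun n => KC.ex (Y n) N
  exact (h3 N Z hZ).ret (hN.mono fun n hn => (hZ n).rt (hn _ (Or.inl rfl)))

theorem fk_co (N : ℕ) : ∀ (m : ℕ) {W : I → (co m).S} {W0 : (co m).S}, PotL 𝒰 W W0 →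
    FK 𝒰 W W0 (vars m) N
  | 0, _, _, hP => fk_pt hP _ N
  | m + 1, W, W0, hP =>
    fk_P (A := co m) (Wt := W) (Wt0 := W0) hP
      (fk_co N m (PotL.ev0 (A := co m) (Wt := W) (Wt0 := W0) (finH_co m) hP))

/-- all families with fixed labels are retracts of convergent families -/
def FK0 (l : Filter I) (W : I → A.S) (W0 : A.S) : Prop :=
  ∀ X : ∀ n, MF A (W n), SL l X → RLm l W0 X

theorem FK.fk0 {S : Set A.S} {N : ℕ} (h : FK l W W0 S N) (hN : ∀ᶠ n in l, Nilp A (W n) S N) :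
    FK0 l W W0 := fun X hX => h X hX (hN.mono fun n hn => hn.nh (X n))

theorem fk0_WP (hP : PotL 𝒰 W W0) (h : FK0 𝒰 W W0) :
    FK0 𝒰 (fun n => WP A (W n)) (WP A W0) := by
  have e : ∀ w : A.S, evW A (C w + X ^ 3) 0 = w := fun w => by simp [evW]
  have h1 : FK 𝒰 (fun n => evW A (C (W n) + X ^ 3) 0) (evW A (C W0 + X ^ 3) 0) ∅ 2 := by
    have e1 : (fun n => evW A (C (W n) + X ^ 3) 0) = W := funext fun n => e _
    rw [e1, e]
    exact fun X hX _ => h X hX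
  intro Y hY
  refine fk_P (Wt := fun n => C (W n) + X ^ 3) (Wt0 := C W0 + X ^ 3) hP.fn_WP h1 Y hY
    (Eventually.of_forall fun n s hs => ?_)
  rcases hs with rfl | ⟨_, hs, _⟩
  · exact nh_WP (Y n)
  · exact hs.elim

theorem fk0_WT (hP : PotL 𝒰 W W0) (h : FK0 𝒰 W W0) :
    FK0 𝒰 (fun n => WT A (W n)) (WT A W0) := by
  intro Y hY
  have h1 := fk0_WP hP h _
    (hY.chom (fun n => Fo A (W n)) (fun a : A.L × ZMod 3 => a.1) (fun _ _ => trivial)
      fun _ _ => rfl)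
  choose R _ hR using fun n => Fo_adj (A := A) (W := W n)
  have h2 : RLm 𝒰 (WT A W0) fun n => IndO ((Fo A (W n)).obj (Y n)) :=
    h1.map R (fun _ Z => IndO Z) hR fun _ _ hZ => ⟨_, hZ.fn_IndO⟩
  exact h2.ret (Eventually.of_forall fun n => rt_ind (Y n))

theorem fk0_TT (hP : PotL 𝒰 W W0) (h : FK0 𝒰 W W0) :
    ∀ m, FK0 𝒰 (fun n => TTW A (W n) m) (TTW A W0 m)
  | 0 => h
  | m + 1 => fk0_WT (A := TT A m) (hP.fn_TT m) (fk0_TT hP h m)

theorem fk0_Fer (𝒰 : Ultrafilter I) (m : ℕ) :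
    FK0 (𝒰 : Filter I) (fun _ => Fer m) (Fer m) :=
  (fk_co 2 m (PotL.fn_const _ (finH_co m) (Fer_isPot m))).fk0
    (Eventually.of_forall fun _ => nilp_Fer m)

end Vale.Agent.P287T.G3.Mx
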